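import Vale.Agent.P318.Deriv

/-! The coordinates of the gradient are paid for by the move edges.
For fixed `c, z` the function `g ↦ f (mv u (c + σ g) z)` is invariant under the reflection `g ↦ g - 2 ⟪u, g⟫ u`
(`stdGaussian_map` for `Submodule.reflection (ℝ ∙ u)ᗮ`), so `∫ f (mv u (c + σ g) z) ⟪u, g⟫ = 0` and
`σ |⟪u, gr σ f c⟫| ≤ ∫ g, ∫ z, |f (c + σ g) - f (mv u (c + σ g) z)| |⟪u, g⟫|` (`inner_gr`).  Put `c = A w`, `A = √(1 - σ²)`,
and rotate (`P347.gam_rot`): `(x, ξ) = (A w + σ g, A g - σ w)` has the law `gam × gam` and `g = σ x + A ξ`, so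
`|⟪u, g⟫| ≤ |⟪u, x⟫| + |⟪u, ξ⟫|`; use `integral_abs_inner_le`. -/

namespace Vale.Agent.P318

open MeasureTheory ProbabilityTheory Finset
open Vale.Agent.P347 (E gam)
open scoped RealInnerProductSpace

variable {d : ℕ} {σ : ℝ} {f : E d → ℝ}

/-- average cut cost of the moves from a point. -/
noncomputable def hh_beta (u : E d) (f : E d → ℝ) (x : E d) : ℝ :=
  ∫ z, cutF f x (mv u x z) ∂(gaussianReal 0 1)

/-- average over the moves from a point. -/
noncomputable def mm_beta (u : E d) (f : E d → ℝ) (x : E d) : ℝ :=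
  ∫ z, f (mv u x z) ∂(gaussianReal 0 1)

lemma U01_int_beta {F : E d × ℝ → ℝ} (hF : U01 F) :
    U01 fun x => ∫ z, F (x, z) ∂(gaussianReal 0 1) := by
  refine ⟨hF.1.stronglyMeasurable.integral_prod_right'.measurable, fun x =>
    ⟨integral_nonneg fun z => (hF.2 _).1, ?_⟩⟩
  simpa using integral_mono_of_nonneg (μ := gaussianReal 0 1) (ae_of_all _ fun z => (hF.2 (x, z)).1)
    (integrable_const (1 : ℝ)) (ae_of_all _ fun z => (hF.2 (x, z)).2)

lemma U01_cut_beta (hf : U01 f) (u : E d) :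
    U01 fun p : E d × ℝ => cutF f p.1 (mv u p.1 p.2) := by
  have h1 := hf.1.comp (measurable_mv u)
  have h2 : Measurable fun p : E d × ℝ => f p.1 := hf.1.comp measurable_fst
  refine ⟨(h2.mul (measurable_const.sub h1)).add (h1.mul (measurable_const.sub h2)), fun p => ?_⟩
  have h3 := hf.2 p.1
  have h4 := hf.2 (mv u p.1 p.2)
  unfold cutF
  constructor <;> nlinarith

lemma hh_U01_beta (hf : U01 f) (u : E d) : U01 (hh_beta u f) := U01_int_beta (U01_cut_beta hf u)

lemma mm_U01_beta (hf : U01 f) (u : E d) : U01 (mm_beta u f) :=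
  U01_int_beta (F := fun p => f (mv u p.1 p.2)) ⟨hf.1.comp (measurable_mv u), fun _ => hf.2 _⟩

lemma integrable_inner_beta (u : E d) : Integrable (fun x : E d => ⟪u, x⟫) (gam d) :=
  (IsGaussian.integrable_id (μ := gam d)).const_inner u

lemma integrable_absinner_beta (u : E d) : Integrable (fun x : E d => |⟪u, x⟫|) (gam d) :=
  (integrable_inner_beta u).abs

lemma mvI_eq_beta (hf : U01 f) (u : E d) :
    mvI u (cutF f) = ∫ x, (1 + |⟪u, x⟫|) * hh_beta u f x ∂(gam d) := by
  have h := U01_cut_beta hf u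
  have hi : Integrable (fun p : E d × ℝ => (1 + |⟪u, p.1⟫|) * cutF f p.1 (mv u p.1 p.2))
      ((gam d).prod (gaussianReal 0 1)) :=
    (((integrable_const (1 : ℝ)).add (integrable_absinner_beta u)).comp_fst _).mul_bdd (c := 1)
      h.1.aestronglyMeasurable
      (ae_of_all _ fun p => by rw [Real.norm_of_nonneg (h.2 _).1]; exact (h.2 _).2)
  rw [mvI, integral_prod _ hi]
  simp only [integral_const_mul, hh_beta]

lemma sub_le_beta (hf : U01 f) (u x : E d) : |f x - mm_beta u f x| ≤ hh_beta u f x := by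
  have hm : Measurable fun z : ℝ => (x, z) := by fun_prop
  have hb : ∀ {F : E d × ℝ → ℝ}, U01 F → Integrable (fun z => F (x, z)) (gaussianReal 0 1) :=
    fun hF => (integrable_const (1 : ℝ)).mono' (hF.1.comp hm).aestronglyMeasurable
      (ae_of_all _ fun p => by rw [Real.norm_of_nonneg (hF.2 _).1]; exact (hF.2 _).2)
  have i1 := hb (F := fun p => f (mv u p.1 p.2)) ⟨hf.1.comp (measurable_mv u), fun _ => hf.2 _⟩
  have h1 : f x - mm_beta u f x = ∫ z, (f x - f (mv u x z)) ∂(gaussianReal 0 1) := by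
    rw [integral_sub (integrable_const _) i1]; simp [mm_beta]
  rw [h1]
  refine abs_integral_le_integral_abs.trans (integral_mono_of_nonneg
    (ae_of_all _ fun z => abs_nonneg _) (hb (U01_cut_beta hf u)) (ae_of_all _ fun z => ?_))
  have h3 := hf.2 x
  have h4 := hf.2 (mv u x z)
  simp only [cutF]
  rw [abs_le]
  constructor <;> nlinarith

lemma mm_zero_beta (hf : U01 f) {u : E d} (hu : ‖u‖ = 1) (σ : ℝ) (c : E d) :
    ∫ g, mm_beta u f (c + σ • g) * ⟪u, g⟫ ∂(gam d) = 0 := by
  have huu : ⟪u, u⟫ = 1 := by rw [real_inner_self_eq_norm_sq, hu, one_pow]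
  have hR : ∀ g : E d, (ℝ ∙ u)ᗮ.reflection g = g - (2 * ⟪u, g⟫) • u := fun g => by
    rw [Submodule.reflection_orthogonal_apply, Submodule.reflection_singleton_apply, hu]
    simp [two_smul, two_mul, add_smul]
  have hm : Measurable fun g : E d => mm_beta u f (c + σ • g) * ⟪u, g⟫ :=
    ((mm_U01_beta hf u).1.comp (by fun_prop)).mul (by fun_prop)
  have h1 := integral_map (μ := gam d) (φ := (ℝ ∙ u)ᗮ.reflection)
    (ℝ ∙ u)ᗮ.reflection.continuous.aemeasurable hm.aestronglyMeasurable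
  rw [show (gam d).map (ℝ ∙ u)ᗮ.reflection = gam d from stdGaussian_map _] at h1
  have h2 : ∀ g : E d, mm_beta u f (c + σ • (ℝ ∙ u)ᗮ.reflection g) * ⟪u, (ℝ ∙ u)ᗮ.reflection g⟫
      = -(mm_beta u f (c + σ • g) * ⟪u, g⟫) := fun g => by
    have h3 : ∀ z, mv u (c + σ • (g - (2 * ⟪u, g⟫) • u)) z = mv u (c + σ • g) z := fun z => by
      simp only [mv, inner_add_right, inner_sub_right, real_inner_smul_right, huu]
      module
    rw [hR, inner_sub_right, real_inner_smul_right, huu]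
    simp only [mm_beta, h3]
    ring
  simp only [h2, integral_neg] at h1
  linarith

lemma pt_beta (hf : U01 f) (hσ : 0 < σ) {u : E d} (hu : ‖u‖ = 1) (c : E d) :
    |⟪u, gr σ f c⟫| ≤ σ⁻¹ * ∫ g, hh_beta u f (c + σ • g) * |⟪u, g⟫| ∂(gam d) := by
  have hb : ∀ {F G : E d → ℝ}, U01 F → Integrable G (gam d) →
      Integrable (fun g => F (c + σ • g) * G g) (gam d) :=
    fun hF hG => hG.bdd_mul (c := 1) (hF.1.comp (by fun_prop)).aestronglyMeasurable
      (ae_of_all _ fun p => by rw [Real.norm_of_nonneg (hF.2 _).1]; exact (hF.2 _).2)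
  rw [inner_gr hf, abs_mul, abs_of_pos (inv_pos.mpr hσ)]
  refine mul_le_mul_of_nonneg_left ?_ (inv_pos.mpr hσ).le
  rw [← sub_zero (∫ g, f (c + σ • g) * ⟪u, g⟫ ∂(gam d)), ← mm_zero_beta hf hu σ c,
    ← integral_sub (hb hf (integrable_inner_beta u))
      (hb (mm_U01_beta hf u) (integrable_inner_beta u))]
  refine abs_integral_le_integral_abs.trans (integral_mono_of_nonneg
    (ae_of_all _ fun z => abs_nonneg _) (hb (hh_U01_beta hf u) (integrable_absinner_beta u))
    (ae_of_all _ fun g => ?_))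
  simp only [← sub_mul, abs_mul]
  exact mul_le_mul_of_nonneg_right (sub_le_beta hf u _) (abs_nonneg _)

theorem beta_le (hf : U01 f) (hσ : 0 < σ) (h1 : σ ≤ 1) {u : E d} (hu : ‖u‖ = 1) :
    ∫ w, |⟪u, gr σ f (√(1 - σ ^ 2) • w)⟫| ∂(gam d) ≤ σ⁻¹ * mvI u (cutF f) := by
  have hA : √(1 - σ ^ 2) ^ 2 + σ ^ 2 = 1 := by
    rw [Real.sq_sqrt (by nlinarith)]; ring
  have hA0 : 0 ≤ √(1 - σ ^ 2) := Real.sqrt_nonneg _
  have hA1 : √(1 - σ ^ 2) ≤ 1 := Real.sqrt_le_one.mpr (by nlinarith)
  generalize √(1 - σ ^ 2) = A at *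
  have hh := hh_U01_beta hf u
  have hi := integrable_absinner_beta u
  have hF : Integrable (fun p : E d × E d => hh_beta u f (A • p.1 + σ • p.2) * |⟪u, p.2⟫|)
      ((gam d).prod (gam d)) :=
    (hi.comp_snd (gam d)).bdd_mul (c := 1)
      (hh.1.comp (by fun_prop)).aestronglyMeasurable
      (ae_of_all _ fun p => by rw [Real.norm_of_nonneg (hh.2 _).1]; exact (hh.2 _).2)
  refine (integral_mono_of_nonneg (ae_of_all _ fun w => abs_nonneg _)
    (hF.integral_prod_left.const_mul σ⁻¹)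
    (ae_of_all _ fun w => pt_beta hf hσ hu (A • w))).trans ?_
  rw [integral_const_mul, ← integral_prod _ hF]
  refine mul_le_mul_of_nonneg_left ?_ (inv_pos.mpr hσ).le
  have hm : Measurable fun p : E d × E d => hh_beta u f p.1 * |⟪u, σ • p.1 + A • p.2⟫| :=
    (hh.1.comp measurable_fst).mul (by fun_prop)
  have h2 := integral_map (μ := (gam d).prod (gam d))
    (φ := fun p : E d × E d => (A • p.1 + σ • p.2, A • p.2 - σ • p.1)) (by fun_prop)
    hm.aestronglyMeasurable
  rw [Vale.Agent.P347.gam_rot hA] at h2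
  have h3 : ∀ p : E d × E d, σ • (A • p.1 + σ • p.2) + A • (A • p.2 - σ • p.1) = p.2 := fun p => by
    have : σ • (A • p.1 + σ • p.2) + A • (A • p.2 - σ • p.1) = (A ^ 2 + σ ^ 2) • p.2 := by
      module
    rw [this, hA, one_smul]
  simp only [h3] at h2
  rw [← h2, mvI_eq_beta hf u]
  have i0 : Integrable (hh_beta u f) (gam d) := (integrable_const (1 : ℝ)).mono'
    hh.1.aestronglyMeasurable
    (ae_of_all _ fun p => by rw [Real.norm_of_nonneg (hh.2 _).1]; exact (hh.2 _).2)
  have i1 : Integrable (fun x => hh_beta u f x * |⟪u, x⟫|) (gam d) :=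
    hi.bdd_mul (c := 1) hh.1.aestronglyMeasurable
      (ae_of_all _ fun p => by rw [Real.norm_of_nonneg (hh.2 _).1]; exact (hh.2 _).2)
  have i2 := i1.comp_fst (gam d)
  have i3 := i0.mul_prod hi
  refine (integral_mono_of_nonneg (ae_of_all _ fun p => mul_nonneg (hh.2 _).1 (abs_nonneg _))
    (i2.add i3) (ae_of_all _ fun p => ?_)).trans ?_
  · simp only [Pi.add_apply, ← mul_add]
    refine mul_le_mul_of_nonneg_left ?_ (hh.2 _).1
    rw [inner_add_right, real_inner_smul_right, real_inner_smul_right]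
    refine (abs_add_le _ _).trans ?_
    rw [abs_mul, abs_mul, abs_of_pos hσ, abs_of_nonneg hA0]
    exact add_le_add (mul_le_of_le_one_left (abs_nonneg _) h1)
      (mul_le_of_le_one_left (abs_nonneg _) hA1)
  · simp only [Pi.add_apply]
    rw [integral_add i2 i3, integral_fun_fst (fun x => hh_beta u f x * |⟪u, x⟫|),
      integral_prod_mul (hh_beta u f) (fun x => |⟪u, x⟫|)]
    simp only [add_mul, one_mul, mul_comm |⟪u, _⟫|]
    rw [integral_add i0 i1, probReal_univ, one_smul, add_comm]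
    exact add_le_add (mul_le_of_le_one_right (integral_nonneg fun x => (hh.2 x).1)
      (integral_abs_inner_le hu)) le_rfl

end Vale.Agent.P318
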