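import Vale.Agent.P318.Kernel

/-! The kernel `Psi` is conditionally negative definite on typical points.
`cnd_bridge`: let `h u = ∑ c i * 1[u < s i]`.  For `s, t ∈ [-L, L]`,
`|s - t| = ∫ u in -L..L, (1[u < s] - 1[u < t]) ^ 2` and `s + L = ∫ u in -L..L, 1[u < s]`.  If `∑ c = 0` then
`∑ c i c j |s i - s j| = -2 ∫ h ^ 2`, `∑ c i c j (s i - s j) ^ 2 = -2 (∫ h) ^ 2`, and `(∫ h) ^ 2 ≤ 2 L ∫ h ^ 2`
(expand `0 ≤ ∫ (h - a) ^ 2`).
`cnd_Nn`: Parseval (`OrthonormalBasis.sum_sq_inner_right` or similar), `CND.sum`, `CND.comp`.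
`cnd_Psi`: the `if` term equals `∑ m, exp (-(Θ⁻¹ * (Nn (b m) .. - ..))) * (1[p.2 = m] * 1[q.2 = m])`, which is PD. -/

namespace Vale.Agent.P318

open Finset
open Vale.Agent.P347 (E gam)
open scoped RealInnerProductSpace

open MeasureTheory in
theorem bridge_key_br {ι : Type} [Fintype ι] {s c : ι → ℝ} {L : ℝ} (hL : 0 ≤ L) (hs : ∀ i, |s i| ≤ L) :
    (∑ i, c i * (s i + L)) ^ 2 ≤ 2 * L * ∑ i, ∑ j, c i * c j * (min (s i) (s j) + L) := by
  set μ : Measure ℝ := volume.restrict (Set.Icc (-L) L) with hμ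
  let g : ℝ → ℝ → ℝ := fun a => Set.indicator (Set.Iio a) fun _ => 1
  have gi : ∀ a, Integrable (g a) μ := fun a =>
    (integrable_const (1 : ℝ)).indicator measurableSet_Iio
  have gv : ∀ a, -L ≤ a → a ≤ L → ∫ u, g a u ∂μ = a + L := by
    intro a h1 h2
    have e : Set.Iio a ∩ Set.Icc (-L) L = Set.Ico (-L) a := by
      ext u
      simp only [Set.mem_inter_iff, Set.mem_Iio, Set.mem_Icc, Set.mem_Ico]
      constructor
      · rintro ⟨a1, a2, -⟩
        exact ⟨a2, a1⟩
      · rintro ⟨a1, a2⟩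
        exact ⟨a2, a1, by linarith⟩
    rw [integral_indicator_const _ measurableSet_Iio, hμ, measureReal_restrict_apply measurableSet_Iio, e,
      Real.volume_real_Ico_of_le h1]
    simp
  have gm : ∀ a b u, g a u * g b u = g (min a b) u := by
    intro a b u
    simp only [g, Set.indicator, Set.mem_Iio, lt_min_iff]
    by_cases h1 : u < a <;> by_cases h2 : u < b <;> simp [h1, h2]
  have key : ∀ α : ℝ, 0 ≤ 2 * L * (α * α) + (-2 * ∑ i, c i * (s i + L)) * α +
      ∑ i, ∑ j, c i * c j * (min (s i) (s j) + L) := by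
    intro α
    have h0 : 0 ≤ ∫ u, (∑ i, c i * g (s i) u - α) ^ 2 ∂μ := integral_nonneg fun u => sq_nonneg _
    have e : ∀ u, (∑ i, c i * g (s i) u - α) ^ 2 =
        α * α + ((-2 * α) * ∑ i, c i * g (s i) u + ∑ i, ∑ j, c i * c j * g (min (s i) (s j)) u) := by
      intro u
      have : ∑ i, ∑ j, c i * c j * g (min (s i) (s j)) u = (∑ i, c i * g (s i) u) ^ 2 := by
        rw [sq, sum_mul_sum]
        refine sum_congr rfl fun i _ => sum_congr rfl fun j _ => ?_
        rw [← gm]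
        ring
      rw [this]
      ring
    have i1 : Integrable (fun u => ∑ i, c i * g (s i) u) μ :=
      integrable_finsetSum _ fun i _ => (gi _).const_mul _
    have i2 : ∀ i, Integrable (fun u => ∑ j, c i * c j * g (min (s i) (s j)) u) μ := fun i =>
      integrable_finsetSum _ fun j _ => (gi _).const_mul _
    have i3 : Integrable (fun u => ∑ i, ∑ j, c i * c j * g (min (s i) (s j)) u) μ :=
      integrable_finsetSum _ fun i _ => i2 i
    have v1 : ∫ u, ∑ i, c i * g (s i) u ∂μ = ∑ i, c i * (s i + L) := by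
      rw [integral_finsetSum _ fun i _ => (gi _).const_mul _]
      refine sum_congr rfl fun i _ => ?_
      rw [integral_const_mul, gv _ (abs_le.1 (hs i)).1 (abs_le.1 (hs i)).2]
    have v2 : ∫ u, ∑ i, ∑ j, c i * c j * g (min (s i) (s j)) u ∂μ =
        ∑ i, ∑ j, c i * c j * (min (s i) (s j) + L) := by
      rw [integral_finsetSum _ fun i _ => i2 i]
      refine sum_congr rfl fun i _ => ?_
      rw [integral_finsetSum _ fun j _ => (gi _).const_mul _]
      refine sum_congr rfl fun j _ => ?_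
      rw [integral_const_mul, gv _ (le_min (abs_le.1 (hs i)).1 (abs_le.1 (hs j)).1)
        ((min_le_left _ _).trans (abs_le.1 (hs i)).2)]
    have v0 : ∫ _u, α * α ∂μ = 2 * L * (α * α) := by
      rw [integral_const, hμ, measureReal_restrict_apply MeasurableSet.univ, Set.univ_inter,
        Real.volume_real_Icc_of_le (by linarith), smul_eq_mul]
      ring
    simp only [e] at h0
    have i4 : Integrable (fun u => (-2 * α) * ∑ i, c i * g (s i) u +
        ∑ i, ∑ j, c i * c j * g (min (s i) (s j)) u) μ := (i1.const_mul _).add i3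
    rw [integral_add (integrable_const _) i4, integral_add (i1.const_mul _) i3,
      v0, integral_const_mul, v1, v2] at h0
    linarith
  have := discrim_le_zero key
  unfold discrim at this
  nlinarith

theorem cnd_bridge {P : Type} {s : P → ℝ} {L : ℝ} (hs : ∀ p, |s p| ≤ L) :
    CND fun p q => 4 * L * |s p - s q| - (s p - s q) ^ 2 := by
  refine ⟨fun p q => by dsimp only; rw [abs_sub_comm]; ring, fun ι _ x c hc => ?_⟩
  rcases isEmpty_or_nonempty ι with hι | ⟨⟨i₀⟩⟩
  · simp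
  have hL : 0 ≤ L := (abs_nonneg _).trans (hs (x i₀))
  have h := bridge_key_br (c := c) hL fun i => hs (x i)
  have e : ∀ i j, c i * c j * (4 * L * |s (x i) - s (x j)| - (s (x i) - s (x j)) ^ 2) =
      c i * (4 * L * (s (x i) + L) - (s (x i) + L) ^ 2) * c j +
      c i * (c j * (4 * L * (s (x j) + L) - (s (x j) + L) ^ 2)) +
      2 * (c i * (s (x i) + L) * (c j * (s (x j) + L))) -
      8 * L * (c i * c j * (min (s (x i)) (s (x j)) + L)) := by
    intro i j
    rcases le_total (s (x i)) (s (x j)) with h1 | h1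
    · rw [min_eq_left h1, abs_of_nonpos (by linarith)]
      ring
    · rw [min_eq_right h1, abs_of_nonneg (by linarith)]
      ring
  generalize (fun i j => c i * c j * (min (s (x i)) (s (x j)) + L)) = T at h e
  simp only [e, sum_sub_distrib, sum_add_distrib, ← mul_sum, ← sum_mul, hc]
  nlinarith [sq_nonneg (∑ i, c i * (s (x i) + L))]

variable {d : ℕ} {M : Type} [Fintype M] [DecidableEq M]

theorem norm_sq_le_Nn (e : ONB d) {L : ℝ} {x x' : E d} (hx : ∀ y, |⟪e y, x⟫| ≤ L)
    (hx' : ∀ y, |⟪e y, x'⟫| ≤ L) : ‖x - x'‖ ^ 2 ≤ Nn e L x x' := by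
  rw [← e.sum_sq_inner_right, Nn, mul_sum]
  refine sum_le_sum fun y _ => ?_
  have h1 : |⟪e y, x - x'⟫| ≤ 2 * L := by
    rw [inner_sub_right]
    exact (abs_sub _ _).trans (by linarith [hx y, hx' y])
  have h2 := abs_nonneg ⟪e y, x - x'⟫
  rw [← sq_abs]
  nlinarith

theorem cnd_Nn (e : ONB d) {P : Type} {x : P → E d} {L : ℝ} (hx : ∀ p y, |⟪e y, x p⟫| ≤ L) :
    CND fun p q => Nn e L (x p) (x q) - ‖x p - x q‖ ^ 2 := by
  have h := CND.sum (univ : Finset (Fin d))
    (fun y _ => cnd_bridge (s := fun p => ⟪e y, x p⟫) fun p => hx p y)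
  have e1 : (fun p q => Nn e L (x p) (x q) - ‖x p - x q‖ ^ 2) = fun p q =>
      ∑ y, (4 * L * |⟪e y, x p⟫ - ⟪e y, x q⟫| - (⟪e y, x p⟫ - ⟪e y, x q⟫) ^ 2) := by
    funext p q
    rw [← e.sum_sq_inner_right, Nn, mul_sum, ← sum_sub_distrib]
    simp only [inner_sub_right]
  rw [e1]
  exact h

theorem cnd_Psi (b : M → ONB d) {P : Type} {x : P → E d × M} {L Θ : ℝ} (hΘ : 0 < Θ)
    (hx : ∀ p, Typ b L (x p).1) : CND fun p q => Psi b L Θ (x p) (x q) := by
  have h1 : ∀ m ∈ (univ : Finset M), PD fun p q =>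
      Real.exp (-(Θ⁻¹ * (Nn (b m) L (x p).1 (x q).1 - ‖(x p).1 - (x q).1‖ ^ 2))) *
        ((if (x p).2 = m then 1 else 0) * if (x q).2 = m then 1 else 0) := fun m _ =>
    ((cnd_Nn (b m) (x := fun p => (x p).1) fun p y => hx p m y).exp_neg
      (inv_nonneg.2 hΘ.le)).mul (PD.rank_one fun p => if (x p).2 = m then (1 : ℝ) else 0)
  have h2 := ((CND.norm_sq (F := E d)).comp fun p => (x p).1).add
    (((PD.sum univ h1).const_sub 1).const_mul hΘ.le)
  have e1 : (fun p q => Psi b L Θ (x p) (x q)) = fun p q => ‖(x p).1 - (x q).1‖ ^ 2 + Θ * (1 -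
      ∑ m, Real.exp (-(Θ⁻¹ * (Nn (b m) L (x p).1 (x q).1 - ‖(x p).1 - (x q).1‖ ^ 2))) *
        ((if (x p).2 = m then 1 else 0) * if (x q).2 = m then 1 else 0)) := by
    funext p q
    unfold Psi
    congr 3
    rw [sum_eq_single (x p).2 (fun m _ hm => by simp [hm.symm]) (by simp)]
    by_cases h : (x p).2 = (x q).2
    · rw [if_pos h, if_pos rfl, if_pos h.symm, mul_one, mul_one]
      congr 1
      ring
    · rw [if_neg h, if_neg (Ne.symm h)]
      simp
  rw [e1]
  exact h2

end Vale.Agent.P318
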