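import Vale.Agent.P318.Deriv

/-! Noise stability.  `corr_step`: put `A = √(1 - σ'²)`, `B = √(σ'² - σ²)`, `S = √(1 - σ²)`.  If `S = 0` then `σ = σ' = 1`.
Otherwise `S w̃` has the law of `A w + B v` (`mix_preserving` with `A / S`, `B / S`), and
`sm σ' f c = ∫ v, sm σ f (c + B v)` (`mix_preserving` with `B / σ'`, `σ / σ'`).  Hence
`corr σ f - corr σ' f = ∫ w, Var_v (sm σ f (A w + B v))`; apply `var_sm` and Fubini again.
`swI_mul`, `swI_fst`, `swI_snd`: Fubini (`integral_prod`, `integral_prod_mul`), `mix_preserving`. -/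

namespace Vale.Agent.P318

open MeasureTheory ProbabilityTheory Finset
open Vale.Agent.P347 (E gam)
open scoped RealInnerProductSpace

variable {d : ℕ} {σ σ' : ℝ} {f f' : E d → ℝ}

theorem corr_bdd_int {α : Type} [MeasurableSpace α] {μ : Measure α} [IsFiniteMeasure μ]
    {φ : α → ℝ} (hφ : Measurable φ) {C : ℝ} (hC : ∀ x, |φ x| ≤ C) : Integrable φ μ :=
  (integrable_const C).mono' hφ.aestronglyMeasurable (ae_of_all _ hC)

theorem corr_mix_int {φ : E d → ℝ} (hφ : Measurable φ) {C : ℝ} (hC : ∀ x, |φ x| ≤ C) (a b : ℝ) :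
    Integrable (fun p : E d × E d => φ (a • p.1 + b • p.2)) ((gam d).prod (gam d)) :=
  corr_bdd_int (hφ.comp (by fun_prop)) fun _ => hC _

theorem corr_mix {φ : E d → ℝ} (hφ : Measurable φ) {C : ℝ} (hC : ∀ x, |φ x| ≤ C) (a b : ℝ) :
    ∫ w, ∫ v, φ (a • w + b • v) ∂(gam d) ∂(gam d) = ∫ ξ, φ (√(a ^ 2 + b ^ 2) • ξ) ∂(gam d) := by
  rw [← integral_prod _ (corr_mix_int hφ hC a b),
    ← integral_map (μ := gam d) (φ := fun ξ => √(a ^ 2 + b ^ 2) • ξ) (f := φ) (by fun_prop)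
      hφ.aestronglyMeasurable, ← P347.gam_add,
    integral_map (by fun_prop) hφ.aestronglyMeasurable]

theorem integral_sm (hf : U01 f) (h1 : σ ^ 2 ≤ 1) :
    ∫ w, sm σ f (√(1 - σ ^ 2) • w) ∂(gam d) = ∫ x, f x ∂(gam d) := by
  simp only [sm]
  rw [corr_mix hf.1 hf.norm_le, Real.sq_sqrt (sub_nonneg.2 h1)]
  simp

theorem corr_one (f : E d → ℝ) : corr 1 f = (∫ x, f x ∂(gam d)) ^ 2 := by
  simp [corr, sm]

theorem sm_sm (hf : U01 f) (hσ : 0 < σ) (h : σ ≤ σ') (c : E d) :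
    ∫ v, sm σ f (c + √(σ' ^ 2 - σ ^ 2) • v) ∂(gam d) = sm σ' f c := by
  have h2 : 0 ≤ σ' ^ 2 - σ ^ 2 := by nlinarith
  simp only [sm, add_assoc]
  rw [corr_mix (φ := fun x => f (c + x)) (hf.1.comp (by fun_prop)) (fun x => hf.norm_le _),
    Real.sq_sqrt h2, sub_add_cancel, Real.sqrt_sq (hσ.le.trans h)]

theorem corr_step (hf : U01 f) (hσ : 0 < σ) (h : σ ≤ σ') (h1 : σ' ≤ 1) :
    corr σ f - corr σ' f ≤
      2 * (σ' ^ 2 - σ ^ 2) * ∫ w, ‖gr σ f (√(1 - σ ^ 2) • w)‖ ^ 2 ∂(gam d) := by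
  have h2 : 0 ≤ σ' ^ 2 - σ ^ 2 := by nlinarith
  have h3 : 0 ≤ 1 - σ' ^ 2 := by nlinarith
  set A := √(1 - σ' ^ 2) with hA
  set B := √(σ' ^ 2 - σ ^ 2) with hB
  have hS : √(1 - σ ^ 2) = √(A ^ 2 + B ^ 2) := by
    rw [hA, hB, Real.sq_sqrt h2, Real.sq_sqrt h3]
    congr 1
    ring
  have hs := sm_U01 hf σ
  have m1 : Measurable fun x => sm σ f x ^ 2 := hs.1.pow_const 2
  have b1 : ∀ x, |sm σ f x ^ 2| ≤ 1 := fun x => by
    rw [abs_of_nonneg (sq_nonneg _)]; exact pow_le_one₀ (hs.2 x).1 (hs.2 x).2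
  have m2 : Measurable fun x => ‖gr σ f x‖ ^ 2 := (measurable_gr hf σ).norm.pow_const 2
  have b2 : ∀ x, |‖gr σ f x‖ ^ 2| ≤ 1 / σ ^ 2 := fun x => by
    rw [abs_of_nonneg (sq_nonneg _)]; exact norm_gr_le hf hσ x
  have hs' := sm_U01 hf σ'
  have i3 : Integrable (fun w : E d => sm σ' f (A • w) ^ 2) (gam d) :=
    corr_bdd_int ((hs'.1.comp (by fun_prop)).pow_const 2) (C := 1) fun x => by
      rw [abs_of_nonneg (sq_nonneg _)]; exact pow_le_one₀ (hs'.2 _).1 (hs'.2 _).2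
  have i1 := (corr_mix_int m1 b1 A B).integral_prod_left
  have i2 := (corr_mix_int m2 b2 A B).integral_prod_left
  simp only [corr]
  rw [hS, ← corr_mix m1 b1, ← corr_mix m2 b2, ← hA, ← integral_sub i1 i3, ← integral_const_mul]
  refine integral_mono (i1.sub i3) (i2.const_mul _) fun w => ?_
  have := var_sm hf hσ (A • w) B
  rw [hB, sm_sm hf hσ h, Real.sq_sqrt h2] at this
  exact this

theorem swI_int {H : E d → E d → ℝ} (hH : Measurable (Function.uncurry H)) {C : ℝ}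
    (hC : ∀ x y, |H x y| ≤ C) (σ : ℝ) :
    Integrable (fun p : E d × E d × E d =>
      H (√(1 - σ ^ 2) • p.1 + σ • p.2.1) (√(1 - σ ^ 2) • p.1 + σ • p.2.2))
      ((gam d).prod ((gam d).prod (gam d))) :=
  corr_bdd_int (hH.comp (f := fun p : E d × E d × E d =>
    (√(1 - σ ^ 2) • p.1 + σ • p.2.1, √(1 - σ ^ 2) • p.1 + σ • p.2.2)) (by fun_prop))
    fun _ => hC _ _

theorem swI_int_mul (hf : U01 f) (hf' : U01 f') (σ : ℝ) :
    Integrable (fun p : E d × E d × E d =>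
      f (√(1 - σ ^ 2) • p.1 + σ • p.2.1) * f' (√(1 - σ ^ 2) • p.1 + σ • p.2.2))
      ((gam d).prod ((gam d).prod (gam d))) :=
  swI_int (H := fun x x' => f x * f' x') ((hf.1.comp measurable_fst).mul
    (hf'.1.comp measurable_snd)) (C := 1) (fun x y => by
      rw [abs_mul]; exact mul_le_one₀ (hf.norm_le x) (abs_nonneg _) (hf'.norm_le y)) σ

theorem swI_mul (hf : U01 f) (hf' : U01 f') (σ : ℝ) :
    swI σ (fun x x' => f x * f' x') =
      ∫ w, sm σ f (√(1 - σ ^ 2) • w) * sm σ f' (√(1 - σ ^ 2) • w) ∂(gam d) := by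
  rw [swI, integral_prod _ (swI_int_mul hf hf' σ)]
  congr 1
  funext w
  exact integral_prod_mul (fun g => f (√(1 - σ ^ 2) • w + σ • g))
    (fun g => f' (√(1 - σ ^ 2) • w + σ • g))

theorem U01_one : U01 fun _ : E d => (1 : ℝ) := ⟨measurable_const, fun _ => by norm_num⟩

theorem swI_add_const (hf : U01 f) (hf' : U01 f') (h1 : σ ^ 2 ≤ 1) :
    swI σ (fun x x' => f x + f' x') = ∫ x, f x ∂(gam d) + ∫ x, f' x ∂(gam d) := by
  have a1 := swI_mul hf U01_one σ
  have a2 := swI_mul U01_one hf' σ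
  have i1 := swI_int_mul hf U01_one σ
  have i2 := swI_int_mul U01_one hf' σ
  have e : ∀ c : E d, sm σ (fun _ => (1 : ℝ)) c = 1 := fun c => by simp [sm]
  simp only [e, mul_one, one_mul] at a1 a2 i1 i2
  rw [integral_sm hf h1] at a1
  rw [integral_sm hf' h1] at a2
  rw [← a1, ← a2]
  exact integral_add i1 i2

theorem swI_cut (hf : U01 f) (hf' : U01 f') (h1 : σ ^ 2 ≤ 1) :
    swI σ (fun x x' => f x * (1 - f' x') + f' x' * (1 - f x)) =
      ∫ x, f x ∂(gam d) + ∫ x, f' x ∂(gam d) -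
        2 * ∫ w, sm σ f (√(1 - σ ^ 2) • w) * sm σ f' (√(1 - σ ^ 2) • w) ∂(gam d) := by
  have i1 := swI_int_mul hf U01_one σ
  have i2 := swI_int_mul U01_one hf' σ
  simp only [mul_one, one_mul] at i1 i2
  have i3 : Integrable (fun p : E d × E d × E d =>
      f (√(1 - σ ^ 2) • p.1 + σ • p.2.1) + f' (√(1 - σ ^ 2) • p.1 + σ • p.2.2))
      ((gam d).prod ((gam d).prod (gam d))) := i1.add i2
  rw [← swI_add_const hf hf' h1, ← swI_mul hf hf']
  simp only [swI]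
  rw [← integral_const_mul, ← integral_sub i3 ((swI_int_mul hf hf' σ).const_mul 2)]
  congr 1
  funext p
  ring

/-- The switch cost of a fractional cut. -/
theorem swE_cutF {M : Type} [Fintype M] [Nonempty M] {F : E d × M → ℝ}
    (hF : ∀ m, U01 fun x => F (x, m)) (h1 : σ ^ 2 ≤ 1) :
    swE σ (cutF F) = 2 * mean F - 2 * corr σ (bar F) := by
  have hM : (Fintype.card M : ℝ) ≠ 0 := by exact_mod_cast Fintype.card_ne_zero
  have e1 : ∀ c, sm σ (bar F) c = (∑ m, sm σ (fun x => F (x, m)) c) / Fintype.card M := by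
    intro c
    simp only [sm, bar]
    rw [integral_div, integral_finsetSum _ fun m _ => (hF m).int_shift σ c]
  have hi : ∀ m m', Integrable (fun w : E d => sm σ (fun x => F (x, m)) (√(1 - σ ^ 2) • w) *
      sm σ (fun x => F (x, m')) (√(1 - σ ^ 2) • w)) (gam d) := fun m m' =>
    corr_bdd_int (((sm_U01 (hF m) σ).1.comp (by fun_prop)).mul
      ((sm_U01 (hF m') σ).1.comp (by fun_prop))) (C := 1) fun w => by
        rw [abs_mul]
        exact mul_le_one₀ ((sm_U01 (hF m) σ).norm_le _) (abs_nonneg _)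
          ((sm_U01 (hF m') σ).norm_le _)
  have e2 : corr σ (bar F) = (∑ m, ∑ m', ∫ w, sm σ (fun x => F (x, m)) (√(1 - σ ^ 2) • w) *
      sm σ (fun x => F (x, m')) (√(1 - σ ^ 2) • w) ∂(gam d)) / (Fintype.card M : ℝ) ^ 2 := by
    simp only [corr, e1, div_pow]
    rw [integral_div]
    congr 1
    simp only [sq (∑ _m, _ : ℝ), Finset.sum_mul_sum]
    rw [integral_finsetSum _ fun m _ => integrable_finsetSum _ fun m' _ => hi m m']
    exact Finset.sum_congr rfl fun m _ => integral_finsetSum _ fun m' _ => hi m m'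
  rw [e2]
  simp only [swE, mean, cutF, swI_cut (hF _) (hF _) h1, Finset.sum_sub_distrib,
    Finset.sum_add_distrib, Finset.sum_const, Finset.card_univ, nsmul_eq_mul, ← Finset.mul_sum]
  field_simp
  ring

end Vale.Agent.P318
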