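import Vale.Agent.P318.Stmt
import Vale.Agent.P347.Misc

/-! Common definitions of the P318 project (overview: notes/P318.md). -/

namespace Vale.Agent.P318

open MeasureTheory ProbabilityTheory Finset
open Vale.Agent.P347 (E gam)
open scoped RealInnerProductSpace

/-- Positive definite kernel. -/
def PD {P : Type} (k : P → P → ℝ) : Prop :=
  (∀ p q, k p q = k q p) ∧ ∀ (ι : Type) [Fintype ι] (x : ι → P) (c : ι → ℝ),
    0 ≤ ∑ i, ∑ j, c i * c j * k (x i) (x j)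

/-- Conditionally negative definite kernel. -/
def CND {P : Type} (k : P → P → ℝ) : Prop :=
  (∀ p q, k p q = k q p) ∧ ∀ (ι : Type) [Fintype ι] (x : ι → P) (c : ι → ℝ), ∑ i, c i = 0 →
    ∑ i, ∑ j, c i * c j * k (x i) (x j) ≤ 0

/-- The shape function: linear near zero, of order square root at infinity. -/
noncomputable def Fs (t : ℝ) : ℝ :=
  (∫ a in Set.Ioi (1 : ℝ), (1 - Real.exp (-t / a ^ 2))) + 3 * (1 - Real.exp (-t))

/-- Orthonormal bases of Euclidean space. -/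
abbrev ONB (d : ℕ) : Type := OrthonormalBasis (Fin d) ℝ (E d)

/-- Measurable with values in the unit interval. -/
def U01 {α : Type} [MeasurableSpace α] (f : α → ℝ) : Prop :=
  Measurable f ∧ ∀ x, 0 ≤ f x ∧ f x ≤ 1

/-- Bounded measurable function of two points. -/
def BM2 {α : Type} [MeasurableSpace α] (H : α → α → ℝ) : Prop :=
  Measurable (Function.uncurry H) ∧ ∃ C, ∀ x y, |H x y| ≤ C

/-- The cut cost of a fractional cut. -/
def cutF {α : Type} (f : α → ℝ) (p q : α) : ℝ := f p * (1 - f q) + f q * (1 - f p)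

variable {d : ℕ} {M : Type}

/-- Gaussian smoothing. -/
noncomputable def sm (σ : ℝ) (f : E d → ℝ) (c : E d) : ℝ := ∫ g, f (c + σ • g) ∂(gam d)

/-- Gradient of the Gaussian smoothing. -/
noncomputable def gr (σ : ℝ) (f : E d → ℝ) (c : E d) : E d :=
  σ⁻¹ • ∫ g, f (c + σ • g) • g ∂(gam d)

/-- Noise stability. -/
noncomputable def corr (σ : ℝ) (f : E d → ℝ) : ℝ :=
  ∫ w, sm σ f (√(1 - σ ^ 2) • w) ^ 2 ∂(gam d)

/-- Replace the coordinate of `x` along the unit vector `u` by `z`. -/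
noncomputable def mv (u x : E d) (z : ℝ) : E d := x + (z - ⟪u, x⟫) • u

/-- Weighted average over the moves along `u`. -/
noncomputable def mvI (u : E d) (H : E d → E d → ℝ) : ℝ :=
  ∫ p : E d × ℝ, (1 + |⟪u, p.1⟫|) * H p.1 (mv u p.1 p.2) ∂((gam d).prod (gaussianReal 0 1))

/-- Average over correlated pairs. -/
noncomputable def swI (σ : ℝ) (H : E d → E d → ℝ) : ℝ :=
  ∫ p : E d × E d × E d, H (√(1 - σ ^ 2) • p.1 + σ • p.2.1) (√(1 - σ ^ 2) • p.1 + σ • p.2.2)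
    ∂((gam d).prod ((gam d).prod (gam d)))

/-- Total weight of the move edges. -/
noncomputable def mvE [Fintype M] (b : M → ONB d) (H : E d × M → E d × M → ℝ) : ℝ :=
  (∑ m, ∑ y, mvI (b m y) fun x x' => H (x, m) (x', m)) / Fintype.card M

/-- Total weight of the switch edges. -/
noncomputable def swE [Fintype M] (σ : ℝ) (H : E d × M → E d × M → ℝ) : ℝ :=
  (∑ m, ∑ m', swI σ fun x x' => H (x, m) (x', m')) / (Fintype.card M : ℝ) ^ 2

/-- Mean over the state space. -/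
noncomputable def mean [Fintype M] (f : E d × M → ℝ) : ℝ :=
  (∑ m, ∫ x, f (x, m) ∂(gam d)) / Fintype.card M

/-- Average over the modes. -/
noncomputable def bar [Fintype M] (f : E d × M → ℝ) (x : E d) : ℝ :=
  (∑ m, f (x, m)) / Fintype.card M

/-- Fourth moment condition on a family of bases. -/
def Four [Fintype M] (b : M → ONB d) : Prop :=
  ∀ a : E d, ∑ m, ∑ y, ⟪b m y, a⟫ ^ 4 ≤ Fintype.card M * (3 * ‖a‖ ^ 4 / d)

/-- Typical points. -/
def Typ (b : M → ONB d) (L : ℝ) (x : E d) : Prop := ∀ m y, |⟪b m y, x⟫| ≤ L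

/-- Local distance in the basis `e`. -/
noncomputable def Nn (e : ONB d) (L : ℝ) (x x' : E d) : ℝ := 4 * L * ∑ y, |⟪e y, x - x'⟫|

/-- The basic conditionally negative definite kernel. -/
noncomputable def Psi [DecidableEq M] (b : M → ONB d) (L Θ : ℝ) (p q : E d × M) : ℝ :=
  ‖p.1 - q.1‖ ^ 2 + Θ * (1 - if p.2 = q.2 then
    Real.exp (-(Nn (b p.2) L p.1 q.1 - ‖p.1 - q.1‖ ^ 2) / Θ) else 0)

/-- The metric. -/
noncomputable def dm [DecidableEq M] (b : M → ONB d) (L ϑ : ℝ) (p q : E d × M) : ℝ :=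
  Fs (Psi b L (24 * ϑ) p q / ϑ)

/-- A weighted finite instance. -/
structure Inst (V : Type) [Fintype V] (Φ C A Λ Δ : ℝ) where
  μ : V → ℝ
  ed : (V → V → ℝ) → ℝ
  dd : V → V → ℝ
  μ_nonneg : ∀ v, 0 ≤ μ v
  μ_sum : ∑ v, μ v = 1
  lin : IsLinearMap ℝ ed
  pos : ∀ H : V → V → ℝ, (∀ v v', 0 ≤ H v v') → 0 ≤ ed H
  cnd : CND dd
  dd_self : ∀ v, dd v v = 0
  dd_nonneg : ∀ v v', 0 ≤ dd v v'
  tri : ∀ u v w, dd u w ≤ dd u v + dd v w
  dd_le : ∀ v v', dd v v' ≤ Δ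
  expand : ∀ f : V → ℝ, (∀ v, 0 ≤ f v ∧ f v ≤ 1) →
    Φ * ((∑ v, μ v * f v) * (1 - ∑ v, μ v * f v)) ≤ ed (cutF f)
  cost : ed dd ≤ C
  avg : A ≤ ∑ v, ∑ v', μ v * μ v' * dd v v'
  junk : ∀ j : V → ℝ, (∀ v, 0 ≤ j v ∧ j v ≤ 1) →
    ed (fun v v' => j v + j v') ≤ Λ * √(∑ v, μ v * j v)

end Vale.Agent.P318
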