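import Vale.Agent.P318.Gauss2
import Vale.Agent.P347.Poincare

/-! The gradient of the Gaussian smoothing and the Poincare inequality.
`hasGradientAt_sm`: by `P347.cameron_martin`, `sm σ f (c + h) = ∫ f (c + σ g) exp (⟪g, k⟫ - ‖k‖² / 2)` with `k = σ⁻¹ h`.
So `|sm (c + h) - sm c - ⟪gr c, h⟫| ≤ ∫ |exp (u - v/2) - 1 - u|` (`u = ⟪g, k⟫`, `v = ‖k‖²`), whose square is at most
`∫ (exp (u - v/2) - 1 - u)² = exp v - 1 - v ≤ v²` for `v ≤ 1` (all terms by `cameron_martin`); or differentiate under the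
integral sign.  `continuous_gr`: same tilt, `gr σ f (c + h) = σ⁻¹ ∫ f (c + σ g) exp (..) (g - k)`, dominated convergence (or: the
smoothing is differentiable, so `gr` is measurable by `measurable_fderiv`; continuity is only needed if you use `P347.poincare`).
`norm_gr_sq_le`: with `a = ∫ f • g`, `‖a‖² = ∫ f ⟪a, g⟫ ≤ (∫ f² + ..)`, i.e. expand `0 ≤ ∫ (f - ⟪a, g⟫)²`, `f² ≤ f`.
`var_sm`: either `P347.poincare` (with `Ψ x = ‖x‖² / 2`, `α = 1`, `volume.tilted (-Ψ) = gam d`), or the rotation trick: with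
`v θ = cos θ v + sin θ v'`, `F v' - F v = ∫ θ in 0..π/2, ⟪∇F (v θ), -sin θ v + cos θ v'⟫`, Cauchy-Schwarz, `gam_rot`,
`integral_inner_sq_gam`; this gives the constant `π² / 8 ≤ 2`. -/

namespace Vale.Agent.P318

open MeasureTheory ProbabilityTheory Finset
open Vale.Agent.P347 (E gam)
open scoped RealInnerProductSpace

variable {d : ℕ} {σ : ℝ} {f : E d → ℝ}

theorem U01.meas_shift (hf : U01 f) (σ : ℝ) (c : E d) : Measurable fun g => f (c + σ • g) :=
  hf.1.comp (by fun_prop)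

theorem U01.norm_le (hf : U01 f) (x : E d) : ‖f x‖ ≤ 1 := by
  rw [Real.norm_of_nonneg (hf.2 x).1]; exact (hf.2 x).2

theorem U01.int_shift (hf : U01 f) (σ : ℝ) (c : E d) :
    Integrable (fun g => f (c + σ • g)) (gam d) :=
  (integrable_const (1 : ℝ)).mono' (hf.meas_shift σ c).aestronglyMeasurable
    (ae_of_all _ fun _ => hf.norm_le _)

theorem U01.int_mul (hf : U01 f) (σ : ℝ) (c : E d) {φ : E d → ℝ} (h : Integrable φ (gam d)) :
    Integrable (fun g => f (c + σ • g) * φ g) (gam d) :=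
  h.bdd_mul (c := 1) (hf.meas_shift σ c).aestronglyMeasurable (ae_of_all _ fun _ => hf.norm_le _)

theorem U01.int_smul (hf : U01 f) (σ : ℝ) (c : E d) :
    Integrable (fun g : E d => f (c + σ • g) • g) (gam d) :=
  (IsGaussian.integrable_id (μ := gam d)).norm.mono'
    ((hf.meas_shift σ c).smul measurable_id).aestronglyMeasurable (ae_of_all _ fun g => by
      rw [norm_smul]
      exact mul_le_of_le_one_left (norm_nonneg _) (hf.norm_le _))

theorem sm_U01 (hf : U01 f) (σ : ℝ) : U01 (sm σ f) := by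
  refine ⟨?_, fun c => ⟨integral_nonneg fun g => (hf.2 _).1, ?_⟩⟩
  · have h : Measurable fun p : E d × E d => f (p.1 + σ • p.2) := hf.1.comp (by fun_prop)
    exact (h.stronglyMeasurable.integral_prod_right' (ν := gam d)).measurable
  · simpa [sm] using
      integral_mono (hf.int_shift σ c) (integrable_const (1 : ℝ)) fun g => (hf.2 _).2

theorem measurable_gr (hf : U01 f) (σ : ℝ) : Measurable (gr σ f) := by
  have h : Measurable fun p : E d × E d => f (p.1 + σ • p.2) • p.2 :=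
    (hf.1.comp (by fun_prop)).smul measurable_snd
  exact (h.stronglyMeasurable.integral_prod_right' (ν := gam d)).measurable.const_smul σ⁻¹

theorem inner_gr (hf : U01 f) (σ : ℝ) (u c : E d) :
    ⟪u, gr σ f c⟫ = σ⁻¹ * ∫ g, f (c + σ • g) * ⟪u, g⟫ ∂(gam d) := by
  rw [gr, real_inner_smul_right, ← integral_inner (hf.int_smul σ c)]
  simp only [real_inner_smul_right]

theorem norm_gr_sq_le (hf : U01 f) (hσ : 0 < σ) (c : E d) :
    ‖gr σ f c‖ ^ 2 ≤ sm σ f c / σ ^ 2 := by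
  set a := σ • gr σ f c with ha
  have h1 : ‖a‖ ^ 2 = ∫ g, f (c + σ • g) * ⟪a, g⟫ ∂(gam d) := by
    rw [← real_inner_self_eq_norm_sq]
    conv_lhs => rw [ha, real_inner_smul_right, ← ha, inner_gr hf]
    rw [← mul_assoc, mul_inv_cancel₀ hσ.ne', one_mul]
  have h2 : ∫ g, f (c + σ • g) * ⟪a, g⟫ ∂(gam d) ≤
      ∫ g, (1 / 2 * f (c + σ • g) + 1 / 2 * ⟪a, g⟫ ^ 2) ∂(gam d) := by
    refine integral_mono (hf.int_mul σ c (integrable_inner a))
      (((hf.int_shift σ c).const_mul _).add ((integrable_inner_sq a).const_mul _)) fun g => ?_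
    have := hf.2 (c + σ • g)
    simp only
    nlinarith [sq_nonneg (f (c + σ • g) - ⟪a, g⟫), mul_nonneg this.1 (sub_nonneg.2 this.2)]
  rw [integral_add ((hf.int_shift σ c).const_mul _) ((integrable_inner_sq a).const_mul _),
    integral_const_mul, integral_const_mul, P347.integral_inner_sq_gam, ← h1] at h2
  rw [le_div_iff₀ (by positivity)]
  have h3 : ‖a‖ ^ 2 = ‖gr σ f c‖ ^ 2 * σ ^ 2 := by
    rw [ha, norm_smul, mul_pow, Real.norm_eq_abs, sq_abs, mul_comm]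
  unfold sm
  linarith

theorem tilt_l1 (k : E d) (hk : ‖k‖ ≤ 1) :
    Integrable (fun g : E d => Real.exp (⟪g, k⟫ - ‖k‖ ^ 2 / 2)) (gam d) ∧
    ∫ g, |Real.exp (⟪g, k⟫ - ‖k‖ ^ 2 / 2) - 1 - ⟪k, g⟫| ∂(gam d) ≤ ‖k‖ ^ 2 := by
  set L : E d → ℝ := fun ξ => Real.exp (⟪ξ, k⟫ - ‖k‖ ^ 2 / 2) with hL
  have c1 : ∫ ξ, L ξ ∂(gam d) = 1 := by
    have := P347.cameron_martin k (fun _ => 1)
    simpa using this.symm
  have i1 : Integrable L (gam d) := Integrable.of_integral_ne_zero (by rw [c1]; norm_num)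
  refine ⟨i1, ?_⟩
  rcases eq_or_ne k 0 with rfl | hne
  · simp
  have hpos : 0 < ‖k‖ ^ 2 := pow_pos (norm_pos_iff.2 hne) 2
  have c2 : ∫ ξ, L ξ * L ξ ∂(gam d) = Real.exp (‖k‖ ^ 2) := by
    rw [← P347.cameron_martin k L]
    have : ∀ ξ, L (ξ + k) = Real.exp (‖k‖ ^ 2) * L ξ := fun ξ => by
      simp only [hL]
      rw [← Real.exp_add, inner_add_left, real_inner_self_eq_norm_sq]
      congr 1
      ring
    simp_rw [this]
    rw [integral_const_mul, c1, mul_one]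
  have c0 : ∫ ξ, ⟪k, ξ⟫ ∂(gam d) = 0 := integral_strongDual_stdGaussian (innerSL ℝ k)
  have c3 : ∫ ξ, ⟪k, ξ⟫ * L ξ ∂(gam d) = ‖k‖ ^ 2 := by
    rw [← P347.cameron_martin k fun ξ => ⟪k, ξ⟫]
    simp only [inner_add_right, real_inner_self_eq_norm_sq]
    rw [integral_add (integrable_inner k) (integrable_const _), c0]
    simp
  have i2 : Integrable (fun ξ => L ξ * L ξ) (gam d) :=
    Integrable.of_integral_ne_zero (by rw [c2]; positivity)
  have i3 : Integrable (fun ξ => ⟪k, ξ⟫ * L ξ) (gam d) :=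
    Integrable.of_integral_ne_zero (by rw [c3]; exact hpos.ne')
  have j1 : Integrable (fun ξ => L ξ * L ξ + ⟪k, ξ⟫ ^ 2) (gam d) := i2.add (integrable_inner_sq k)
  have j2 : Integrable (fun ξ => 2 * (L ξ + ⟪k, ξ⟫ * L ξ)) (gam d) := (i1.add i3).const_mul 2
  have j3 := (integrable_inner k).const_mul 2
  have j4 : Integrable (fun ξ => (L ξ * L ξ + ⟪k, ξ⟫ ^ 2) - 2 * (L ξ + ⟪k, ξ⟫ * L ξ)) (gam d) :=
    j1.sub j2
  have j5 : Integrable (fun ξ => (L ξ * L ξ + ⟪k, ξ⟫ ^ 2) - 2 * (L ξ + ⟪k, ξ⟫ * L ξ) +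
      2 * ⟪k, ξ⟫) (gam d) := j4.add j3
  have e : ∀ ξ, (L ξ - 1 - ⟪k, ξ⟫) ^ 2 =
      ((L ξ * L ξ + ⟪k, ξ⟫ ^ 2) - 2 * (L ξ + ⟪k, ξ⟫ * L ξ) + 2 * ⟪k, ξ⟫) + 1 := fun ξ => by ring
  have i4 : Integrable (fun ξ => (L ξ - 1 - ⟪k, ξ⟫) ^ 2) (gam d) := by
    simp only [e]
    exact j5.add (integrable_const _)
  have c4 : ∫ ξ, (L ξ - 1 - ⟪k, ξ⟫) ^ 2 ∂(gam d) = Real.exp (‖k‖ ^ 2) - 1 - ‖k‖ ^ 2 := by
    simp only [e]
    rw [integral_add j5 (integrable_const _), integral_add j4 j3,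
      integral_sub j1 j2, integral_add i2 (integrable_inner_sq k), integral_const_mul,
      integral_const_mul, integral_add i1 i3, c0, c1, c2, c3, P347.integral_inner_sq_gam]
    simp
    ring
  have c5 := (le_abs_self _).trans (Real.abs_exp_sub_one_sub_id_le (x := ‖k‖ ^ 2) (by
    rw [abs_of_pos hpos]; nlinarith [norm_nonneg k]))
  have h1 : ∫ g, |L g - 1 - ⟪k, g⟫| ∂(gam d) ≤
      ∫ g, (1 / (2 * ‖k‖ ^ 2) * (L g - 1 - ⟪k, g⟫) ^ 2 + ‖k‖ ^ 2 / 2) ∂(gam d) := by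
    refine integral_mono_of_nonneg (ae_of_all _ fun g => abs_nonneg _)
      ((i4.const_mul _).add (integrable_const _)) (ae_of_all _ fun g => ?_)
    simp only
    generalize ‖k‖ ^ 2 = v at hpos
    have a3 : 1 / (2 * v) * (L g - 1 - ⟪k, g⟫) ^ 2 + v / 2 - |L g - 1 - ⟪k, g⟫| =
        (|L g - 1 - ⟪k, g⟫| - v) ^ 2 / (2 * v) := by
      rw [sub_sq |L g - 1 - ⟪k, g⟫|, sq_abs]
      field_simp
      ring
    have a4 : 0 ≤ (|L g - 1 - ⟪k, g⟫| - v) ^ 2 / (2 * v) := by positivity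
    linarith
  rw [integral_add (i4.const_mul _) (integrable_const _), integral_const_mul, c4] at h1
  refine h1.trans ?_
  have c6 := mul_le_mul_of_nonneg_left c5 (show 0 ≤ 1 / (2 * ‖k‖ ^ 2) by positivity)
  have c7 : 1 / (2 * ‖k‖ ^ 2) * (‖k‖ ^ 2) ^ 2 = ‖k‖ ^ 2 / 2 := by field_simp
  simp only [integral_const, probReal_univ, smul_eq_mul, one_mul]
  linarith

theorem sm_taylor (hf : U01 f) (hσ : 0 < σ) (c h : E d) (hh : ‖h‖ ≤ σ) :
    |sm σ f (c + h) - sm σ f c - ⟪h, gr σ f c⟫| ≤ ‖h‖ ^ 2 / σ ^ 2 := by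
  obtain ⟨k, rfl⟩ : ∃ k, h = σ • k :=
    ⟨σ⁻¹ • h, by rw [smul_smul, mul_inv_cancel₀ hσ.ne', one_smul]⟩
  rw [norm_smul, Real.norm_of_nonneg hσ.le] at hh ⊢
  have hk : ‖k‖ ≤ 1 := by nlinarith
  obtain ⟨i1, h1⟩ := tilt_l1 k hk
  have e1 : sm σ f (c + σ • k) =
      ∫ g, f (c + σ • g) * Real.exp (⟪g, k⟫ - ‖k‖ ^ 2 / 2) ∂(gam d) := by
    rw [← P347.cameron_martin k fun ξ => f (c + σ • ξ), sm]
    congr 1
    funext ξ
    rw [smul_add]
    congr 1
    abel
  have e2 : ⟪σ • k, gr σ f c⟫ = ∫ g, f (c + σ • g) * ⟪k, g⟫ ∂(gam d) := by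
    rw [real_inner_smul_left, inner_gr hf, ← mul_assoc, mul_inv_cancel₀ hσ.ne', one_mul]
  have i2 : Integrable (fun g => f (c + σ • g) * Real.exp (⟪g, k⟫ - ‖k‖ ^ 2 / 2) - f (c + σ • g))
      (gam d) := (hf.int_mul σ c i1).sub (hf.int_shift σ c)
  rw [e1, e2, sm, ← integral_sub (hf.int_mul σ c i1) (hf.int_shift σ c),
    ← integral_sub i2 (hf.int_mul σ c (integrable_inner k)), mul_pow, mul_div_cancel_left₀ _ (by positivity)]
  refine le_trans ?_ h1
  rw [← Real.norm_eq_abs]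
  refine norm_integral_le_of_norm_le
    ((i1.sub (integrable_const _)).sub (integrable_inner k)).abs (ae_of_all _ fun g => ?_)
  have : f (c + σ • g) * Real.exp (⟪g, k⟫ - ‖k‖ ^ 2 / 2) - f (c + σ • g) -
      f (c + σ • g) * ⟪k, g⟫ =
      f (c + σ • g) * (Real.exp (⟪g, k⟫ - ‖k‖ ^ 2 / 2) - 1 - ⟪k, g⟫) := by ring
  rw [this, norm_mul]
  exact mul_le_of_le_one_left (norm_nonneg _) (hf.norm_le _)

theorem hasGradientAt_sm (hf : U01 f) (hσ : 0 < σ) (c : E d) :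
    HasGradientAt (sm σ f) (gr σ f c) c := by
  rw [hasGradientAt_iff_hasFDerivAt, hasFDerivAt_iff_isLittleO_nhds_zero]
  have h1 : (fun h : E d => ‖h‖ ^ 2) =o[nhds 0] fun h => h :=
    Asymptotics.isLittleO_norm_pow_id (by norm_num)
  refine Asymptotics.IsBigO.trans_isLittleO ?_ h1
  refine Asymptotics.IsBigO.of_bound (1 / σ ^ 2) ?_
  filter_upwards [Metric.closedBall_mem_nhds (0 : E d) hσ] with h hh
  rw [mem_closedBall_zero_iff] at hh
  have := sm_taylor hf hσ c h hh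
  rw [InnerProductSpace.toDual_apply_apply, real_inner_comm, Real.norm_eq_abs,
    Real.norm_of_nonneg (by positivity), one_div_mul_eq_div]
  exact this

theorem gr_lip (hf : U01 f) (hσ : 0 < σ) (x h : E d) (hh : 2 * ‖h‖ ≤ σ) :
    ‖gr σ f (x + h) - gr σ f x‖ ≤ 6 / σ ^ 2 * ‖h‖ := by
  set D := gr σ f (x + h) - gr σ f x with hD
  rcases eq_or_ne D 0 with h0 | h0
  · rw [h0, norm_zero]; positivity
  rcases eq_or_ne h 0 with rfl | h1
  · exact (h0 (by simp [hD])).elim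
  have hDp : 0 < ‖D‖ := norm_pos_iff.2 h0
  have hhp : 0 < ‖h‖ := norm_pos_iff.2 h1
  set w := (‖h‖ / ‖D‖) • D with hw
  have hwn : ‖w‖ = ‖h‖ := by
    rw [hw, norm_smul, Real.norm_of_nonneg (by positivity), div_mul_cancel₀ _ hDp.ne']
  have hwD : ⟪w, D⟫ = ‖h‖ * ‖D‖ := by
    rw [hw, real_inner_smul_left, real_inner_self_eq_norm_sq]
    field_simp
  have hs : ‖h + w‖ ≤ 2 * ‖h‖ := (norm_add_le _ _).trans (by linarith)
  have a1 := abs_le.1 (sm_taylor hf hσ (x + h) w (by linarith))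
  have a2 := abs_le.1 (sm_taylor hf hσ x (h + w) (by linarith))
  have a3 := abs_le.1 (sm_taylor hf hσ x h (by linarith))
  rw [← add_assoc, inner_add_left] at a2
  rw [hwn] at a1
  have a4 : ‖h + w‖ ^ 2 / σ ^ 2 ≤ 4 * (‖h‖ ^ 2 / σ ^ 2) := by
    rw [← mul_div_assoc]
    gcongr
    nlinarith [norm_nonneg (h + w)]
  rw [hD, inner_sub_right, ← hD] at hwD
  refine le_of_mul_le_mul_left ?_ hhp
  have a5 : ‖h‖ * (6 / σ ^ 2 * ‖h‖) = 6 * (‖h‖ ^ 2 / σ ^ 2) := by ring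
  linarith [a1.1, a2.2, a3.1]

theorem continuous_gr (hf : U01 f) (hσ : 0 < σ) : Continuous (gr σ f) := by
  refine continuous_iff_continuousAt.2 fun x => ?_
  rw [ContinuousAt, tendsto_iff_norm_sub_tendsto_zero]
  have h1 : Filter.Tendsto (fun y : E d => 6 / σ ^ 2 * ‖y - x‖) (nhds x) (nhds 0) := by
    have : Continuous fun y : E d => 6 / σ ^ 2 * ‖y - x‖ := by fun_prop
    simpa using this.tendsto x
  refine squeeze_zero' (Filter.Eventually.of_forall fun _ => norm_nonneg _) ?_ h1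
  filter_upwards [Metric.closedBall_mem_nhds x (half_pos hσ)] with y hy
  rw [mem_closedBall_iff_norm] at hy
  have := gr_lip hf hσ x (y - x) (by linarith)
  rwa [add_sub_cancel] at this

theorem norm_gr_le (hf : U01 f) (hσ : 0 < σ) (c : E d) : ‖gr σ f c‖ ^ 2 ≤ 1 / σ ^ 2 :=
  (norm_gr_sq_le hf hσ c).trans (div_le_div_of_nonneg_right ((sm_U01 hf σ).2 c).2 (by positivity))

theorem tilted_eq_gam : ((volume : Measure (E d)).tilted fun x => -(‖x‖ ^ 2 / 2)) = gam d := by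
  have h1 := P347.integral_gam_dens (d := d) fun _ => 1
  simp only [integral_const, probReal_univ, smul_eq_mul, mul_one, P347.dens] at h1
  rw [integral_const_mul] at h1
  rw [P347.gam_eq_withDensity, Measure.tilted]
  congr 1
  funext x
  congr 1
  simp only [neg_div] at h1 ⊢
  rw [eq_inv_of_mul_eq_one_left h1.symm]
  ring

theorem var_sm (hf : U01 f) (hσ : 0 < σ) (c : E d) (B : ℝ) :
    ∫ v, sm σ f (c + B • v) ^ 2 ∂(gam d) - (∫ v, sm σ f (c + B • v) ∂(gam d)) ^ 2 ≤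
      2 * B ^ 2 * ∫ v, ‖gr σ f (c + B • v)‖ ^ 2 ∂(gam d) := by
  have hd : ∀ v : E d, HasFDerivAt (fun v : E d => sm σ f (c + B • v))
      (B • InnerProductSpace.toDual ℝ (E d) (gr σ f (c + B • v))) v := by
    intro v
    have h1 : HasFDerivAt (fun v : E d => c + B • v) (B • ContinuousLinearMap.id ℝ (E d)) v :=
      ((hasFDerivAt_id v).const_smul B).const_add c
    have h2 := (hasGradientAt_sm hf hσ (c + B • v)).hasFDerivAt.comp v h1
    refine h2.congr_fderiv ?_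
    ext w
    simp
  have hfd : fderiv ℝ (fun v : E d => sm σ f (c + B • v)) =
      fun v => B • InnerProductSpace.toDual ℝ (E d) (gr σ f (c + B • v)) :=
    funext fun v => (hd v).fderiv
  have hn : ∀ v, ‖fderiv ℝ (fun v : E d => sm σ f (c + B • v)) v‖ ^ 2 =
      B ^ 2 * ‖gr σ f (c + B • v)‖ ^ 2 := fun v => by
    rw [hfd, norm_smul, LinearIsometryEquiv.norm_map, mul_pow, Real.norm_eq_abs, sq_abs]
  have hc := continuous_gr hf hσ
  have key := P347.poincare (d := d) (Ψ := fun x => ‖x‖ ^ 2 / 2) (by fun_prop) (α := 1) one_pos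
    (fun x y => by
      rw [norm_smul, mul_pow, norm_add_sq_real, norm_sub_sq_real, Real.norm_eq_abs, sq_abs]
      linarith)
    (fun p => by
      have := P347.integrable_pow_mul_exp_neg (d := d) p (c := 1 / 2) (by norm_num) 0
      simpa [div_eq_inv_mul] using this)
    (f := fun v : E d => sm σ f (c + B • v))
    (contDiff_one_iff_fderiv.2 ⟨fun v => (hd v).differentiableAt, by rw [hfd]; fun_prop⟩)
    (P347.Poin.pg_bdd (R := 1) fun x => (sm_U01 hf σ).norm_le _)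
    (P347.Poin.pg_bdd (R := 1 + B ^ 2 * (1 / σ ^ 2)) fun x => by
      have h1 := hn x
      have h2 := mul_le_mul_of_nonneg_left (norm_gr_le hf hσ (c + B • x)) (sq_nonneg B)
      rw [abs_norm]
      nlinarith [sq_nonneg (‖fderiv ℝ (fun v : E d => sm σ f (c + B • v)) x‖ - 1),
        norm_nonneg (fderiv ℝ (fun v : E d => sm σ f (c + B • v)) x)])
  rw [tilted_eq_gam] at key
  simp only [hn, inv_one, one_mul] at key
  rw [integral_const_mul] at key
  have h0 : 0 ≤ B ^ 2 * ∫ v, ‖gr σ f (c + B • v)‖ ^ 2 ∂(gam d) :=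
    mul_nonneg (sq_nonneg _) (integral_nonneg fun v => sq_nonneg _)
  linarith

end Vale.Agent.P318
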