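import Vale.Agent.P318.Corr

/-! Estimates for the edge functionals.  Integrability: `P347.PG` / `integrable_pow_gam`, `IsGaussian.memLp_*`.
`mvI_junk`: Cauchy-Schwarz (or `2 w j ≤ t w² + j / t` and optimise; treat `∫ j = 0` separately or let `t → 0`),
`∫ (1 + |⟪u, x⟫|)² ≤ 4`, `j² ≤ j`, `mv_preserving` for the second term.
`mvI_cost`: pointwise `H x x' ≤ a (|z| + |⟪e y, x⟫| + 2) + Δ (j x + j x')` with `j` the indicator of `Gᶜ`, because
`x - mv (e y) x z` is a multiple of `e y`; `(1 + s) (2 + s + t) ≤ 4 + 3 s² + t²` for `s, t ≥ 0` has mean `8`.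
`swI_cost`: the two points differ by `σ (g - g')`; `norm_sub_sq`, `swI_add_const`, `β² ≤ β` unless `β > 1` (then use `H ≤ Δ`).
`avg_ge`: pointwise `H x x' ≥ a ‖x - x'‖ - a' - a ‖x - x'‖ (j x + j x')`, `norm_sub_ge`, Cauchy-Schwarz, `norm_sub_sq`. -/

namespace Vale.Agent.P318

open MeasureTheory ProbabilityTheory Finset
open Vale.Agent.P347 (E gam)
open scoped RealInnerProductSpace

variable {d : ℕ} {H H' : E d → E d → ℝ} {G : Set (E d)} {a a' β Δ σ : ℝ}

/-- Cauchy-Schwarz against a function with values in the unit interval. -/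
theorem edge_cs {Ω : Type} [MeasurableSpace Ω] {μ : Measure Ω} [IsProbabilityMeasure μ]
    {w j : Ω → ℝ} (hw : MemLp w 2 μ) (hj : U01 j) :
    ∫ x, w x * j x ∂μ ≤ √(∫ x, w x ^ 2 ∂μ) * √(∫ x, j x ∂μ) := by
  have hb : ∀ᵐ x ∂μ, ‖j x‖ ≤ 1 := ae_of_all _ fun x => by
    rw [Real.norm_of_nonneg (hj.2 x).1]; exact (hj.2 x).2
  have i1 : Integrable (fun x => w x ^ 2) μ := hw.integrable_sq
  have i2 : Integrable (fun x => w x * j x) μ :=
    (hw.integrable (by norm_num)).mul_bdd hj.1.aestronglyMeasurable hb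
  have i3 : Integrable j μ := Integrable.of_bound hj.1.aestronglyMeasurable 1 hb
  have key : ∀ s : ℝ, 0 ≤ (∫ x, w x ^ 2 ∂μ) * (s * s) + 2 * (∫ x, w x * j x ∂μ) * s +
      ∫ x, j x ∂μ := by
    intro s
    have h1 : 0 ≤ ∫ x, (s * s * w x ^ 2 + 2 * s * (w x * j x) + j x) ∂μ :=
      integral_nonneg fun x => by
        have := mul_nonneg (hj.2 x).1 (sub_nonneg.2 (hj.2 x).2)
        change 0 ≤ s * s * w x ^ 2 + 2 * s * (w x * j x) + j x
        nlinarith [sq_nonneg (s * w x + j x)]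
    rw [integral_add ((i1.const_mul _).fun_add (i2.const_mul _)) i3,
      integral_add (i1.const_mul _) (i2.const_mul _), integral_const_mul, integral_const_mul] at h1
    linarith
  have h3 := discrim_le_zero key
  unfold discrim at h3
  rw [← Real.sqrt_mul (integral_nonneg fun x => sq_nonneg (w x))]
  exact Real.le_sqrt_of_sq_le (by linarith)

theorem edge_comp {Ω Ω' : Type} [MeasurableSpace Ω] [MeasurableSpace Ω'] {μ : Measure Ω}
    {ν : Measure Ω'} {φ : Ω → Ω'} (h : MeasurePreserving φ μ ν) {j : Ω' → ℝ} (hj : Measurable j) :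
    ∫ x, j (φ x) ∂μ = ∫ y, j y ∂ν := by
  rw [← h.map_eq, integral_map h.measurable.aemeasurable hj.aestronglyMeasurable]

theorem edge_memLp_inner (u : E d) :
    MemLp (fun p : E d × ℝ => ⟪u, p.1⟫) 2 ((gam d).prod (gaussianReal 0 1)) :=
  (IsGaussian.memLp_dual (gam d) (innerSL ℝ u) 2 (by simp)).comp_fst _

theorem edge_memLp_w (u : E d) :
    MemLp (fun p : E d × ℝ => 1 + |⟪u, p.1⟫|) 2 ((gam d).prod (gaussianReal 0 1)) := by
  have h1 : MemLp (fun p : E d × ℝ => ‖⟪u, p.1⟫‖) 2 ((gam d).prod (gaussianReal 0 1)) :=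
    (edge_memLp_inner u).norm
  have h0 : MemLp (fun _ : E d × ℝ => (1 : ℝ)) 2 ((gam d).prod (gaussianReal 0 1)) :=
    memLp_const 1
  exact h0.add h1

theorem edge_int_mv (u : E d) (h : BM2 H) : Integrable
    (fun p : E d × ℝ => (1 + |⟪u, p.1⟫|) * H p.1 (mv u p.1 p.2))
    ((gam d).prod (gaussianReal 0 1)) := by
  obtain ⟨hm, C, hC⟩ := h
  exact ((edge_memLp_w u).integrable (by norm_num)).mul_bdd
    (hm.comp (measurable_fst.prodMk (measurable_mv u))).aestronglyMeasurable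
    (ae_of_all _ fun p => hC _ _)

theorem edge_int_sw (σ : ℝ) (h : BM2 H) : Integrable (fun p : E d × E d × E d =>
    H (√(1 - σ ^ 2) • p.1 + σ • p.2.1) (√(1 - σ ^ 2) • p.1 + σ • p.2.2))
    ((gam d).prod ((gam d).prod (gam d))) := by
  obtain ⟨hm, C, hC⟩ := h
  have hφ : Measurable fun p : E d × E d × E d =>
      (√(1 - σ ^ 2) • p.1 + σ • p.2.1, √(1 - σ ^ 2) • p.1 + σ • p.2.2) := by fun_prop
  exact Integrable.of_bound (hm.comp hφ).aestronglyMeasurable C (ae_of_all _ fun p => hC _ _)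

theorem edge_bm2 {j : E d → ℝ} (hj : U01 j) : BM2 fun x y => j x + j y :=
  ⟨(hj.1.comp measurable_fst).add (hj.1.comp measurable_snd), 2, fun x y => by
    rw [abs_le]
    constructor <;> linarith [hj.2 x, hj.2 y]⟩

theorem edge_ind (hG : MeasurableSet G) : U01 (Gᶜ.indicator fun _ => (1 : ℝ)) :=
  ⟨measurable_const.indicator hG.compl, fun x => by
    by_cases h : x ∈ Gᶜ <;> simp [h]⟩

theorem edge_ind_int (hG : MeasurableSet G) :
    ∫ x, Gᶜ.indicator (fun _ => (1 : ℝ)) x ∂(gam d) = (gam d).real Gᶜ :=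
  integral_indicator_one hG.compl

theorem edge_ind_ge {x x' : E d} (h : ¬(x ∈ G ∧ x' ∈ G)) :
    1 ≤ Gᶜ.indicator (fun _ => (1 : ℝ)) x + Gᶜ.indicator (fun _ => (1 : ℝ)) x' := by
  by_cases h1 : x ∈ G <;> by_cases h2 : x' ∈ G <;> simp_all

theorem edge_memLp_sub : MemLp (fun p : E d × E d => ‖p.1 - p.2‖) 2 ((gam d).prod (gam d)) :=
  (((IsGaussian.memLp_id (gam d) 2 (by simp)).comp_fst _).sub
    ((IsGaussian.memLp_id (gam d) 2 (by simp)).comp_snd _)).norm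

theorem edge_inner_sq {u : E d} (hu : ‖u‖ = 1) :
    ∫ p : E d × ℝ, ⟪u, p.1⟫ ^ 2 ∂((gam d).prod (gaussianReal 0 1)) = 1 := by
  rw [integral_fun_fst (fun x : E d => ⟪u, x⟫ ^ 2), P347.integral_inner_sq_gam, hu]
  simp

theorem mvI_add (u : E d) (h : BM2 H) (h' : BM2 H') :
    mvI u (fun x y => H x y + H' x y) = mvI u H + mvI u H' := by
  unfold mvI
  rw [← integral_add (edge_int_mv u h) (edge_int_mv u h')]
  simp only [mul_add]

theorem mvI_smul (u : E d) (a : ℝ) (H : E d → E d → ℝ) :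
    mvI u (fun x y => a * H x y) = a * mvI u H := by
  unfold mvI
  rw [← integral_const_mul]
  simp only [mul_left_comm]

theorem mvI_nonneg (u : E d) (h : ∀ x y, 0 ≤ H x y) : 0 ≤ mvI u H := by
  exact integral_nonneg fun p => mul_nonneg (by positivity) (h _ _)

theorem swI_add (σ : ℝ) (h : BM2 H) (h' : BM2 H') :
    swI σ (fun x y => H x y + H' x y) = swI σ H + swI σ H' := by
  exact integral_add (edge_int_sw σ h) (edge_int_sw σ h')

theorem swI_smul (σ a : ℝ) (H : E d → E d → ℝ) :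
    swI σ (fun x y => a * H x y) = a * swI σ H := by
  exact integral_const_mul _ _

theorem swI_nonneg (σ : ℝ) (h : ∀ x y, 0 ≤ H x y) : 0 ≤ swI σ H := by
  exact integral_nonneg fun p => h _ _

theorem mvI_junk {u : E d} (hu : ‖u‖ = 1) {j : E d → ℝ} (hj : U01 j) :
    mvI u (fun x y => j x + j y) ≤ 4 * √(∫ x, j x ∂(gam d)) := by
  have hw := edge_memLp_w u
  have hj1 : U01 fun p : E d × ℝ => j p.1 := ⟨hj.1.comp measurable_fst, fun p => hj.2 _⟩
  have hj2 : U01 fun p : E d × ℝ => j (mv u p.1 p.2) :=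
    ⟨hj.1.comp (measurable_mv u), fun p => hj.2 _⟩
  have hi : ∀ {f : E d × ℝ → ℝ}, U01 f → Integrable (fun p : E d × ℝ => (1 + |⟪u, p.1⟫|) * f p)
      ((gam d).prod (gaussianReal 0 1)) := fun hf =>
    (hw.integrable (by norm_num)).mul_bdd (c := 1) hf.1.aestronglyMeasurable
      (ae_of_all _ fun x => by rw [Real.norm_of_nonneg (hf.2 x).1]; exact (hf.2 x).2)
  have h4 : ∫ p : E d × ℝ, (1 + |⟪u, p.1⟫|) ^ 2 ∂((gam d).prod (gaussianReal 0 1)) ≤ 4 := by
    have i1 := (edge_memLp_inner u).integrable_sq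
    have h5 := integral_mono hw.integrable_sq ((integrable_const (2 : ℝ)).add (i1.const_mul 2))
      fun p => by
        change (1 + |⟪u, p.1⟫|) ^ 2 ≤ 2 + 2 * ⟪u, p.1⟫ ^ 2
        nlinarith [sq_nonneg (1 - |⟪u, p.1⟫|), sq_abs ⟪u, p.1⟫]
    refine h5.trans (le_of_eq ?_)
    change ∫ p : E d × ℝ, (2 + 2 * ⟪u, p.1⟫ ^ 2) ∂_ = _
    rw [integral_add (integrable_const _) (i1.const_mul 2), integral_const_mul, edge_inner_sq hu]
    simp
    norm_num
  have h2 : √(∫ p : E d × ℝ, (1 + |⟪u, p.1⟫|) ^ 2 ∂((gam d).prod (gaussianReal 0 1))) ≤ 2 :=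
    Real.sqrt_le_iff.2 ⟨by norm_num, by linarith⟩
  have c1 := edge_cs hw hj1
  have c2 := edge_cs hw hj2
  rw [edge_comp measurePreserving_fst hj.1] at c1
  rw [edge_comp (mv_preserving hu) hj.1] at c2
  have c3 := mul_le_mul_of_nonneg_right h2 (Real.sqrt_nonneg (∫ x, j x ∂(gam d)))
  unfold mvI
  simp only [mul_add]
  rw [integral_add (hi hj1) (hi hj2)]
  linarith

theorem mvI_cost (e : ONB d) (y : Fin d) (hG : MeasurableSet G) (hβ : 0 ≤ β)
    (hb : (gam d).real Gᶜ ≤ β ^ 2) (h0 : ∀ x x', 0 ≤ H x x') (hΔ : ∀ x x', H x x' ≤ Δ) (ha : 0 ≤ a)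
    (h : ∀ x ∈ G, ∀ x' ∈ G, H x x' ≤ a * (∑ y', |⟪e y', x - x'⟫| + 2)) :
    mvI (e y) H ≤ 8 * a + 4 * Δ * β := by
  have hu : ‖e y‖ = 1 := e.norm_eq_one y
  have hΔ0 : 0 ≤ Δ := (h0 0 0).trans (hΔ 0 0)
  have hj := edge_ind hG
  set j := Gᶜ.indicator fun _ => (1 : ℝ) with hjd
  have i1 := (edge_memLp_inner (e y)).integrable_sq
  have m2 : MemLp (fun z : ℝ => z) 2 (gaussianReal 0 1) := memLp_id_gaussianReal' 2 (by simp)
  have i2 : Integrable (fun p : E d × ℝ => p.2 ^ 2) ((gam d).prod (gaussianReal 0 1)) :=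
    m2.integrable_sq.comp_snd _
  have e2 : ∫ p : E d × ℝ, p.2 ^ 2 ∂((gam d).prod (gaussianReal 0 1)) = 1 := by
    have h1 := variance_fun_id_gaussianReal (μ := 0) (v := 1)
    rw [variance_of_integral_eq_zero (by fun_prop) integral_id_gaussianReal] at h1
    rw [integral_fun_snd (fun z : ℝ => z ^ 2), h1]
    simp
  have i3 := edge_int_mv (e y) (edge_bm2 hj)
  have i4 : Integrable (fun p : E d × ℝ => 4 + 3 * ⟪e y, p.1⟫ ^ 2 + p.2 ^ 2)
      ((gam d).prod (gaussianReal 0 1)) := ((integrable_const _).add (i1.const_mul 3)).add i2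
  have e4 : ∫ p : E d × ℝ, (4 + 3 * ⟪e y, p.1⟫ ^ 2 + p.2 ^ 2)
      ∂((gam d).prod (gaussianReal 0 1)) = 8 := by
    rw [integral_add ((integrable_const _).fun_add (i1.const_mul 3)) i2,
      integral_add (integrable_const _) (i1.const_mul 3), integral_const_mul, edge_inner_sq hu, e2]
    simp
    norm_num
  have hs : ∀ (x : E d) (z : ℝ), ∑ y', |⟪e y', x - mv (e y) x z⟫| ≤ |z| + |⟪e y, x⟫| := by
    intro x z
    rw [Finset.sum_eq_single y (fun y' _ hy => by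
      simp [mv, inner_smul_right, e.inner_eq_zero hy]) (by simp)]
    simp only [mv, sub_add_cancel_left, inner_neg_right, inner_smul_right, abs_neg,
      real_inner_self_eq_norm_sq, hu, one_pow, mul_one]
    exact abs_sub _ _
  have key : mvI (e y) H ≤ ∫ p : E d × ℝ, (a * (4 + 3 * ⟪e y, p.1⟫ ^ 2 + p.2 ^ 2) +
      Δ * ((1 + |⟪e y, p.1⟫|) * (j p.1 + j (mv (e y) p.1 p.2))))
      ∂((gam d).prod (gaussianReal 0 1)) := by
    refine integral_mono_of_nonneg (ae_of_all _ fun p => mul_nonneg (by positivity) (h0 _ _))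
      ((i4.const_mul a).add (i3.const_mul Δ)) (ae_of_all _ fun p => ?_)
    have hw : 0 ≤ 1 + |⟪e y, p.1⟫| := by positivity
    change (1 + |⟪e y, p.1⟫|) * H p.1 (mv (e y) p.1 p.2) ≤ _
    by_cases hp : p.1 ∈ G ∧ mv (e y) p.1 p.2 ∈ G
    · have h1 := (h _ hp.1 _ hp.2).trans
        (mul_le_mul_of_nonneg_left (add_le_add_left (hs p.1 p.2) 2) ha)
      have h2 : (1 + |⟪e y, p.1⟫|) * (|p.2| + |⟪e y, p.1⟫| + 2) ≤
          4 + 3 * ⟪e y, p.1⟫ ^ 2 + p.2 ^ 2 := by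
        nlinarith [sq_nonneg (1 - |⟪e y, p.1⟫|), sq_abs ⟪e y, p.1⟫, sq_nonneg (1 - |p.2|),
          sq_abs p.2, sq_nonneg (|p.2| - |⟪e y, p.1⟫|)]
      have h3 := mul_le_mul_of_nonneg_left h1 hw
      have h4 := mul_le_mul_of_nonneg_left h2 ha
      have h5 : 0 ≤ Δ * ((1 + |⟪e y, p.1⟫|) * (j p.1 + j (mv (e y) p.1 p.2))) :=
        mul_nonneg hΔ0 (mul_nonneg hw (add_nonneg (hj.2 _).1 (hj.2 _).1))
      linarith
    · have h1 : H p.1 (mv (e y) p.1 p.2) ≤ Δ * (j p.1 + j (mv (e y) p.1 p.2)) :=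
        (hΔ _ _).trans (le_mul_of_one_le_right hΔ0 (edge_ind_ge hp))
      have h3 := mul_le_mul_of_nonneg_left h1 hw
      have h4 : 0 ≤ a * (4 + 3 * ⟪e y, p.1⟫ ^ 2 + p.2 ^ 2) := by positivity
      linarith
  rw [integral_add (i4.const_mul a) (i3.const_mul Δ), integral_const_mul, integral_const_mul,
    e4] at key
  have h5 := mvI_junk hu hj
  rw [hjd, edge_ind_int hG] at h5
  have h6 : √((gam d).real Gᶜ) ≤ β := Real.sqrt_le_iff.2 ⟨hβ, hb⟩
  have h7 := mul_le_mul_of_nonneg_left (h5.trans (mul_le_mul_of_nonneg_left h6 (by norm_num))) hΔ0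
  unfold mvI at h7
  linarith

theorem swI_cost (h1 : σ ^ 2 ≤ 1) (hG : MeasurableSet G) (hβ : 0 ≤ β)
    (hb : (gam d).real Gᶜ ≤ β ^ 2) (h0 : ∀ x x', 0 ≤ H x x') (hΔ : ∀ x x', H x x' ≤ Δ) (ha : 0 ≤ a)
    (ha' : 0 ≤ a') (h : ∀ x ∈ G, ∀ x' ∈ G, H x x' ≤ a * ‖x - x'‖ ^ 2 + a') :
    swI σ H ≤ 2 * a * σ ^ 2 * d + a' + 2 * Δ * β := by
  have hΔ0 : 0 ≤ Δ := (h0 0 0).trans (hΔ 0 0)
  have hj := edge_ind hG
  set j := Gᶜ.indicator fun _ => (1 : ℝ) with hjd
  have i1 : Integrable (fun p : E d × E d × E d => ‖p.2.1 - p.2.2‖ ^ 2)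
      ((gam d).prod ((gam d).prod (gam d))) := edge_memLp_sub.integrable_sq.comp_snd _
  have e1 : ∫ p : E d × E d × E d, ‖p.2.1 - p.2.2‖ ^ 2 ∂((gam d).prod ((gam d).prod (gam d))) =
      2 * d := by
    rw [integral_fun_snd (fun q : E d × E d => ‖q.1 - q.2‖ ^ 2), norm_sub_sq]
    simp
  have i3 := edge_int_sw σ (edge_bm2 hj)
  have key : swI σ H ≤ ∫ p : E d × E d × E d, (a * σ ^ 2 * ‖p.2.1 - p.2.2‖ ^ 2 + a' +
      Δ * (j (√(1 - σ ^ 2) • p.1 + σ • p.2.1) + j (√(1 - σ ^ 2) • p.1 + σ • p.2.2)))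
      ∂((gam d).prod ((gam d).prod (gam d))) := by
    refine integral_mono_of_nonneg (ae_of_all _ fun p => h0 _ _)
      (((i1.const_mul _).add (integrable_const a')).add (i3.const_mul Δ))
      (ae_of_all _ fun p => ?_)
    change H (√(1 - σ ^ 2) • p.1 + σ • p.2.1) (√(1 - σ ^ 2) • p.1 + σ • p.2.2) ≤ _
    by_cases hp : √(1 - σ ^ 2) • p.1 + σ • p.2.1 ∈ G ∧ √(1 - σ ^ 2) • p.1 + σ • p.2.2 ∈ G
    · have h2 := h _ hp.1 _ hp.2
      rw [add_sub_add_left_eq_sub, ← smul_sub, norm_smul, mul_pow, Real.norm_eq_abs, sq_abs,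
        ← mul_assoc] at h2
      have h5 := mul_nonneg hΔ0 (add_nonneg (hj.2 (√(1 - σ ^ 2) • p.1 + σ • p.2.1)).1
        (hj.2 (√(1 - σ ^ 2) • p.1 + σ • p.2.2)).1)
      linarith
    · have h2 := (hΔ (√(1 - σ ^ 2) • p.1 + σ • p.2.1) (√(1 - σ ^ 2) • p.1 + σ • p.2.2)).trans
        (le_mul_of_one_le_right hΔ0 (edge_ind_ge hp))
      have h4 : 0 ≤ a * σ ^ 2 * ‖p.2.1 - p.2.2‖ ^ 2 := by positivity
      linarith
  rw [integral_add ((i1.const_mul _).fun_add (integrable_const a')) (i3.const_mul Δ),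
    integral_add (i1.const_mul _) (integrable_const a'), integral_const_mul, integral_const_mul,
    e1] at key
  have h5 := swI_add_const hj hj h1
  unfold swI at h5
  rw [h5, hjd, edge_ind_int hG] at key
  have h6 : (gam d).real Gᶜ ≤ β := by
    have h7 : (gam d).real Gᶜ ≤ 1 := measureReal_le_one
    have h8 : 0 ≤ (gam d).real Gᶜ := measureReal_nonneg
    exact (sq_le_sq₀ h8 hβ).1 (by nlinarith)
  have h7 := mul_le_mul_of_nonneg_left h6 hΔ0
  simp only [integral_const, probReal_univ, smul_eq_mul, one_mul] at key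
  linarith

theorem avg_ge (hH : BM2 H) (hG : MeasurableSet G) (hβ : 0 ≤ β)
    (hb : (gam d).real Gᶜ ≤ β ^ 2) (h0 : ∀ x x', 0 ≤ H x x') (ha : 0 ≤ a) (ha' : 0 ≤ a')
    (h : ∀ x ∈ G, ∀ x' ∈ G, a * ‖x - x'‖ - a' ≤ H x x') :
    a * √d * (1 / 20 - 3 * β) - a' ≤ ∫ p : E d × E d, H p.1 p.2 ∂((gam d).prod (gam d)) := by
  have hj := edge_ind hG
  set j := Gᶜ.indicator fun _ => (1 : ℝ) with hjd
  have hw := edge_memLp_sub (d := d)
  have i1 := hw.integrable (by norm_num)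
  have hj1 : U01 fun p : E d × E d => j p.1 := ⟨hj.1.comp measurable_fst, fun p => hj.2 _⟩
  have hj2 : U01 fun p : E d × E d => j p.2 := ⟨hj.1.comp measurable_snd, fun p => hj.2 _⟩
  have hi : ∀ {f : E d × E d → ℝ}, U01 f → Integrable (fun p : E d × E d => ‖p.1 - p.2‖ * f p)
      ((gam d).prod (gam d)) := fun hf =>
    i1.mul_bdd (c := 1) hf.1.aestronglyMeasurable
      (ae_of_all _ fun x => by rw [Real.norm_of_nonneg (hf.2 x).1]; exact (hf.2 x).2)
  obtain ⟨hm, C, hC⟩ := hH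
  have iH : Integrable (fun p : E d × E d => H p.1 p.2) ((gam d).prod (gam d)) :=
    Integrable.of_bound hm.aestronglyMeasurable C (ae_of_all _ fun p => hC _ _)
  have key : ∫ p : E d × E d, (a * ‖p.1 - p.2‖ - a' -
      a * (‖p.1 - p.2‖ * j p.1 + ‖p.1 - p.2‖ * j p.2)) ∂((gam d).prod (gam d)) ≤
      ∫ p : E d × E d, H p.1 p.2 ∂((gam d).prod (gam d)) := by
    refine integral_mono (((i1.const_mul a).sub (integrable_const a')).sub
      (((hi hj1).add (hi hj2)).const_mul a)) iH fun p => ?_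
    have hn := mul_nonneg ha (norm_nonneg (p.1 - p.2))
    change a * ‖p.1 - p.2‖ - a' - a * (‖p.1 - p.2‖ * j p.1 + ‖p.1 - p.2‖ * j p.2) ≤ H p.1 p.2
    by_cases hp : p.1 ∈ G ∧ p.2 ∈ G
    · have h2 := h _ hp.1 _ hp.2
      have h3 := mul_nonneg hn (add_nonneg (hj.2 p.1).1 (hj.2 p.2).1)
      linarith
    · have h2 := le_mul_of_one_le_right hn (edge_ind_ge hp)
      have h3 := h0 p.1 p.2
      linarith
  rw [integral_sub ((i1.const_mul a).sub' (integrable_const a'))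
      (((hi hj1).fun_add (hi hj2)).const_mul a), integral_sub (i1.const_mul a) (integrable_const a'),
    integral_const_mul, integral_const_mul, integral_add (hi hj1) (hi hj2)] at key
  simp only [integral_const, probReal_univ, smul_eq_mul, one_mul] at key
  have c1 := edge_cs hw hj1
  have c2 := edge_cs hw hj2
  rw [edge_comp measurePreserving_fst hj.1, norm_sub_sq, hjd, edge_ind_int hG] at c1
  rw [edge_comp measurePreserving_snd hj.1, norm_sub_sq, hjd, edge_ind_int hG] at c2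
  have h6 : √((gam d).real Gᶜ) ≤ β := Real.sqrt_le_iff.2 ⟨hβ, hb⟩
  have h7 : √(2 * (d : ℝ)) ≤ 3 / 2 * √d := Real.sqrt_le_iff.2 ⟨by positivity, by
    rw [mul_pow, Real.sq_sqrt (Nat.cast_nonneg d)]
    linarith [(Nat.cast_nonneg d : (0 : ℝ) ≤ d)]⟩
  have h8 := mul_le_mul h7 h6 (Real.sqrt_nonneg _) (by positivity)
  have h9 := mul_le_mul_of_nonneg_left (add_le_add (c1.trans h8) (c2.trans h8)) ha
  have h10 := mul_le_mul_of_nonneg_left (norm_sub_ge (d := d)) ha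
  linarith

end Vale.Agent.P318
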