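import Vale.Agent.P318.Corr
import Vale.Agent.P318.Beta

/-! Expansion.  `energy`: at the point `c` let `a = gr σ (bar F) c = (∑ m, a m) / J`, `a m = gr σ (F (·, m)) c`.  Then
`‖a‖² = J⁻¹ ∑ m, ∑ y, ⟪b m y, a⟫ ⟪b m y, a m⟫`.  For reals `s, β` and `τ, η > 0`:
`s β ≤ τ |β| + (s⁴ / η + η β²) / (2 τ)` (if `|s| > τ` then `|s| |β| ≤ s² |β| / τ`).  Take `η = 1 / (σ √d)`, use `Four`,
`‖a‖⁴ ≤ σ⁻² ‖a‖² ≤ σ⁻⁴ sm σ (bar F) c`, `‖a m‖² ≤ σ⁻² sm σ (F (·, m)) c` (`norm_gr_sq_le`), `integral_sm`, `beta_le`.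
`expand_half`: telescope `corr_step` along `σ j = √((1/2) ^ (r - j))`, i.e. show by induction on `k` that
`corr √((1/2)^k) (bar F) ≤ mean F ^ 2 + k * 2 * (16 r K / √d + mean F / (8 r))` using `energy` with
`τ = 16 r / (σ √d)`; then `swE_cutF` and `mean F / 4 ≤ mean F (1 - mean F) / 2`.
`expand`: if `mean F > 1 / 2` apply `expand_half` to `1 - F` (`cutF` is unchanged). -/

namespace Vale.Agent.P318

open MeasureTheory ProbabilityTheory Finset
open Vale.Agent.P347 (E gam)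
open scoped RealInnerProductSpace

variable {d : ℕ} {M : Type} [Fintype M] [Nonempty M] {b : M → ONB d} {F : E d × M → ℝ}

theorem ex_int {f : E d → ℝ} (hf : U01 f) : Integrable f (gam d) :=
  (integrable_const (1 : ℝ)).mono' hf.1.aestronglyMeasurable (ae_of_all _ fun x => by
    rw [Real.norm_eq_abs, abs_of_nonneg (hf.2 x).1]; exact (hf.2 x).2)

theorem ex_card_pos : (0 : ℝ) < Fintype.card M := by
  exact_mod_cast Fintype.card_pos

theorem ex_bar_U01 (hF : ∀ m, U01 fun x => F (x, m)) : U01 (bar F) := by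
  refine ⟨?_, fun x => ⟨?_, ?_⟩⟩
  · unfold bar
    exact (Finset.measurable_sum _ fun m _ => (hF m).1).div_const _
  · exact div_nonneg (sum_nonneg fun m _ => ((hF m).2 x).1) ex_card_pos.le
  · unfold bar
    rw [div_le_one ex_card_pos]
    calc ∑ m, F (x, m) ≤ ∑ _m : M, (1 : ℝ) := sum_le_sum fun m _ => ((hF m).2 x).2
      _ = _ := by simp

omit [Nonempty M] in
theorem ex_integral_bar (hF : ∀ m, U01 fun x => F (x, m)) :
    ∫ x, bar F x ∂(gam d) = mean F := by
  unfold bar mean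
  rw [integral_div, integral_finsetSum _ fun m _ => ex_int (hF m)]

theorem ex_mean_nonneg (hF : ∀ m, U01 fun x => F (x, m)) : 0 ≤ mean F := by
  rw [← ex_integral_bar hF]
  exact integral_nonneg fun x => ((ex_bar_U01 hF).2 x).1

theorem ex_int_inner {f : E d → ℝ} (hf : U01 f) (σ : ℝ) (u c : E d) :
    Integrable (fun g => f (c + σ • g) * ⟪u, g⟫) (gam d) := by
  have h1 : Integrable (fun g : E d => ⟪u, g⟫) (gam d) :=
    (IsGaussian.integrable_id (μ := gam d)).const_inner u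
  refine h1.bdd_mul (c := 1) (hf.1.comp (by fun_prop)).aestronglyMeasurable
    (ae_of_all _ fun g => ?_)
  rw [Real.norm_eq_abs, abs_of_nonneg (hf.2 _).1]
  exact (hf.2 _).2

theorem ex_inner_bar (hF : ∀ m, U01 fun x => F (x, m)) (σ : ℝ) (u c : E d) :
    ⟪u, gr σ (bar F) c⟫ = (∑ m, ⟪u, gr σ (fun x => F (x, m)) c⟫) / Fintype.card M := by
  rw [inner_gr (ex_bar_U01 hF)]
  simp_rw [inner_gr (hF _)]
  rw [← mul_sum, ← integral_finsetSum _ fun m _ => ex_int_inner (hF m) σ u c, mul_div_assoc,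
    ← integral_div]
  congr 2
  funext g
  unfold bar
  rw [← sum_mul]
  ring

theorem ex_real {s β τ η : ℝ} (hτ : 0 < τ) (hη : 0 < η) :
    s * β ≤ τ * |β| + (s ^ 4 / η + η * β ^ 2) / (2 * τ) := by
  have h0 : s * β ≤ |s| * |β| := by rw [← abs_mul]; exact le_abs_self _
  have hb := abs_nonneg β
  have hp : 0 ≤ (s ^ 4 / η + η * β ^ 2) / (2 * τ) := by positivity
  rcases le_total |s| τ with h | h
  · have := mul_le_mul_of_nonneg_right h hb
    linarith
  · have h2 : |s| * |β| ≤ (s ^ 4 / η + η * β ^ 2) / (2 * τ) := by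
      rw [le_div_iff₀ (by positivity)]
      have h3 : |s| * |β| * (2 * τ) ≤ 2 * (s ^ 2 * |β|) := by
        rw [← sq_abs s]
        have := mul_le_mul_of_nonneg_left h (mul_nonneg (abs_nonneg s) hb)
        nlinarith
      have h4 : 2 * (s ^ 2 * |β|) ≤ s ^ 4 / η + η * β ^ 2 := by
        have h5 : s ^ 4 / η + η * β ^ 2 - 2 * (s ^ 2 * |β|) = (s ^ 2 - η * |β|) ^ 2 / η := by
          rw [← sq_abs β]
          field_simp
          ring
        have : 0 ≤ (s ^ 2 - η * |β|) ^ 2 / η := by positivity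
        linarith
      linarith
    have : 0 ≤ τ * |β| := by positivity
    linarith

theorem ex_gr_le {f : E d → ℝ} (hf : U01 f) {σ : ℝ} (hσ : 0 < σ) (c : E d) :
    ‖gr σ f c‖ ^ 2 ≤ 1 / σ ^ 2 :=
  (norm_gr_sq_le hf hσ c).trans
    (div_le_div_of_nonneg_right ((sm_U01 hf σ).2 c).2 (by positivity))

/-- The pointwise form of the energy estimate. -/
theorem ex_point (hd : 1 ≤ d) (hb : Four b) (hF : ∀ m, U01 fun x => F (x, m)) {σ τ : ℝ}
    (hσ : 0 < σ) (hτ : 0 < τ) (c : E d) :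
    ‖gr σ (bar F) c‖ ^ 2 ≤
      τ * ((∑ m, ∑ y, |⟪b m y, gr σ (fun x => F (x, m)) c⟫|) / Fintype.card M) +
        (3 * sm σ (bar F) c + (∑ m, sm σ (fun x => F (x, m)) c) / Fintype.card M) /
          (2 * τ * σ ^ 3 * √d) := by
  have hJ : (0 : ℝ) < Fintype.card M := ex_card_pos
  have hd0 : (0 : ℝ) < d := by exact_mod_cast hd
  have hsd : 0 < √(d : ℝ) := Real.sqrt_pos.2 hd0
  have hsq : √(d : ℝ) * √(d : ℝ) = d := Real.mul_self_sqrt hd0.le
  set a := gr σ (bar F) c with ha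
  set η : ℝ := 1 / (σ * √d) with hη
  have hη0 : 0 < η := by positivity
  have h1 : ‖a‖ ^ 2 = (∑ m, ∑ y, ⟪b m y, a⟫ * ⟪b m y, gr σ (fun x => F (x, m)) c⟫) /
      Fintype.card M := by
    rw [← real_inner_self_eq_norm_sq]
    conv_lhs => rw [ha, ex_inner_bar hF, ← ha]
    congr 1
    refine sum_congr rfl fun m _ => ?_
    rw [← (b m).sum_inner_mul_inner]
    refine sum_congr rfl fun y _ => ?_
    rw [real_inner_comm]
  have h2 : ∑ m, ∑ y, ⟪b m y, a⟫ * ⟪b m y, gr σ (fun x => F (x, m)) c⟫ ≤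
      τ * (∑ m, ∑ y, |⟪b m y, gr σ (fun x => F (x, m)) c⟫|) +
        ((∑ m, ∑ y, ⟪b m y, a⟫ ^ 4) / η +
          η * ∑ m, ‖gr σ (fun x => F (x, m)) c‖ ^ 2) / (2 * τ) := by
    calc _ ≤ ∑ m, ∑ y, (τ * |⟪b m y, gr σ (fun x => F (x, m)) c⟫| +
          (⟪b m y, a⟫ ^ 4 / η + η * ⟪b m y, gr σ (fun x => F (x, m)) c⟫ ^ 2) / (2 * τ)) :=
          sum_le_sum fun m _ => sum_le_sum fun y _ => ex_real hτ hη0
      _ = _ := by
          simp only [sum_add_distrib, ← mul_sum, ← sum_div, (b _).sum_sq_inner_right]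
  have h3 : ‖a‖ ^ 4 ≤ sm σ (bar F) c / σ ^ 4 := by
    have h4 := norm_gr_sq_le (ex_bar_U01 hF) hσ c
    have h5 := ex_gr_le (ex_bar_U01 hF) hσ c
    rw [← ha] at h4 h5
    calc ‖a‖ ^ 4 = ‖a‖ ^ 2 * ‖a‖ ^ 2 := by ring
      _ ≤ sm σ (bar F) c / σ ^ 2 * (1 / σ ^ 2) :=
          mul_le_mul h4 h5 (by positivity) ((sq_nonneg _).trans h4)
      _ = _ := by field_simp
  have h6 : (∑ m, ∑ y, ⟪b m y, a⟫ ^ 4) / η ≤
      Fintype.card M * (3 * sm σ (bar F) c) / (σ ^ 3 * √d) := by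
    rw [div_le_iff₀ hη0]
    refine (hb a).trans ?_
    calc (Fintype.card M : ℝ) * (3 * ‖a‖ ^ 4 / d) ≤
          Fintype.card M * (3 * (sm σ (bar F) c / σ ^ 4) / d) := by gcongr
      _ = _ := by
          rw [hη]
          conv_lhs => rw [← hsq]
          field_simp
  have h7 : η * ∑ m, ‖gr σ (fun x => F (x, m)) c‖ ^ 2 ≤
      (∑ m, sm σ (fun x => F (x, m)) c) / (σ ^ 3 * √d) := by
    calc η * ∑ m, ‖gr σ (fun x => F (x, m)) c‖ ^ 2 ≤
          η * ∑ m, sm σ (fun x => F (x, m)) c / σ ^ 2 :=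
          mul_le_mul_of_nonneg_left (sum_le_sum fun m _ => norm_gr_sq_le (hF m) hσ c) hη0.le
      _ = _ := by
          rw [← sum_div, hη]
          field_simp
  rw [h1, div_le_iff₀ hJ]
  refine h2.trans ?_
  have h8 := div_le_div_of_nonneg_right (add_le_add h6 h7) (by positivity : (0 : ℝ) ≤ 2 * τ)
  refine (add_le_add le_rfl h8).trans (le_of_eq ?_)
  field_simp

theorem energy (hd : 1 ≤ d) (hb : Four b) (hF : ∀ m, U01 fun x => F (x, m)) {σ τ : ℝ}
    (hσ : 0 < σ) (h1 : σ ≤ 1) (hτ : 0 < τ) :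
    ∫ w, ‖gr σ (bar F) (√(1 - σ ^ 2) • w)‖ ^ 2 ∂(gam d) ≤
      τ / σ * mvE b (cutF F) + 2 * mean F / (τ * σ ^ 3 * √d) := by
  have hJ : (0 : ℝ) < Fintype.card M := ex_card_pos
  have hd0 : (0 : ℝ) < d := by exact_mod_cast hd
  have hsd : 0 < √(d : ℝ) := Real.sqrt_pos.2 hd0
  have hσ2 : σ ^ 2 ≤ 1 := pow_le_one₀ hσ.le h1
  set A := √(1 - σ ^ 2) with hA
  have hms : Measurable fun w : E d => A • w := by fun_prop
  have hsm : ∀ {f : E d → ℝ}, U01 f → Integrable (fun w => sm σ f (A • w)) (gam d) :=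
    fun hf => ex_int ⟨(sm_U01 hf σ).1.comp hms, fun w => (sm_U01 hf σ).2 _⟩
  have hin : ∀ m y, Integrable (fun w => |⟪b m y, gr σ (fun x => F (x, m)) (A • w)⟫|) (gam d) := by
    intro m y
    refine (integrable_const (1 / σ)).mono' ?_ (ae_of_all _ fun w => ?_)
    · exact (measurable_const.inner
        ((measurable_gr (hF m) σ).comp hms)).abs.aestronglyMeasurable
    · rw [Real.norm_eq_abs, abs_abs]
      refine (abs_real_inner_le_norm _ _).trans ?_
      rw [(b m).norm_eq_one, one_mul]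
      have h := ex_gr_le (hF m) hσ (A • w)
      rw [← one_pow 2, ← div_pow] at h
      exact (pow_le_pow_iff_left₀ (norm_nonneg _) (by positivity) two_ne_zero).1 h
  have hI1 : Integrable (fun w => τ * ((∑ m, ∑ y,
      |⟪b m y, gr σ (fun x => F (x, m)) (A • w)⟫|) / Fintype.card M)) (gam d) :=
    ((integrable_finsetSum _ fun m _ => integrable_finsetSum _ fun y _ =>
      hin m y).div_const _).const_mul _
  have hI2 : Integrable (fun w => 3 * sm σ (bar F) (A • w)) (gam d) :=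
    (hsm (ex_bar_U01 hF)).const_mul _
  have hI3 : Integrable (fun w => (∑ m, sm σ (fun x => F (x, m)) (A • w)) / Fintype.card M)
      (gam d) := (integrable_finsetSum _ fun m _ => hsm (hF m)).div_const _
  have hI4 : Integrable (fun w => (3 * sm σ (bar F) (A • w) +
      (∑ m, sm σ (fun x => F (x, m)) (A • w)) / Fintype.card M) / (2 * τ * σ ^ 3 * √d)) (gam d) :=
    (hI2.add hI3).div_const _
  refine (integral_mono_of_nonneg (ae_of_all _ fun w => sq_nonneg _) (hI1.add hI4)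
    (ae_of_all _ fun w => ex_point hd hb hF hσ hτ (A • w))).trans ?_
  have e1 : ∫ w, (τ * ((∑ m, ∑ y, |⟪b m y, gr σ (fun x => F (x, m)) (A • w)⟫|) / Fintype.card M) +
      (3 * sm σ (bar F) (A • w) + (∑ m, sm σ (fun x => F (x, m)) (A • w)) / Fintype.card M) /
        (2 * τ * σ ^ 3 * √d)) ∂(gam d) =
      τ * ((∑ m, ∑ y, ∫ w, |⟪b m y, gr σ (fun x => F (x, m)) (A • w)⟫| ∂(gam d)) /
        Fintype.card M) + (3 * mean F + mean F) / (2 * τ * σ ^ 3 * √d) := by
    rw [integral_add hI1 hI4, integral_const_mul, integral_div,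
      integral_div, integral_add hI2 hI3, integral_const_mul, integral_div,
      integral_finsetSum _ fun m _ => integrable_finsetSum _ fun y _ => hin m y,
      integral_finsetSum _ fun m _ => hsm (hF m), hA, integral_sm (ex_bar_U01 hF) hσ2,
      ex_integral_bar hF]
    simp_rw [integral_sm (hF _) hσ2]
    rw [← hA]
    simp_rw [integral_finsetSum _ fun y _ => hin _ y]
    rfl
  refine (le_of_eq e1).trans (add_le_add ?_ (le_of_eq ?_))
  · have h2 : ∑ m, ∑ y, ∫ w, |⟪b m y, gr σ (fun x => F (x, m)) (A • w)⟫| ∂(gam d) ≤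
        σ⁻¹ * ∑ m, ∑ y, mvI (b m y) fun x x' => cutF F (x, m) (x', m) := by
      simp_rw [mul_sum]
      exact sum_le_sum fun m _ => sum_le_sum fun y _ =>
        beta_le (hF m) hσ h1 ((b m).norm_eq_one y)
    unfold mvE
    calc _ ≤ τ * ((σ⁻¹ * ∑ m, ∑ y, mvI (b m y) fun x x' => cutF F (x, m) (x', m)) /
          Fintype.card M) := by gcongr
      _ = _ := by ring
  · field_simp
    ring

theorem expand_half (hd : 1 ≤ d) (hb : Four b) (hF : ∀ m, U01 fun x => F (x, m)) {r : ℕ}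
    (hr : 1 ≤ r) (hm : mean F ≤ 1 / 2) :
    mean F * (1 - mean F) ≤
      swE √((1 / 2) ^ r) (cutF F) + 64 * r ^ 2 / √d * mvE b (cutF F) := by
  have hd0 : (0 : ℝ) < d := by exact_mod_cast hd
  have hsd : 0 < √(d : ℝ) := Real.sqrt_pos.2 hd0
  have hr0 : (0 : ℝ) < r := by exact_mod_cast hr
  have hsq : ∀ k : ℕ, √((1 / 2 : ℝ) ^ k) ^ 2 = (1 / 2) ^ k := fun k =>
    Real.sq_sqrt (by positivity)
  have hle : ∀ k : ℕ, √((1 / 2 : ℝ) ^ k) ≤ 1 := fun k =>
    Real.sqrt_le_one.2 (pow_le_one₀ (by norm_num) (by norm_num))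
  have key : ∀ k : ℕ, corr √((1 / 2) ^ k) (bar F) ≤
      mean F ^ 2 + k * 2 * (16 * r * mvE b (cutF F) / √d + mean F / (8 * r)) := by
    intro k
    induction k with
    | zero => simp [corr_one, ex_integral_bar hF]
    | succ k ih =>
      have hσ : 0 < √((1 / 2 : ℝ) ^ (k + 1)) := Real.sqrt_pos.2 (by positivity)
      have hst := corr_step (ex_bar_U01 hF) hσ (σ' := √((1 / 2 : ℝ) ^ k))
        (Real.sqrt_le_sqrt (pow_le_pow_of_le_one (by norm_num) (by norm_num) k.le_succ)) (hle k)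
      have hen := energy hd hb hF hσ (hle (k + 1))
        (τ := 16 * r / (√((1 / 2 : ℝ) ^ (k + 1)) * √d)) (by positivity)
      have e1 : √((1 / 2 : ℝ) ^ k) ^ 2 - √((1 / 2 : ℝ) ^ (k + 1)) ^ 2 =
          √((1 / 2 : ℝ) ^ (k + 1)) ^ 2 := by
        rw [hsq, hsq]; ring
      rw [e1] at hst
      generalize √((1 / 2 : ℝ) ^ (k + 1)) = σ at *
      have h2 := mul_le_mul_of_nonneg_left hen (by positivity : (0 : ℝ) ≤ 2 * σ ^ 2)
      have e2 : 2 * σ ^ 2 * (16 * r / (σ * √d) / σ * mvE b (cutF F) +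
          2 * mean F / (16 * r / (σ * √d) * σ ^ 3 * √d)) =
          2 * (16 * r * mvE b (cutF F) / √d + mean F / (8 * r)) := by
        field_simp
        ring
      rw [e2] at h2
      push_cast
      linarith
  have h1 := key r
  rw [swE_cutF hF (by rw [hsq]; exact pow_le_one₀ (by norm_num) (by norm_num))]
  have e3 : (r : ℝ) * 2 * (16 * r * mvE b (cutF F) / √d + mean F / (8 * r)) =
      32 * r ^ 2 / √d * mvE b (cutF F) + mean F / 4 := by
    field_simp
    ring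
  rw [e3] at h1
  have h0 := ex_mean_nonneg hF
  have e4 : 64 * (r : ℝ) ^ 2 / √d * mvE b (cutF F) = 2 * (32 * r ^ 2 / √d * mvE b (cutF F)) := by
    ring
  rw [e4]
  nlinarith

theorem expand (hd : 1 ≤ d) (hb : Four b) (hF : ∀ m, U01 fun x => F (x, m)) {r : ℕ}
    (hr : 1 ≤ r) :
    mean F * (1 - mean F) ≤
      swE √((1 / 2) ^ r) (cutF F) + 64 * r ^ 2 / √d * mvE b (cutF F) := by
  rcases le_total (mean F) (1 / 2) with hm | hm
  · exact expand_half hd hb hF hr hm
  · have hG : ∀ m, U01 fun x => (fun p => 1 - F p) (x, m) := fun m =>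
      ⟨measurable_const.sub (hF m).1, fun x =>
        ⟨sub_nonneg.2 ((hF m).2 x).2, sub_le_self _ ((hF m).2 x).1⟩⟩
    have hJ : (0 : ℝ) < Fintype.card M := ex_card_pos
    have e1 : mean (fun p => 1 - F p) = 1 - mean F := by
      unfold mean
      have : ∀ m, ∫ x, (1 - F (x, m)) ∂(gam d) = 1 - ∫ x, F (x, m) ∂(gam d) := fun m => by
        rw [integral_sub (integrable_const _) (ex_int (hF m))]
        simp
      simp_rw [this]
      rw [sum_sub_distrib]
      simp only [sum_const, card_univ, nsmul_eq_mul, mul_one]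
      field_simp
    have e2 : cutF (fun p => 1 - F p) = cutF F := by
      funext p q
      unfold cutF
      ring
    have h := expand_half hd hb hG hr (by rw [e1]; linarith)
    rw [e1, e2] at h
    linarith

end Vale.Agent.P318
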