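import Vale.Agent.P318.GapAt

/-! Asymptotics: choose `r` maximal with `2 ^ (6 r 2 ^ r) ≤ n`. -/

namespace Vale.Agent.P318

theorem final_mono {a b : ℕ} (h : a ≤ b) : 6 * a * 2 ^ a ≤ 6 * b * 2 ^ b :=
  Nat.mul_le_mul (Nat.mul_le_mul_left 6 h) (Nat.pow_le_pow_right (by norm_num) h)

theorem final_choose (r₀ n : ℕ) (hn : 2 ^ (6 * r₀ * 2 ^ r₀) ≤ n) :
    ∃ r ≥ r₀, 2 ^ (6 * r * 2 ^ r) ≤ n ∧ n < 2 ^ (6 * (r + 1) * 2 ^ (r + 1)) := by
  classical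
  have hex : ∃ k : ℕ, n < 2 ^ (6 * (k + 1) * 2 ^ (k + 1)) := by
    refine ⟨n, ?_⟩
    calc n < 2 ^ n := Nat.lt_two_pow_self
      _ ≤ 2 ^ (6 * (n + 1) * 2 ^ (n + 1)) := by
        apply Nat.pow_le_pow_right (by norm_num)
        have : 1 ≤ 2 ^ (n + 1) := Nat.one_le_two_pow
        nlinarith
  have h1 := Nat.find_spec hex
  by_cases h0 : Nat.find hex ≤ r₀
  · refine ⟨r₀, le_rfl, hn, lt_of_lt_of_le h1 ?_⟩
    exact Nat.pow_le_pow_right (by norm_num) (final_mono (by omega))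
  · refine ⟨Nat.find hex, by omega, ?_, h1⟩
    have h2 := Nat.find_min hex (m := Nat.find hex - 1) (by omega)
    have h3 : Nat.find hex - 1 + 1 = Nat.find hex := by omega
    rw [h3] at h2
    omega

theorem final_est {r n : ℕ} (hr : 1 ≤ r) (h1 : 2 ^ (6 * r * 2 ^ r) ≤ n)
    (h2 : n < 2 ^ (6 * (r + 1) * 2 ^ (r + 1))) :
    Real.log n ^ (1 / 4 : ℝ) / Real.log (Real.log n) ^ 3 ≤ 24 * (√√(2 ^ r) / (r : ℝ) ^ 2) := by
  have hr' : (1 : ℝ) ≤ r := by exact_mod_cast hr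
  have hl2 : (1 / 2 : ℝ) ≤ Real.log 2 := by have := Real.log_two_gt_d9; linarith
  have hl2' : Real.log 2 ≤ 1 := by have := Real.log_two_lt_d9; linarith
  have hp : (0 : ℝ) < 2 ^ r := by positivity
  have hn0 : (0 : ℝ) < n := by
    have : 0 < n := lt_of_lt_of_le (by positivity) h1
    exact_mod_cast this
  have hlo : (2 : ℝ) ^ r ≤ Real.log n := by
    have h : ((2 : ℝ)) ^ (6 * r * 2 ^ r) ≤ n := by exact_mod_cast h1
    have h' := Real.log_le_log (by positivity) h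
    rw [Real.log_pow] at h'
    push_cast at h'
    have : (1 : ℝ) ≤ 6 * r * Real.log 2 := by nlinarith
    nlinarith
  have hhi : Real.log n ≤ 24 * r * 2 ^ r := by
    have h : (n : ℝ) ≤ (2 : ℝ) ^ (6 * (r + 1) * 2 ^ (r + 1)) := by exact_mod_cast h2.le
    have h' := Real.log_le_log hn0 h
    rw [Real.log_pow] at h'
    push_cast at h'
    have h3 : (6 : ℝ) * (r + 1) * 2 ^ (r + 1) ≤ 24 * r * 2 ^ r := by
      rw [pow_succ]; nlinarith
    have h4 : (0 : ℝ) ≤ 6 * (r + 1) * 2 ^ (r + 1) := by positivity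
    nlinarith
  have hLL : (r : ℝ) / 2 ≤ Real.log (Real.log n) := by
    have h' := Real.log_le_log hp hlo
    rw [Real.log_pow] at h'
    nlinarith
  have hlog0 : 0 ≤ Real.log n := le_trans hp.le hlo
  have hq : Real.log n ^ (1 / 4 : ℝ) ≤ 3 * r * √√(2 ^ r) := by
    have e : Real.log n ^ (1 / 4 : ℝ) = √√(Real.log n) := by
      rw [Real.sqrt_eq_rpow, Real.sqrt_eq_rpow, ← Real.rpow_mul hlog0]; norm_num
    rw [e]
    have h5 : Real.log n ≤ (3 * r) ^ 4 * 2 ^ r := by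
      have : (24 : ℝ) * r ≤ (3 * r) ^ 4 := by
        have h6 : (r : ℝ) ≤ r ^ 4 := le_self_pow₀ hr' (by norm_num)
        nlinarith
      nlinarith
    have h7 : √√((3 * (r : ℝ)) ^ 4 * 2 ^ r) = 3 * r * √√(2 ^ r) := by
      have h8 : (3 * (r : ℝ)) ^ 4 = ((3 * r) ^ 2) ^ 2 := by ring
      rw [Real.sqrt_mul (by positivity), h8, Real.sqrt_sq (by positivity),
        Real.sqrt_mul (by positivity), Real.sqrt_sq (by positivity)]
    rw [← h7]
    exact Real.sqrt_le_sqrt (Real.sqrt_le_sqrt h5)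
  have hc : ((r : ℝ) / 2) ^ 3 ≤ Real.log (Real.log n) ^ 3 :=
    pow_le_pow_left₀ (by positivity) hLL 3
  calc Real.log n ^ (1 / 4 : ℝ) / Real.log (Real.log n) ^ 3
      ≤ (3 * r * √√(2 ^ r)) / ((r : ℝ) / 2) ^ 3 :=
        div_le_div₀ (by positivity) hq (by positivity) hc
    _ = 24 * (√√(2 ^ r) / (r : ℝ) ^ 2) := by field_simp; ring

theorem main : ∃ κ : ℝ, 0 < κ ∧ ∃ n₀ : ℕ, ∀ n ≥ n₀, ∃ c : Fin n → Fin n → ℝ,
    IsCapacity c ∧ 0 < GLv c ∧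
      κ * Real.log n ^ (1 / 4 : ℝ) / Real.log (Real.log n) ^ 3 ≤ Phi c / GLv c := by
  obtain ⟨κ, hκ, r₀, h⟩ := gap_at
  refine ⟨κ / 24, by positivity, 2 ^ (6 * (r₀ + 1) * 2 ^ (r₀ + 1)), fun n hn => ?_⟩
  obtain ⟨r, hr, h1, h2⟩ := final_choose (r₀ + 1) n hn
  obtain ⟨c, hc, hG, hb⟩ := h r (by omega) n h1
  refine ⟨c, hc, hG, le_trans ?_ hb⟩
  have := final_est (by omega) h1 h2
  calc κ / 24 * Real.log n ^ (1 / 4 : ℝ) / Real.log (Real.log n) ^ 3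
      = κ / 24 * (Real.log n ^ (1 / 4 : ℝ) / Real.log (Real.log n) ^ 3) := by ring
    _ ≤ κ / 24 * (24 * (√√(2 ^ r) / (r : ℝ) ^ 2)) :=
        mul_le_mul_of_nonneg_left this (by positivity)
    _ = κ * √√(2 ^ r) / (r : ℝ) ^ 2 := by ring

end Vale.Agent.P318
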