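import Vale.Agent.P318.Defs

/-! Positive definite and conditionally negative definite kernels.
`PD.mul`: for a finite family the two matrices `k (x i) (x j)` are `Matrix.PosSemidef`, use
`Matrix.PosSemidef.hadamard`.  `PD.exp`: limit of the finite sums `∑ k ^ n / n!` (`PD.mul`, `hasSum` of `exp`).
`CND.gram`: extend the family by the base point (`Option ι`, coefficient `- ∑ c`).
`CND.exp_neg`: if the family is empty there is nothing to do; otherwise take `o = x i₀`;
`exp (-t k p q) = exp (t (k p o + k q o - k p q - k o o)) * (g p * g q)` with `g p = exp (-t k p o + t k o o / 2)`.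
`CND.sqrt_tri`: the 2 x 2 Gram matrix of `CND.gram`.  `CND.embed`: the Gram matrix `G` (base point `0`, or
trivial if `n = 0`) is `Bᵀ B` (`Matrix.PosSemidef.sqrt` or `posSemidef_iff_eq_conjTranspose_mul_self`);
take the columns of `B`. -/

namespace Vale.Agent.P318

open Finset

variable {P Q : Type} {k k' : P → P → ℝ}

theorem PD.comp (h : PD k) (φ : Q → P) : PD fun p q => k (φ p) (φ q) :=
  ⟨fun _ _ => h.1 _ _, fun ι _ x c => h.2 ι (fun i => φ (x i)) c⟩

theorem CND.comp (h : CND k) (φ : Q → P) : CND fun p q => k (φ p) (φ q) :=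
  ⟨fun _ _ => h.1 _ _, fun ι _ x c hc => h.2 ι (fun i => φ (x i)) c hc⟩

theorem PD.rank_one (g : P → ℝ) : PD fun p q => g p * g q := by
  refine ⟨fun p q => mul_comm _ _, fun ι _ x c => ?_⟩
  have : ∑ i, ∑ j, c i * c j * (g (x i) * g (x j)) = (∑ i, c i * g (x i)) ^ 2 := by
    rw [sq, Finset.sum_mul_sum]
    exact Finset.sum_congr rfl fun i _ => Finset.sum_congr rfl fun j _ => by ring
  rw [this]
  exact sq_nonneg _

theorem quad_eq_kern {ι : Type} [Fintype ι] (A : Matrix ι ι ℝ) (c : ι → ℝ) :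
    star c ⬝ᵥ (A.mulVec c) = ∑ i, ∑ j, c i * c j * A i j := by
  simp only [dotProduct, Matrix.mulVec, star_trivial, Finset.mul_sum]
  exact Finset.sum_congr rfl fun i _ => Finset.sum_congr rfl fun j _ => by ring

theorem PD.psd_kern (h : PD k) {ι : Type} [Fintype ι] (x : ι → P) :
    (Matrix.of fun i j => k (x i) (x j)).PosSemidef := by
  refine Matrix.PosSemidef.of_dotProduct_mulVec_nonneg ?_ fun c => ?_
  · ext i j
    simp [h.1 (x i) (x j)]
  · rw [quad_eq_kern]
    exact h.2 ι x c

theorem PD.mul (h : PD k) (h' : PD k') : PD fun p q => k p q * k' p q := by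
  refine ⟨fun p q => by beta_reduce; rw [h.1 p q, h'.1 p q], fun ι _ x c => ?_⟩
  have := ((h.psd_kern x).hadamard (h'.psd_kern x)).dotProduct_mulVec_nonneg c
  rw [quad_eq_kern] at this
  simpa using this

theorem PD.sum {ι : Type} (s : Finset ι) {K : ι → P → P → ℝ} (h : ∀ i ∈ s, PD (K i)) :
    PD fun p q => ∑ i ∈ s, K i p q := by
  refine ⟨fun p q => Finset.sum_congr rfl fun i hi => (h i hi).1 p q, fun κ _ x c => ?_⟩
  have : ∑ a, ∑ b, c a * c b * ∑ i ∈ s, K i (x a) (x b) =
      ∑ i ∈ s, ∑ a, ∑ b, c a * c b * K i (x a) (x b) := by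
    simp only [Finset.mul_sum]
    rw [Finset.sum_comm]
    refine Eq.trans ?_ Finset.sum_comm
    rw [Finset.sum_comm]
    exact Finset.sum_congr rfl fun a _ => Finset.sum_comm
  rw [this]
  exact Finset.sum_nonneg fun i hi => (h i hi).2 κ x c

theorem PD.const_mul_kern (h : PD k) {a : ℝ} (ha : 0 ≤ a) : PD fun p q => a * k p q := by
  refine ⟨fun p q => by beta_reduce; rw [h.1 p q], fun ι _ x c => ?_⟩
  have : ∑ i, ∑ j, c i * c j * (a * k (x i) (x j)) = a * ∑ i, ∑ j, c i * c j * k (x i) (x j) := by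
    simp only [Finset.mul_sum]
    exact Finset.sum_congr rfl fun i _ => Finset.sum_congr rfl fun j _ => by ring
  rw [this]
  exact mul_nonneg ha (h.2 ι x c)

theorem PD.pow_kern (h : PD k) (n : ℕ) : PD fun p q => k p q ^ n := by
  induction n with
  | zero => simpa using PD.rank_one (P := P) fun _ => 1
  | succ n ih => simpa [pow_succ] using ih.mul h

theorem PD.exp (h : PD k) : PD fun p q => Real.exp (k p q) := by
  refine ⟨fun p q => by beta_reduce; rw [h.1 p q], fun ι _ x c => ?_⟩
  have hs : ∀ y : ℝ, HasSum (fun n : ℕ => ((n.factorial : ℝ))⁻¹ * y ^ n) (Real.exp y) := by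
    intro y
    have := NormedSpace.expSeries_div_hasSum_exp y
    rw [← Real.exp_eq_exp_ℝ] at this
    simpa [div_eq_inv_mul] using this
  have hS : HasSum (fun n : ℕ => ∑ i, ∑ j, c i * c j *
      (((n.factorial : ℝ))⁻¹ * k (x i) (x j) ^ n))
      (∑ i, ∑ j, c i * c j * Real.exp (k (x i) (x j))) :=
    hasSum_sum fun i _ => hasSum_sum fun j _ => (hs _).mul_left _
  refine hS.nonneg fun n => ?_
  exact ((h.pow_kern n).const_mul_kern (a := ((n.factorial : ℝ))⁻¹) (by positivity)).2 ι x c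

theorem PD.const_sub (h : PD k) (a : ℝ) : CND fun p q => a - k p q := by
  refine ⟨fun p q => by beta_reduce; rw [h.1 p q], fun ι _ x c hc => ?_⟩
  have : ∑ i, ∑ j, c i * c j * (a - k (x i) (x j)) =
      a * ((∑ i, c i) * ∑ j, c j) - ∑ i, ∑ j, c i * c j * k (x i) (x j) := by
    rw [Finset.sum_mul_sum, Finset.mul_sum, ← Finset.sum_sub_distrib]
    refine Finset.sum_congr rfl fun i _ => ?_
    rw [Finset.mul_sum, ← Finset.sum_sub_distrib]
    exact Finset.sum_congr rfl fun j _ => by ring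
  rw [this, hc]
  have := h.2 ι x c
  linarith

theorem CND.add (h : CND k) (h' : CND k') : CND fun p q => k p q + k' p q := by
  refine ⟨fun p q => by beta_reduce; rw [h.1 p q, h'.1 p q], fun ι _ x c hc => ?_⟩
  simp only [mul_add, Finset.sum_add_distrib]
  exact add_nonpos (h.2 ι x c hc) (h'.2 ι x c hc)

theorem CND.const_mul (h : CND k) {a : ℝ} (ha : 0 ≤ a) : CND fun p q => a * k p q := by
  refine ⟨fun p q => by beta_reduce; rw [h.1 p q], fun ι _ x c hc => ?_⟩
  have : ∑ i, ∑ j, c i * c j * (a * k (x i) (x j)) = a * ∑ i, ∑ j, c i * c j * k (x i) (x j) := by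
    simp only [Finset.mul_sum]
    exact Finset.sum_congr rfl fun i _ => Finset.sum_congr rfl fun j _ => by ring
  rw [this]
  exact mul_nonpos_of_nonneg_of_nonpos ha (h.2 ι x c hc)

theorem CND.sum {ι : Type} (s : Finset ι) {K : ι → P → P → ℝ} (h : ∀ i ∈ s, CND (K i)) :
    CND fun p q => ∑ i ∈ s, K i p q := by
  refine ⟨fun p q => Finset.sum_congr rfl fun i hi => (h i hi).1 p q, fun κ _ x c hc => ?_⟩
  have : ∑ a, ∑ b, c a * c b * ∑ i ∈ s, K i (x a) (x b) =
      ∑ i ∈ s, ∑ a, ∑ b, c a * c b * K i (x a) (x b) := by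
    simp only [Finset.mul_sum]
    rw [Finset.sum_comm]
    refine Eq.trans ?_ Finset.sum_comm
    rw [Finset.sum_comm]
    exact Finset.sum_congr rfl fun a _ => Finset.sum_comm
  rw [this]
  exact Finset.sum_nonpos fun i hi => (h i hi).2 κ x c hc

theorem CND.gram (h : CND k) (o : P) : PD fun p q => k p o + k q o - k p q - k o o := by
  refine ⟨fun p q => by beta_reduce; rw [h.1 p q]; ring, fun ι _ x c => ?_⟩
  have key := h.2 (Option ι) (fun i => i.elim o x) (fun i => i.elim (-∑ j, c j) c)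
    (by simp [Fintype.sum_option])
  simp only [Fintype.sum_option, Option.elim_none, Option.elim_some,
    Finset.sum_add_distrib] at key
  set S := ∑ j, c j with hS
  set T := ∑ j, c j * k (x j) o with hT
  have e1 : ∑ j, -S * c j * k o (x j) = -S * T := by
    rw [hT, Finset.mul_sum]
    exact Finset.sum_congr rfl fun j _ => by rw [h.1 o (x j)]; ring
  have e2 : ∑ j, c j * -S * k (x j) o = -S * T := by
    rw [hT, Finset.mul_sum]
    exact Finset.sum_congr rfl fun j _ => by ring
  have e3 : ∑ i, ∑ j, c i * c j * (k (x i) o + k (x j) o - k (x i) (x j) - k o o) =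
      T * S + S * T - ∑ i, ∑ j, c i * c j * k (x i) (x j) - S * S * k o o := by
    rw [hT, hS, Finset.sum_mul_sum, Finset.sum_mul_sum, Finset.sum_mul_sum, Finset.sum_mul,
      ← Finset.sum_add_distrib, ← Finset.sum_sub_distrib, ← Finset.sum_sub_distrib]
    refine Finset.sum_congr rfl fun i _ => ?_
    rw [Finset.sum_mul, ← Finset.sum_add_distrib, ← Finset.sum_sub_distrib,
      ← Finset.sum_sub_distrib]
    exact Finset.sum_congr rfl fun j _ => by ring
  rw [e1, e2] at key
  rw [e3]
  nlinarith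

theorem CND.exp_neg (h : CND k) {t : ℝ} (ht : 0 ≤ t) : PD fun p q => Real.exp (-(t * k p q)) := by
  refine ⟨fun p q => by beta_reduce; rw [h.1 p q], fun ι _ x c => ?_⟩
  rcases isEmpty_or_nonempty ι with hι | ⟨⟨i₀⟩⟩
  · simp
  set o := x i₀
  have h1 := (((h.gram o).const_mul_kern ht).exp).mul
    (PD.rank_one fun p => Real.exp (-(t * k p o) + t * k o o / 2))
  have h2 := h1.2 ι x c
  refine h2.trans_eq (Finset.sum_congr rfl fun i _ => Finset.sum_congr rfl fun j _ => ?_)
  congr 1
  beta_reduce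
  rw [← Real.exp_add, ← Real.exp_add]
  congr 1
  ring

theorem CND.norm_sq {F : Type} [NormedAddCommGroup F] [InnerProductSpace ℝ F] :
    CND fun x y : F => ‖x - y‖ ^ 2 := by
  refine ⟨fun p q => by beta_reduce; rw [norm_sub_rev], fun ι _ x c hc => ?_⟩
  have e : ∑ i, ∑ j, c i * c j * ‖x i - x j‖ ^ 2 =
      (∑ i, c i * ‖x i‖ ^ 2) * (∑ j, c j) + (∑ i, c i) * (∑ j, c j * ‖x j‖ ^ 2) -
        2 * inner ℝ (∑ i, c i • x i) (∑ j, c j • x j) := by
    rw [Finset.sum_mul_sum, Finset.sum_mul_sum, sum_inner, Finset.mul_sum,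
      ← Finset.sum_add_distrib, ← Finset.sum_sub_distrib]
    refine Finset.sum_congr rfl fun i _ => ?_
    rw [inner_sum, Finset.mul_sum, ← Finset.sum_add_distrib, ← Finset.sum_sub_distrib]
    refine Finset.sum_congr rfl fun j _ => ?_
    rw [norm_sub_sq_real, real_inner_smul_left, real_inner_smul_right]
    ring
  rw [e, hc]
  have := real_inner_self_nonneg (x := ∑ i, c i • x i)
  linarith

theorem CND.sqrt_tri (h : CND k) (h0 : ∀ p, k p p = 0) (hn : ∀ p q, 0 ≤ k p q) (p q o : P) :
    k p q ≤ (√(k p o) + √(k o q)) ^ 2 := by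
  have key : ∀ s : ℝ, 0 ≤ (2 * k p o) * (s * s) + (2 * (k p o + k q o - k p q)) * s +
      2 * k q o := by
    intro s
    have := (h.gram o).2 Bool (fun b => if b then p else q) (fun b => if b then s else 1)
    simp only [Fintype.sum_bool, if_true, Bool.false_eq_true, if_false, h0] at this
    rw [h.1 q p] at this
    linarith
  have hd := discrim_le_zero key
  rw [discrim] at hd
  rw [h.1 o q]
  have ha := hn p o
  have hb := hn q o
  have hA := Real.sq_sqrt ha
  have hB := Real.sq_sqrt hb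
  have hA0 := Real.sqrt_nonneg (k p o)
  have hB0 := Real.sqrt_nonneg (k q o)
  set A := √(k p o)
  set B := √(k q o)
  have h1 : (k p q - A ^ 2 - B ^ 2) ^ 2 ≤ (2 * A * B) ^ 2 := by
    have : (2 * A * B) ^ 2 = 4 * A ^ 2 * B ^ 2 := by ring
    rw [this, hA, hB]
    nlinarith
  have h2 := abs_le_of_sq_le_sq' h1 (by positivity)
  nlinarith [h2.2]

open scoped MatrixOrder in
theorem CND.embed {n : ℕ} {k : Fin n → Fin n → ℝ} (h : CND k) (h0 : ∀ p, k p p = 0) :
    ∃ x : Fin n → EuclideanSpace ℝ (Fin n), ∀ i j, k i j = ‖x i - x j‖ ^ 2 := by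
  rcases Nat.eq_zero_or_pos n with rfl | hn
  · exact ⟨fun _ => 0, fun i => i.elim0⟩
  set o : Fin n := ⟨0, hn⟩
  have hG := ((h.gram o).const_mul_kern (a := 1 / 2) (by norm_num)).psd_kern (fun i : Fin n => i)
  obtain ⟨B, hB⟩ := CStarAlgebra.nonneg_iff_eq_star_mul_self.mp hG.nonneg
  have hB' : ∀ i j, 1 / 2 * (k i o + k j o - k i j - k o o) = ∑ l, B l i * B l j := by
    intro i j
    have := congrFun (congrFun hB i) j
    simpa [Matrix.mul_apply, Matrix.star_apply] using this
  refine ⟨fun i => WithLp.toLp 2 fun l => B l i, fun i j => ?_⟩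
  rw [EuclideanSpace.real_norm_sq_eq]
  have : ∑ l, (B l i - B l j) ^ 2 =
      ∑ l, B l i * B l i + ∑ l, B l j * B l j - 2 * ∑ l, B l i * B l j := by
    rw [Finset.mul_sum, ← Finset.sum_add_distrib, ← Finset.sum_sub_distrib]
    exact Finset.sum_congr rfl fun l _ => by ring
  simp only [PiLp.sub_apply]
  rw [this, ← hB', ← hB', ← hB', h0, h0, h0]
  ring

end Vale.Agent.P318
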