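import Vale.Agent.P318.Slots
import Vale.Agent.P318.Kernel

/-! From a weighted instance to uniform demands on `n` points.  Take `κ, p` from `exists_slots`,
`w i i' = ed (fun v v' => κ v i * κ v' i')`, `e = 8 C / (n² A)`, `c i i' = w i i' + w i' i + e` for `i ≠ i'`, `c i i = 0`.
Cuts: for `f v = ∑ i ∈ S, κ v i` linearity gives `∑ i ∈ S, ∑ j ∈ Sᶜ, (w i j + w j i) = ed (cutF f)` and `∑ μ f = |S| / n`, so every
ratio is at least `Φ / n²` (`le_csInf`, the set is nonempty as `n ≥ 2`).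
Relaxation: every feasible `d` has value at least `e` (`pairSum d = 1`, `d ≥ 0`).  Let `D i i' = dd (p i) (p i')`,
`j v = ∑ i with p i ≠ v, κ v i`.  `pairSum ((w i i' + w i' i) D) = ∑ i, ∑ i', w i i' D i i' = ed H` with
`H v v' = ∑ i, ∑ i', κ v i κ v' i' D i i' ≤ dd v v' + Δ (j v + j v')`, so it is at most `C + Δ Λ ε ≤ 2 C`.  Likewise
`dd v v' ≤ H v v' + Δ (j v + j v')`, so `2 pairSum D / n² = ∑ μ μ' H ≥ A - 2 Δ ε² ≥ A / 2`.  Normalise `D` (`CND.embed`,
`CND.comp`, `CND.const_mul`): `GLv c ≤ 2 e` (`csInf_le`). -/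

namespace Vale.Agent.P318

open Finset

section

variable {V : Type} [Fintype V] {Φ C A Λ Δ : ℝ} (I : Inst V Φ C A Λ Δ) {n : ℕ}

theorem fin_ed_add (F G : V → V → ℝ) : I.ed (fun v v' => F v v' + G v v') = I.ed F + I.ed G :=
  I.lin.map_add F G

theorem fin_ed_mul (a : ℝ) (F : V → V → ℝ) : I.ed (fun v v' => a * F v v') = a * I.ed F :=
  I.lin.map_smul a F

theorem fin_ed_sum {ι : Type} (s : Finset ι) (F : ι → V → V → ℝ) :
    I.ed (fun v v' => ∑ i ∈ s, F i v v') = ∑ i ∈ s, I.ed (F i) := by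
  have h := map_sum (I.lin.mk' I.ed) F s
  have e : (∑ i ∈ s, F i) = fun v v' => ∑ i ∈ s, F i v v' := by
    funext v v'
    simp only [Finset.sum_apply]
  rw [e] at h
  exact h

theorem fin_ed_mono {F G : V → V → ℝ} (h : ∀ v v', F v v' ≤ G v v') : I.ed F ≤ I.ed G := by
  have h1 := I.pos (fun v v' => G v v' + (-1) * F v v') fun v v' => by linarith [h v v']
  rw [fin_ed_add, fin_ed_mul] at h1
  linarith

theorem fin_pair (a : Fin n → Fin n → ℝ) (h0 : ∀ i, a i i = 0) :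
    pairSum (fun i j => a i j + a j i) = ∑ i, ∑ j, a i j := by
  have e1 : ∀ i j, a i j = (if i < j then a i j else 0) + if j < i then a i j else 0 := fun i j => by
    rcases lt_trichotomy i j with h | h | h
    · rw [if_pos h, if_neg h.not_gt, add_zero]
    · rw [h, if_neg (lt_irrefl j), h0, add_zero]
    · rw [if_neg h.not_gt, if_pos h, zero_add]
  rw [sum_congr rfl fun i _ => sum_congr rfl fun j _ => e1 i j]
  simp only [pairSum, sum_filter, sum_add_distrib]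
  rw [sum_comm (f := fun i j => if j < i then a i j else 0)]

theorem fin_comm4 {α β : Type} [Fintype α] [Fintype β] (F : α → α → β → β → ℝ) :
    ∑ v, ∑ v', ∑ i, ∑ i', F v v' i i' = ∑ i, ∑ i', ∑ v, ∑ v', F v v' i i' := by
  rw [sum_congr rfl fun v _ => sum_comm, sum_comm]
  refine sum_congr rfl fun i _ => ?_
  rw [sum_congr rfl fun v _ => sum_comm, sum_comm]

theorem fin_pair_mono {a b : Fin n → Fin n → ℝ} (h : ∀ i j, i < j → a i j ≤ b i j) :
    pairSum a ≤ pairSum b :=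
  sum_le_sum fun i _ => sum_le_sum fun j hj => h i j (mem_filter.mp hj).2

theorem fin_pair_mul (t : ℝ) (a : Fin n → Fin n → ℝ) :
    pairSum (fun i j => t * a i j) = t * pairSum a := by
  simp only [pairSum, mul_sum]

theorem fin_pair_add (a b : Fin n → Fin n → ℝ) :
    pairSum (fun i j => a i j + b i j) = pairSum a + pairSum b := by
  simp only [pairSum, sum_add_distrib]

theorem fin_cut {κ : V → Fin n → ℝ} (k0 : ∀ v i, 0 ≤ κ v i) (k1 : ∀ v, ∑ i, κ v i = 1)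
    (k2 : ∀ i, ∑ v, I.μ v * κ v i = 1 / n) (hn : 0 < n) (S : Finset (Fin n)) :
    Φ / n ^ 2 * ((S.card : ℝ) * ((n : ℝ) - S.card)) ≤ ∑ i ∈ S, ∑ j ∈ Sᶜ,
      (I.ed (fun v v' => κ v i * κ v' j) + I.ed fun v v' => κ v j * κ v' i) := by
  have hn' : (0 : ℝ) < n := Nat.cast_pos.mpr hn
  have e1 : ∀ v, 1 - ∑ i ∈ S, κ v i = ∑ j ∈ Sᶜ, κ v j := fun v => by
    rw [← k1 v, ← sum_add_sum_compl S]
    ring
  have h := I.expand (fun v => ∑ i ∈ S, κ v i) fun v =>
    ⟨sum_nonneg fun i _ => k0 v i, by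
      have h1 : 0 ≤ ∑ j ∈ Sᶜ, κ v j := sum_nonneg fun i _ => k0 v i
      linarith [e1 v]⟩
  have e2 : ∑ v, I.μ v * ∑ i ∈ S, κ v i = S.card / n := by
    simp only [mul_sum]
    rw [sum_comm]
    simp only [k2, sum_const, nsmul_eq_mul]
    ring
  have e3 : cutF (fun v => ∑ i ∈ S, κ v i) =
      fun v v' => ∑ i ∈ S, ∑ j ∈ Sᶜ, (κ v i * κ v' j + κ v j * κ v' i) := by
    funext v v'
    simp only [cutF, e1, sum_mul_sum, sum_add_distrib, mul_comm (κ v' _)]
  rw [e2, e3] at h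
  simp only [fin_ed_sum, fin_ed_add] at h
  refine le_trans (le_of_eq ?_) h
  field_simp

open Classical in
theorem fin_close {κ : V → Fin n → ℝ} (k0 : ∀ v i, 0 ≤ κ v i) (k1 : ∀ v, ∑ i, κ v i = 1)
    (p : Fin n → V) (v v' : V) :
    |∑ i, ∑ i', I.dd (p i) (p i') * (κ v i * κ v' i') - I.dd v v'| ≤
      Δ * (∑ i ∈ univ.filter (fun i => p i ≠ v), κ v i +
        ∑ i ∈ univ.filter (fun i => p i ≠ v'), κ v' i) := by
  have hΔ : 0 ≤ Δ := (I.dd_nonneg v v').trans (I.dd_le v v')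
  have e1 : ∑ i, ∑ i', I.dd (p i) (p i') * (κ v i * κ v' i') - I.dd v v' =
      ∑ i, ∑ i', (I.dd (p i) (p i') - I.dd v v') * (κ v i * κ v' i') := by
    simp only [sub_mul, sum_sub_distrib, ← mul_sum, k1, mul_one]
  have e2 : Δ * (∑ i ∈ univ.filter (fun i => p i ≠ v), κ v i +
        ∑ i ∈ univ.filter (fun i => p i ≠ v'), κ v' i) =
      ∑ i, ∑ i', Δ * ((if p i ≠ v then κ v i else 0) * κ v' i' +
        κ v i * if p i' ≠ v' then κ v' i' else 0) := by
    simp only [← mul_sum, sum_add_distrib, ← sum_mul, k1, mul_one, one_mul, sum_filter]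
  rw [e1, e2]
  refine (abs_sum_le_sum_abs _ _).trans (sum_le_sum fun i _ =>
    (abs_sum_le_sum_abs _ _).trans (sum_le_sum fun i' _ => ?_))
  have h1 : 0 ≤ κ v i * κ v' i' := mul_nonneg (k0 v i) (k0 v' i')
  have h2 : |I.dd (p i) (p i') - I.dd v v'| ≤ Δ := abs_le.mpr
    ⟨by linarith [I.dd_nonneg (p i) (p i'), I.dd_le v v'],
      by linarith [I.dd_le (p i) (p i'), I.dd_nonneg v v']⟩
  have h3 := mul_le_mul_of_nonneg_right h2 h1
  have h4 := mul_nonneg hΔ h1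
  rw [abs_mul, abs_of_nonneg h1]
  by_cases c1 : p i = v
  · by_cases c2 : p i' = v'
    · simp [c1, c2]
    · rw [if_neg (not_not.mpr c1), if_pos c2, zero_mul, zero_add]
      exact h3
  · by_cases c2 : p i' = v'
    · rw [if_pos c1, if_neg (not_not.mpr c2), mul_zero, add_zero]
      exact h3
    · rw [if_pos c1, if_pos c2, mul_add]
      linarith

theorem fin_metric {ε : ℝ} (hΛ : 0 ≤ Λ) (hε : 0 ≤ ε) (hε1 : ε ≤ 1) (hn : 0 < n)
    (hV : (Fintype.card V : ℝ) ≤ ε ^ 2 * n) (h1 : Δ * Λ * ε ≤ C) (h2 : 4 * Δ * ε ≤ A) :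
    ∃ (κ : V → Fin n → ℝ) (p : Fin n → V), (∀ v i, 0 ≤ κ v i) ∧ (∀ v, ∑ i, κ v i = 1) ∧
      (∀ i, ∑ v, I.μ v * κ v i = 1 / n) ∧
      ∑ i, ∑ i', I.dd (p i) (p i') * I.ed (fun v v' => κ v i * κ v' i') ≤ 2 * C ∧
      A / 2 * n ^ 2 ≤ ∑ i, ∑ i', I.dd (p i) (p i') := by
  classical
  have hn' : (0 : ℝ) < n := Nat.cast_pos.mpr hn
  obtain ⟨κ, p, k0, k1, k2, k3⟩ := exists_slots I.μ_nonneg I.μ_sum hn
  refine ⟨κ, p, k0, k1, k2, ?_⟩
  have hΔ : 0 ≤ Δ := (I.dd_nonneg (p ⟨0, hn⟩) (p ⟨0, hn⟩)).trans (I.dd_le _ _)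
  have hc := fin_close I k0 k1 p
  set j : V → ℝ := fun v => ∑ i ∈ univ.filter (fun i => p i ≠ v), κ v i with hj
  have j0 : ∀ v, 0 ≤ j v ∧ j v ≤ 1 := fun v => ⟨sum_nonneg fun i _ => k0 v i, by
    rw [← k1 v]
    exact sum_le_sum_of_subset_of_nonneg (filter_subset _ _) fun i _ _ => k0 v i⟩
  have j1 : ∑ v, I.μ v * j v ≤ ε ^ 2 := k3.trans ((div_le_iff₀ hn').mpr hV)
  have j2 : I.ed (fun v v' => j v + j v') ≤ Λ * ε :=
    (I.junk j j0).trans (mul_le_mul_of_nonneg_left (Real.sqrt_le_iff.mpr ⟨hε, j1⟩) hΛ)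
  constructor
  · have h3 := fin_ed_mono I (F := fun v v' => ∑ i, ∑ i', I.dd (p i) (p i') * (κ v i * κ v' i'))
      (G := fun v v' => I.dd v v' + Δ * (j v + j v')) fun v v' => by
        have := (abs_le.mp (hc v v')).2
        linarith
    simp only [fin_ed_sum, fin_ed_add, fin_ed_mul] at h3
    rw [fin_ed_add] at j2
    have h4 := mul_le_mul_of_nonneg_left j2 hΔ
    have h5 : I.ed (fun v v' => I.dd v v') ≤ C := I.cost
    linarith
  · have h3 : ∑ v, ∑ v', I.μ v * I.μ v' * I.dd v v' ≤ ∑ v, ∑ v', I.μ v * I.μ v' *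
        (∑ i, ∑ i', I.dd (p i) (p i') * (κ v i * κ v' i') + Δ * (j v + j v')) :=
      sum_le_sum fun v _ => sum_le_sum fun v' _ => mul_le_mul_of_nonneg_left (by
        have := (abs_le.mp (hc v v')).1
        linarith) (mul_nonneg (I.μ_nonneg v) (I.μ_nonneg v'))
    have e1 : ∑ v, ∑ v', I.μ v * I.μ v' * ∑ i, ∑ i', I.dd (p i) (p i') * (κ v i * κ v' i') =
        (∑ i, ∑ i', I.dd (p i) (p i')) / n ^ 2 := by
      have e2 : ∀ i i', I.dd (p i) (p i') / n ^ 2 =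
          ∑ v, ∑ v', I.μ v * I.μ v' * (I.dd (p i) (p i') * (κ v i * κ v' i')) := fun i i' => by
        have e3 : I.dd (p i) (p i') / n ^ 2 =
            I.dd (p i) (p i') * ((∑ v, I.μ v * κ v i) * ∑ v, I.μ v * κ v i') := by
          rw [k2, k2]
          field_simp
        rw [e3, sum_mul_sum, mul_sum]
        refine sum_congr rfl fun v _ => ?_
        rw [mul_sum]
        exact sum_congr rfl fun v' _ => by ring
      simp only [sum_div, e2, mul_sum]
      exact fin_comm4 _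
    have e2 : ∑ v, ∑ v', I.μ v * I.μ v' * (Δ * (j v + j v')) = 2 * Δ * ∑ v, I.μ v * j v := by
      have e3 : ∀ v v', I.μ v * I.μ v' * (Δ * (j v + j v')) =
          Δ * (I.μ v * j v) * I.μ v' + I.μ v * (Δ * (I.μ v' * j v')) := fun v v' => by ring
      simp only [e3, sum_add_distrib, ← mul_sum, ← sum_mul, I.μ_sum]
      ring
    simp only [mul_add (I.μ _ * I.μ _), sum_add_distrib] at h3
    rw [e1, e2] at h3
    have h4 : ε ^ 2 ≤ ε := by nlinarith
    have h5 := mul_le_mul_of_nonneg_left (j1.trans h4) hΔ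
    rw [← le_div_iff₀ (by positivity)]
    linarith [I.avg]

end

theorem finite_gap {V : Type} [Fintype V] {Φ C A Λ Δ ε : ℝ} (I : Inst V Φ C A Λ Δ) (hΦ : 0 ≤ Φ)
    (hC : 0 < C) (hA : 0 < A) (hΛ : 0 ≤ Λ) (hε : 0 ≤ ε) (hε1 : ε ≤ 1) {n : ℕ} (hn : 2 ≤ n)
    (hV : (Fintype.card V : ℝ) ≤ ε ^ 2 * n) (h1 : Δ * Λ * ε ≤ C) (h2 : 4 * Δ * ε ≤ A) :
    ∃ c : Fin n → Fin n → ℝ, IsCapacity c ∧ 0 < GLv c ∧ Φ * A / (16 * C) ≤ Phi c / GLv c := by
  have hn0 : 0 < n := by omega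
  have hn' : (0 : ℝ) < n := Nat.cast_pos.mpr hn0
  obtain ⟨κ, p, k0, k1, k2, k3, k4⟩ := fin_metric I hΛ hε hε1 hn0 hV h1 h2
  have hcut := fin_cut I k0 k1 k2 hn0
  obtain ⟨w, hw⟩ : ∃ w : Fin n → Fin n → ℝ, ∀ i i', I.ed (fun v v' => κ v i * κ v' i') = w i i' :=
    ⟨_, fun _ _ => rfl⟩
  have w0 : ∀ i i', 0 ≤ w i i' := fun i i' =>
    hw i i' ▸ I.pos _ fun v v' => mul_nonneg (k0 v i) (k0 v' i')
  simp only [hw] at k3 hcut
  obtain ⟨e, he⟩ : ∃ e : ℝ, e = 8 * C / (n ^ 2 * A) := ⟨_, rfl⟩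
  have e0 : 0 < e := by rw [he]; positivity
  let c : Fin n → Fin n → ℝ := fun i i' => if i = i' then 0 else w i i' + w i' i + e
  have hc : ∀ i i', i ≠ i' → c i i' = w i i' + w i' i + e := fun i i' h => if_neg h
  have hPhi : Φ / n ^ 2 ≤ Phi c := by
    refine le_csInf ⟨_, {⟨0, hn0⟩}, singleton_nonempty _, fun h => ?_, rfl⟩ ?_
    · have h3 := congrArg card h
      rw [card_singleton, card_univ, Fintype.card_fin] at h3
      omega
    · rintro t ⟨S, hS, hS', rfl⟩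
      have h3 : (0 : ℝ) < S.card := Nat.cast_pos.mpr hS.card_pos
      have h4 : (S.card : ℝ) < n := by
        have h5 := (card_lt_iff_ne_univ S).mpr hS'
        rw [Fintype.card_fin] at h5
        exact_mod_cast h5
      rw [le_div_iff₀ (mul_pos h3 (sub_pos.mpr h4))]
      refine (hcut S).trans (sum_le_sum fun i hi => sum_le_sum fun j hj => ?_)
      rw [hc i j fun h => (mem_compl.mp hj) (h ▸ hi)]
      linarith
  have hlow : ∀ t ∈ {t | ∃ d : Fin n → Fin n → ℝ, IsNegType d ∧ pairSum d = 1 ∧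
      t = pairSum fun i j => c i j * d i j}, e ≤ t := by
    rintro t ⟨d, ⟨⟨x, hx⟩, -⟩, hd, rfl⟩
    have h3 : pairSum (fun i j => e * d i j) ≤ pairSum fun i j => c i j * d i j :=
      fin_pair_mono fun i j hij => mul_le_mul_of_nonneg_right (by
        rw [hc i j hij.ne]
        linarith [w0 i j, w0 j i]) (hx i j ▸ sq_nonneg _)
    rwa [fin_pair_mul, hd, mul_one] at h3
  obtain ⟨P, hP⟩ : ∃ P, P = pairSum fun i j => I.dd (p i) (p j) := ⟨_, rfl⟩
  have hP1 : A / 4 * n ^ 2 ≤ P := by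
    have h3 := fin_pair (fun i j => I.dd (p i) (p j)) fun i => I.dd_self _
    have h4 : (fun i j => I.dd (p i) (p j) + I.dd (p j) (p i)) =
        fun i j => 2 * I.dd (p i) (p j) := by
      funext i j
      rw [I.cnd.1 (p j)]
      ring
    rw [h4, fin_pair_mul, ← hP] at h3
    linarith
  have hP0 : 0 < P := lt_of_lt_of_le (by positivity) hP1
  have hmem : ∃ t ∈ {t | ∃ d : Fin n → Fin n → ℝ, IsNegType d ∧ pairSum d = 1 ∧
      t = pairSum fun i j => c i j * d i j}, t ≤ 2 * e := by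
    refine ⟨_, ⟨fun i j => P⁻¹ * I.dd (p i) (p j), ⟨?_, fun i j k => ?_⟩, ?_, rfl⟩, ?_⟩
    · exact ((I.cnd.comp p).const_mul (inv_pos.mpr hP0).le).embed fun i => by
        rw [I.dd_self, mul_zero]
    · rw [← mul_add]
      exact mul_le_mul_of_nonneg_left (I.tri _ _ _) (inv_pos.mpr hP0).le
    · rw [fin_pair_mul, ← hP, inv_mul_cancel₀ hP0.ne']
    · have h3 := fin_pair (fun i j => I.dd (p i) (p j) * w i j) fun i => by
        rw [I.dd_self, zero_mul]
      have h4 : pairSum (fun i j => c i j * (P⁻¹ * I.dd (p i) (p j))) ≤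
          pairSum fun i j => P⁻¹ * ((I.dd (p i) (p j) * w i j + I.dd (p j) (p i) * w j i) +
            e * I.dd (p i) (p j)) :=
        fin_pair_mono fun i j hij => le_of_eq (by
          rw [hc i j hij.ne, I.cnd.1 (p j)]
          ring)
      rw [fin_pair_mul, fin_pair_add, fin_pair_mul, h3, ← hP] at h4
      refine h4.trans ?_
      rw [inv_mul_le_iff₀ hP0]
      have h5 : e * (A / 4 * n ^ 2) = 2 * C := by
        rw [he]
        field_simp
        ring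
      have h6 := mul_le_mul_of_nonneg_left hP1 e0.le
      linarith
  obtain ⟨t, ht, ht2⟩ := hmem
  have hG1 : e ≤ GLv c := le_csInf ⟨t, ht⟩ hlow
  have hG2 : GLv c ≤ 2 * e := (csInf_le ⟨e, hlow⟩ ht).trans ht2
  have hG0 : 0 < GLv c := e0.trans_le hG1
  refine ⟨c, ⟨fun i j => ?_, fun i j => ?_, fun i => if_pos rfl⟩, hG0, ?_⟩
  · by_cases h : i = j
    · rw [h]
    · rw [hc i j h, hc j i (Ne.symm h)]
      ring
  · by_cases h : i = j
    · exact le_of_eq (if_pos h).symm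
    · rw [hc i j h]
      linarith [w0 i j, w0 j i]
  · rw [le_div_iff₀ hG0]
    refine le_trans (mul_le_mul_of_nonneg_left hG2 (by positivity)) (le_trans (le_of_eq ?_) hPhi)
    rw [he]
    field_simp
    ring

end Vale.Agent.P318
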