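import Vale.Agent.P318.Defs

/-! A small family of orthonormal bases with a fourth moment bound.
Let `X = Fin r → Bool`, `H y x = ∏ i, (if y i ∧ x i then -1 else 1)` (so `∑ x, H y x * H y' x = 2 ^ r` if `y = y'`, else `0`:
`Finset.prod_univ_sum` or a sign reversing involution), `T = Fin 3 → Fin r × Bool` (subcubes
`{x | ∀ l, x (τ l).1 = (τ l).2}`), modes `m : T → Bool`, `ε m x = ∏ τ, (if m τ ∧ x ∈ τ then -1 else 1)`.
The basis vector `b m y` has coordinates `H y x * ε m x / √(2 ^ r)` (transport along `X ≃ Fin (2 ^ r)`;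
`Orthonormal` + cardinality gives an `OrthonormalBasis`, e.g. `basisOfOrthonormalOfCardEqFinrank` and
`Basis.toOrthonormalBasis`).  Key fact: `∑ m, ε m x₁ ε m x₂ ε m x₃ ε m x₄ = 0` if some `x_i` differs from the three others
(choose `τ` containing `x_i` and none of the others, flip `m τ`).  If no `x_i` differs from all the others then
`(x₁ = x₂ ∧ x₃ = x₄) ∨ (x₁ = x₃ ∧ x₂ = x₄) ∨ (x₁ = x₄ ∧ x₂ = x₃)`, so with `α x = H y x * a x`
`∑ m, (∑ x, α x ε m x) ^ 4 ≤ card M * 3 * (∑ x, α x ^ 2) ^ 2` (bound each term by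
`card M * |α x₁ α x₂ α x₃ α x₄|` times the sum of the three indicators). -/

namespace Vale.Agent.P318

open Finset
open Vale.Agent.P347 (E)
open scoped RealInnerProductSpace

theorem modes_moment {ι M : Type} [Fintype ι] [Fintype M] (ε : M → ι → ℝ) (h1 : ∀ m x, ε m x ^ 2 = 1)
    (h0 : ∀ x₁ x₂ x₃ x₄, x₂ ≠ x₁ → x₃ ≠ x₁ → x₄ ≠ x₁ →
      ∑ m, ε m x₁ * ε m x₂ * ε m x₃ * ε m x₄ = 0) (α : ι → ℝ) :
    ∑ m, (∑ x, α x * ε m x) ^ 4 ≤ Fintype.card M * (3 * (∑ x, α x ^ 2) ^ 2) := by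
  classical
  have e1 : ∀ m, (∑ x, α x * ε m x) ^ 4 = ∑ x₁, ∑ x₂, ∑ x₃, ∑ x₄,
      α x₁ * α x₂ * α x₃ * α x₄ * (ε m x₁ * ε m x₂ * ε m x₃ * ε m x₄) := fun m => by
    have e2 : ∀ s : ℝ, s ^ 4 = s * (s * (s * s)) := fun s => by ring
    rw [e2, sum_mul]
    refine sum_congr rfl fun x₁ _ => ?_
    rw [sum_mul, mul_sum]
    refine sum_congr rfl fun x₂ _ => ?_
    rw [sum_mul, mul_sum, mul_sum]
    refine sum_congr rfl fun x₃ _ => ?_
    rw [mul_sum, mul_sum, mul_sum]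
    exact sum_congr rfl fun x₄ _ => by ring
  have hsq : ∀ x y, ∑ m, ε m x ^ 2 * ε m y ^ 2 = Fintype.card M := fun x y => by
    simp [h1]
  have e3 : ∀ x₁ x₂ x₃ x₄, ∑ m, α x₁ * α x₂ * α x₃ * α x₄ * (ε m x₁ * ε m x₂ * ε m x₃ * ε m x₄) ≤
      Fintype.card M * ((if x₂ = x₁ then α x₁ ^ 2 else 0) * (if x₄ = x₃ then α x₃ ^ 2 else 0) +
        (if x₃ = x₁ then α x₁ ^ 2 else 0) * (if x₄ = x₂ then α x₂ ^ 2 else 0) +
        (if x₃ = x₂ then α x₂ ^ 2 else 0) * (if x₄ = x₁ then α x₁ ^ 2 else 0)) := by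
    intro x₁ x₂ x₃ x₄
    have hp : ∀ (P : Prop) [Decidable P] (x : ι), 0 ≤ if P then α x ^ 2 else 0 := fun P _ x => by
      split_ifs
      · exact sq_nonneg _
      · exact le_rfl
    have p1 := mul_nonneg (hp (x₂ = x₁) x₁) (hp (x₄ = x₃) x₃)
    have p2 := mul_nonneg (hp (x₃ = x₁) x₁) (hp (x₄ = x₂) x₂)
    have p3 := mul_nonneg (hp (x₃ = x₂) x₂) (hp (x₄ = x₁) x₁)
    have hM : (0 : ℝ) ≤ Fintype.card M := Nat.cast_nonneg _
    have q1 := mul_nonneg hM p1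
    have q2 := mul_nonneg hM p2
    have q3 := mul_nonneg hM p3
    rw [← mul_sum, mul_add, mul_add]
    have hcase : (x₂ = x₁ ∧ x₄ = x₃) ∨ (x₃ = x₁ ∧ x₄ = x₂) ∨ (x₃ = x₂ ∧ x₄ = x₁) ∨
        (x₂ ≠ x₁ ∧ x₃ ≠ x₁ ∧ x₄ ≠ x₁) ∨ (x₁ ≠ x₂ ∧ x₃ ≠ x₂ ∧ x₄ ≠ x₂) ∨
        (x₁ ≠ x₃ ∧ x₂ ≠ x₃ ∧ x₄ ≠ x₃) ∨ (x₁ ≠ x₄ ∧ x₂ ≠ x₄ ∧ x₃ ≠ x₄) := by grind
    rcases hcase with ⟨a, b⟩ | ⟨a, b⟩ | ⟨a, b⟩ | ⟨a, b, c⟩ | ⟨a, b, c⟩ | ⟨a, b, c⟩ | ⟨a, b, c⟩
    · have e : ∑ m, ε m x₁ * ε m x₂ * ε m x₃ * ε m x₄ = Fintype.card M := by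
        rw [← hsq x₁ x₃, a, b]
        exact sum_congr rfl fun m _ => by ring
      have e' : α x₁ * α x₂ * α x₃ * α x₄ = α x₁ ^ 2 * α x₃ ^ 2 := by
        rw [a, b]
        ring
      rw [e, e', if_pos a, if_pos b]
      linarith
    · have e : ∑ m, ε m x₁ * ε m x₂ * ε m x₃ * ε m x₄ = Fintype.card M := by
        rw [← hsq x₁ x₂, a, b]
        exact sum_congr rfl fun m _ => by ring
      have e' : α x₁ * α x₂ * α x₃ * α x₄ = α x₁ ^ 2 * α x₂ ^ 2 := by
        rw [a, b]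
        ring
      rw [e, e', if_pos a, if_pos b]
      linarith
    · have e : ∑ m, ε m x₁ * ε m x₂ * ε m x₃ * ε m x₄ = Fintype.card M := by
        rw [← hsq x₁ x₂, a, b]
        exact sum_congr rfl fun m _ => by ring
      have e' : α x₁ * α x₂ * α x₃ * α x₄ = α x₁ ^ 2 * α x₂ ^ 2 := by
        rw [a, b]
        ring
      rw [e, e', if_pos a, if_pos b]
      linarith
    · rw [h0 _ _ _ _ a b c]
      linarith
    · have e : ∑ m, ε m x₁ * ε m x₂ * ε m x₃ * ε m x₄ = 0 := by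
        rw [← h0 _ _ _ _ a b c]
        exact sum_congr rfl fun m _ => by ring
      rw [e]
      linarith
    · have e : ∑ m, ε m x₁ * ε m x₂ * ε m x₃ * ε m x₄ = 0 := by
        rw [← h0 _ _ _ _ a b c]
        exact sum_congr rfl fun m _ => by ring
      rw [e]
      linarith
    · have e : ∑ m, ε m x₁ * ε m x₂ * ε m x₃ * ε m x₄ = 0 := by
        rw [← h0 _ _ _ _ a b c]
        exact sum_congr rfl fun m _ => by ring
      rw [e]
      linarith
  simp only [e1]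
  rw [sum_comm]
  refine (sum_le_sum fun x₁ _ => (sum_comm.trans_le (sum_le_sum fun x₂ _ => (sum_comm.trans_le
    (sum_le_sum fun x₃ _ => (sum_comm.trans_le (sum_le_sum fun x₄ _ => e3 x₁ x₂ x₃ x₄))))))).trans
    (le_of_eq ?_)
  simp only [← mul_sum, sum_add_distrib, ← sum_mul, sum_ite_eq', mem_univ, if_true]
  ring

/-- Sign attached to a pair of bits. -/
def modes_sg (a b : Bool) : ℝ := if a && b then -1 else 1

theorem modes_sg_sq (a b : Bool) : modes_sg a b ^ 2 = 1 := by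
  unfold modes_sg
  split_ifs <;> norm_num

/-- Hadamard matrix. -/
def modes_H {T : Type} [Fintype T] (y x : T → Bool) : ℝ := ∏ i, modes_sg (y i) (x i)

theorem modes_H_sq {T : Type} [Fintype T] (y x : T → Bool) : modes_H y x ^ 2 = 1 := by
  simp only [modes_H, ← prod_pow, modes_sg_sq, prod_const_one]

theorem modes_sum_prod {T : Type} [Fintype T] [DecidableEq T] (g : T → Bool → ℝ) :
    ∑ x : T → Bool, ∏ i, g i (x i) = ∏ i, (g i true + g i false) := by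
  have h := Finset.prod_univ_sum (fun _ : T => (univ : Finset Bool)) g
  rw [Fintype.piFinset_univ] at h
  rw [← h]
  exact prod_congr rfl fun i _ => Fintype.sum_bool _

theorem modes_orth {r : ℕ} (y y' : Fin r → Bool) :
    ∑ x, modes_H y x * modes_H y' x = if y = y' then 2 ^ r else 0 := by
  simp only [modes_H, ← prod_mul_distrib]
  rw [modes_sum_prod fun i b => modes_sg (y i) b * modes_sg (y' i) b]
  split_ifs with h
  · subst h
    simp only [← sq, modes_sg_sq, prod_const, card_univ, Fintype.card_fin]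
    norm_num
  · obtain ⟨i, hi⟩ := Function.ne_iff.mp h
    refine prod_eq_zero (mem_univ i) ?_
    revert hi
    cases y i <;> cases y' i <;> simp [modes_sg]

/-- Membership in a subcube. -/
def modes_in {r : ℕ} (x : Fin r → Bool) (τ : Fin 3 → Fin r × Bool) : Bool :=
  decide (∀ l, x (τ l).1 = (τ l).2)

theorem modes_four {r : ℕ} {x₁ x₂ x₃ x₄ : Fin r → Bool} (h2 : x₂ ≠ x₁) (h3 : x₃ ≠ x₁)
    (h4 : x₄ ≠ x₁) : ∑ m, modes_H (modes_in x₁) m * modes_H (modes_in x₂) m *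
      modes_H (modes_in x₃) m * modes_H (modes_in x₄) m = 0 := by
  simp only [modes_H, ← prod_mul_distrib]
  rw [modes_sum_prod fun τ b => modes_sg (modes_in x₁ τ) b * modes_sg (modes_in x₂ τ) b *
    modes_sg (modes_in x₃ τ) b * modes_sg (modes_in x₄ τ) b]
  obtain ⟨i₂, hi₂⟩ := Function.ne_iff.mp h2
  obtain ⟨i₃, hi₃⟩ := Function.ne_iff.mp h3
  obtain ⟨i₄, hi₄⟩ := Function.ne_iff.mp h4
  refine prod_eq_zero (mem_univ ![(i₂, x₁ i₂), (i₃, x₁ i₃), (i₄, x₁ i₄)]) ?_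
  simp [modes_in, modes_sg, Fin.forall_fin_succ, hi₂, hi₃, hi₄]

theorem modes_basis {d : ℕ} (hd : 0 < d) (G : Fin d → Fin d → ℝ)
    (h : ∀ y y', ∑ x, G y x * G y' x = if y = y' then 1 else 0) :
    ∃ b : ONB d, ∀ y (a : E d), ⟪b y, a⟫ = ∑ x, G y x * a x := by
  have : Nonempty (Fin d) := ⟨⟨0, hd⟩⟩
  have hin : ∀ y (a : E d), ⟪(WithLp.toLp 2 (G y) : E d), a⟫ = ∑ x, G y x * a x := fun y a => by
    simp only [PiLp.inner_apply, RCLike.inner_apply, conj_trivial, mul_comm]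
  have ho : Orthonormal ℝ fun y => (WithLp.toLp 2 (G y) : E d) := by
    rw [orthonormal_iff_ite]
    intro y y'
    rw [hin]
    exact h y y'
  have hc : Fintype.card (Fin d) = Module.finrank ℝ (E d) := by simp
  refine ⟨(basisOfOrthonormalOfCardEqFinrank ho hc).toOrthonormalBasis (by
    rw [coe_basisOfOrthonormalOfCardEqFinrank]
    exact ho), fun y a => ?_⟩
  rw [Module.Basis.coe_toOrthonormalBasis, coe_basisOfOrthonormalOfCardEqFinrank, hin]

theorem exists_modes (r : ℕ) (hr : 1 ≤ r) :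
    ∃ J : ℕ, 0 < J ∧ J ≤ 2 ^ (8 * r ^ 3) ∧ ∃ b : Fin J → ONB (2 ^ r), Four b := by
  have hX : Fintype.card (Fin r → Bool) = 2 ^ r := by simp
  have hM : Fintype.card ((Fin 3 → Fin r × Bool) → Bool) = 2 ^ (8 * r ^ 3) := by
    simp only [Fintype.card_fun, Fintype.card_bool, Fintype.card_prod, Fintype.card_fin]
    congr 1
    ring
  let e := (Fintype.equivFinOfCardEq hX).symm
  let eM := (Fintype.equivFinOfCardEq hM).symm
  have hD : (0 : ℝ) < 2 ^ r := by positivity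
  have hs : √(2 ^ r : ℝ) ^ 2 = 2 ^ r := Real.sq_sqrt hD.le
  have hs0 : √(2 ^ r : ℝ) ≠ 0 := (Real.sqrt_pos.mpr hD).ne'
  have hb : ∀ m : Fin (2 ^ (8 * r ^ 3)), ∃ b : ONB (2 ^ r), ∀ y (a : E (2 ^ r)), ⟪b y, a⟫ =
      ∑ x, modes_H (e y) (e x) * modes_H (modes_in (e x)) (eM m) / √(2 ^ r) * a x := fun m => by
    refine modes_basis (by positivity) _ fun y y' => ?_
    have e1 : ∀ x, modes_H (e y) (e x) * modes_H (modes_in (e x)) (eM m) / √(2 ^ r) *
        (modes_H (e y') (e x) * modes_H (modes_in (e x)) (eM m) / √(2 ^ r)) =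
        modes_H (e y) (e x) * modes_H (e y') (e x) / 2 ^ r := fun x => by
      have e2 := modes_H_sq (modes_in (e x)) (eM m)
      calc _ = modes_H (e y) (e x) * modes_H (e y') (e x) *
            modes_H (modes_in (e x)) (eM m) ^ 2 / √(2 ^ r) ^ 2 := by ring
        _ = _ := by rw [e2, hs, mul_one]
    simp only [e1]
    rw [← sum_div, e.sum_comp fun x => modes_H (e y) x * modes_H (e y') x, modes_orth]
    simp only [e.apply_eq_iff_eq]
    split_ifs
    · exact div_self hD.ne'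
    · exact zero_div _
  choose b hb using hb
  refine ⟨2 ^ (8 * r ^ 3), by positivity, le_rfl, b, fun a => ?_⟩
  have h1 : ∀ y, ∑ m, ⟪b m y, a⟫ ^ 4 ≤
      Fintype.card (Fin (2 ^ (8 * r ^ 3))) * (3 * (‖a‖ ^ 2 / 2 ^ r) ^ 2) := fun y => by
    have h2 := modes_moment (fun m x => modes_H (modes_in (e x)) (eM m))
      (fun _ _ => modes_H_sq _ _) (fun x₁ x₂ x₃ x₄ h2 h3 h4 => by
        rw [eM.sum_comp fun m => modes_H (modes_in (e x₁)) m * modes_H (modes_in (e x₂)) m *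
          modes_H (modes_in (e x₃)) m * modes_H (modes_in (e x₄)) m]
        exact modes_four (e.injective.ne h2) (e.injective.ne h3) (e.injective.ne h4))
      fun x => modes_H (e y) (e x) / √(2 ^ r) * a x
    have e1 : ∑ x, (modes_H (e y) (e x) / √(2 ^ r) * a x) ^ 2 = ‖a‖ ^ 2 / 2 ^ r := by
      rw [EuclideanSpace.real_norm_sq_eq, sum_div]
      refine sum_congr rfl fun x _ => ?_
      rw [mul_pow, div_pow, modes_H_sq, hs]
      ring
    rw [e1] at h2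
    refine le_trans (le_of_eq (sum_congr rfl fun m _ => ?_)) h2
    rw [hb]
    exact congrArg (· ^ 4) (sum_congr rfl fun x _ => by ring)
  rw [sum_comm]
  refine (sum_le_sum fun y _ => h1 y).trans (le_of_eq ?_)
  rw [sum_const, card_univ, nsmul_eq_mul, Fintype.card_fin (2 ^ r)]
  push_cast
  field_simp

end Vale.Agent.P318
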