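import Vale.Agent.P318.Model
import Vale.Agent.P318.Modes
import Vale.Agent.P318.Finite

/-! Choice of the parameters.  `d = 2 ^ r`, `L = 7 r²`, `R = √d / r²`, `ϑ = (L + 1) d / R = (L + 1) r² √d`,
`β = ε = 1 / (960 d⁴)`.  For large `r`: `1 ≤ R ≤ d`, `L ≤ d`, `bad ≤ 2 J d exp (-L²/2) ≤ 2 ^ (-20 - 8 r) ≤ β²` (`bad_le`),
the cost is at most `272 R + 1 ≤ 300 R` (weaken the instance or just bound the final quotient),
`√(d / ϑ) ≥ √√d / (3 r²) ≥ 200`, so `A ≥ √√d / (300 r²) `, and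
`card V / ε² ≤ 2 ^ ((4 r + 2) d + 8 r³ + 20 + 8 r) ≤ 2 ^ (6 r d)`. -/

namespace Vale.Agent.P318

open Filter Topology

theorem gapAt_large : ∃ r₀ : ℕ, ∀ r ≥ r₀, 2 ≤ r ∧ (600 * (r : ℝ) ^ 2) ^ 4 ≤ (2 : ℝ) ^ r := by
  have h := tendsto_pow_const_div_const_pow_of_one_lt 8 (r := (2 : ℝ)) one_lt_two
  have h2 : ∀ᶠ n : ℕ in atTop, (n : ℝ) ^ 8 / (2 : ℝ) ^ n < 1 / 600 ^ 4 :=
    h.eventually (gt_mem_nhds (by positivity))
  obtain ⟨r₀, hr₀⟩ := eventually_atTop.1 (h2.and (eventually_ge_atTop 2))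
  refine ⟨r₀, fun r hr => ⟨(hr₀ r hr).2, ?_⟩⟩
  have h3 := (hr₀ r hr).1
  rw [div_lt_div_iff₀ (by positivity) (by positivity)] at h3
  have : (600 * (r : ℝ) ^ 2) ^ 4 = (r : ℝ) ^ 8 * 600 ^ 4 := by ring
  rw [this]
  linarith

theorem gapAt_bad {r J : ℕ} (hr : 2 ≤ r) (hJ : J ≤ 2 ^ (8 * r ^ 3)) :
    2 * (J : ℝ) * ((2 ^ r : ℕ) : ℝ) * Real.exp (-(7 * (r : ℝ) ^ 2) ^ 2 / 2) ≤
      (1 / (960 * ((2 ^ r : ℕ) : ℝ) ^ 4)) ^ 2 := by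
  have hx : (2 : ℝ) ≤ r := by exact_mod_cast hr
  have hJ' : (J : ℝ) ≤ 2 ^ (8 * r ^ 3) := by exact_mod_cast hJ
  have h2e : ∀ k : ℕ, (2 : ℝ) ^ k ≤ Real.exp k := fun k => by
    rw [← Real.exp_one_pow]
    exact pow_le_pow_left₀ (by norm_num) (by linarith [Real.add_one_le_exp (1 : ℝ)]) k
  have hk := h2e (8 * r ^ 3 + 9 * r + 21)
  have hle : ((8 * r ^ 3 + 9 * r + 21 : ℕ) : ℝ) ≤ (7 * (r : ℝ) ^ 2) ^ 2 / 2 := by
    push_cast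
    have h3 : (8 : ℝ) ≤ (r : ℝ) ^ 3 := by
      calc (8 : ℝ) = 2 ^ 3 := by norm_num
        _ ≤ _ := pow_le_pow_left₀ (by norm_num) hx 3
    have h4 : 2 * (r : ℝ) ^ 3 ≤ (r : ℝ) ^ 4 := by nlinarith
    have h5 : 4 * (r : ℝ) ≤ (r : ℝ) ^ 3 := by
      have h6 : (4 : ℝ) ≤ (r : ℝ) ^ 2 := by nlinarith
      nlinarith
    nlinarith
  have hk2 := hk.trans (Real.exp_le_exp.2 hle)
  push_cast
  rw [neg_div, Real.exp_neg, div_pow, one_pow, ← div_eq_mul_inv,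
    div_le_div_iff₀ (Real.exp_pos _) (by positivity), one_mul]
  refine le_trans ?_ hk2
  calc 2 * (J : ℝ) * 2 ^ r * (960 * (2 ^ r) ^ 4) ^ 2
      ≤ 2 * (2 : ℝ) ^ (8 * r ^ 3) * 2 ^ r * (2 ^ 10 * (2 ^ r) ^ 4) ^ 2 := by
        gcongr
        norm_num
    _ = (2 : ℝ) ^ (8 * r ^ 3 + 9 * r + 21) := by ring

theorem gapAt_card {r J N n : ℕ} (hr : 2 ≤ r) (hd : 8 * r ^ 2 + 28 ≤ 2 ^ r)
    (hJ : J ≤ 2 ^ (8 * r ^ 3)) (hN : N ≤ (2 * (2 ^ r) ^ 4 + 1) ^ (2 ^ r))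
    (hn : 2 ^ (6 * r * 2 ^ r) ≤ n) :
    ((N * J : ℕ) : ℝ) ≤ (1 / (960 * ((2 ^ r : ℕ) : ℝ) ^ 4)) ^ 2 * n := by
  have h1 : 2 * (2 ^ r) ^ 4 + 1 ≤ 2 ^ (4 * r + 2) := by
    have : 1 ≤ (2 ^ r) ^ 4 := Nat.one_le_pow _ _ (by positivity)
    calc 2 * (2 ^ r) ^ 4 + 1 ≤ 4 * (2 ^ r) ^ 4 := by omega
      _ = 2 ^ (4 * r + 2) := by ring
  have h2 : N ≤ 2 ^ ((4 * r + 2) * 2 ^ r) := by
    rw [pow_mul]
    exact hN.trans (Nat.pow_le_pow_left h1 _)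
  have h3 : (4 * r + 2) * 2 ^ r + 8 * r ^ 3 + (20 + 8 * r) ≤ 6 * r * 2 ^ r := by
    generalize 2 ^ r = d at hd ⊢
    have h4 : r * (8 * r ^ 2 + 28) ≤ r * d := Nat.mul_le_mul_left _ hd
    have h5 : 2 * d ≤ r * d := Nat.mul_le_mul_right _ hr
    nlinarith
  have h6 : N * J * (960 * (2 ^ r) ^ 4) ^ 2 ≤ n := by
    refine le_trans ?_ hn
    refine le_trans ?_ (Nat.pow_le_pow_right (by norm_num) h3)
    rw [pow_add, pow_add]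
    refine Nat.mul_le_mul (Nat.mul_le_mul h2 hJ) ?_
    calc (960 * (2 ^ r) ^ 4) ^ 2 ≤ (2 ^ 10 * (2 ^ r) ^ 4) ^ 2 := by
          gcongr
          norm_num
      _ = 2 ^ (20 + 8 * r) := by ring
  have h7 : ((N * J : ℕ) : ℝ) * (960 * ((2 ^ r : ℕ) : ℝ) ^ 4) ^ 2 ≤ n := by exact_mod_cast h6
  rw [div_pow, one_pow, one_div, ← div_eq_inv_mul, le_div_iff₀ (by positivity)]
  exact h7

theorem gap_at : ∃ κ : ℝ, 0 < κ ∧ ∃ r₀ : ℕ, ∀ r ≥ r₀, ∀ n ≥ 2 ^ (6 * r * 2 ^ r),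
    ∃ c : Fin n → Fin n → ℝ, IsCapacity c ∧ 0 < GLv c ∧
      κ * √√(2 ^ r) / (r : ℝ) ^ 2 ≤ Phi c / GLv c := by
  refine ⟨1 / (64 * 300 * 16 * 273), by positivity, ?_⟩
  obtain ⟨r₀, hr₀⟩ := gapAt_large
  refine ⟨r₀, fun r hr n hn => ?_⟩
  obtain ⟨hr2, hbig⟩ := hr₀ r hr
  obtain ⟨J, hJ0, hJ, b, hb⟩ := exists_modes r (by omega)
  have : Nonempty (Fin J) := ⟨⟨0, hJ0⟩⟩
  have hx : (2 : ℝ) ≤ r := by exact_mod_cast hr2
  have hDc : ((2 ^ r : ℕ) : ℝ) = (2 : ℝ) ^ r := by push_cast; rfl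
  have hbad0 := bad_le b (L := 7 * (r : ℝ) ^ 2) (by positivity)
  rw [Fintype.card_fin] at hbad0
  have hbad := hbad0.trans (gapAt_bad hr2 hJ)
  clear hbad0
  rw [← hDc] at hbig ⊢
  have hd1 : 1 ≤ 2 ^ r := Nat.one_le_two_pow
  have hrd : (1 / 2 : ℝ) ^ r * ((2 ^ r : ℕ) : ℝ) ≤ 1 := by
    rw [hDc, ← mul_pow]; norm_num
  have hdnat : 8 * r ^ 2 + 28 ≤ 2 ^ r := by
    have : ((8 * r ^ 2 + 28 : ℕ) : ℝ) ≤ ((2 ^ r : ℕ) : ℝ) := by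
      refine le_trans ?_ hbig
      push_cast
      have h1 : (1 : ℝ) ≤ 600 * (r : ℝ) ^ 2 := by nlinarith
      have h2 : 600 * (r : ℝ) ^ 2 ≤ (600 * (r : ℝ) ^ 2) ^ 4 := le_self_pow₀ h1 (by norm_num)
      nlinarith
    exact_mod_cast this
  have hcard := fun N (hN : N ≤ (2 * (2 ^ r) ^ 4 + 1) ^ (2 ^ r)) => gapAt_card hr2 hdnat hJ hN hn
  have hn2 : 2 ≤ n := by
    refine le_trans ?_ hn
    calc 2 = 2 ^ 1 := rfl
      _ ≤ _ := Nat.pow_le_pow_right (by norm_num) (by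
        have : 1 * 1 ≤ 6 * r * 2 ^ r := Nat.mul_le_mul (by omega) hd1
        omega)
  generalize 2 ^ r = d at b hb hbad hbig hd1 hrd hcard ⊢
  generalize hxr : (r : ℝ) = x at *
  have hD1 : (1 : ℝ) ≤ d := by exact_mod_cast hd1
  set t : ℝ := √√(d : ℝ) with ht
  have ht0 : 0 ≤ t := Real.sqrt_nonneg _
  have hs : √(d : ℝ) = t ^ 2 := (Real.sq_sqrt (Real.sqrt_nonneg _)).symm
  have hD : (d : ℝ) = t ^ 4 := by
    rw [show t ^ 4 = (t ^ 2) ^ 2 by ring, ← hs, Real.sq_sqrt (by positivity)]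
  have hx2 : (4 : ℝ) ≤ x ^ 2 := by nlinarith
  have htx : 600 * x ^ 2 ≤ t := by
    rw [hD] at hbig
    exact le_of_pow_le_pow_left₀ (by norm_num) ht0 hbig
  have ht1 : (1 : ℝ) ≤ t := by linarith
  have ht2 : t ≤ t ^ 2 := le_self_pow₀ ht1 (by norm_num)
  have ht4 : t ^ 2 ≤ t ^ 4 := pow_le_pow_right₀ ht1 (by norm_num)
  set R : ℝ := t ^ 2 / x ^ 2 with hR
  have hR1 : 1 ≤ R := by
    rw [hR, le_div_iff₀ (by positivity)]; linarith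
  have hRD : R ≤ d := by
    rw [hR, div_le_iff₀ (by positivity), hD]
    nlinarith [pow_nonneg ht0 4]
  set ϑ : ℝ := (7 * x ^ 2 + 1) * x ^ 2 * t ^ 2 with hϑ
  have hϑ1 : 1 ≤ ϑ := by
    have h1 : (1 : ℝ) ≤ (7 * x ^ 2 + 1) * x ^ 2 := by nlinarith
    rw [hϑ]; nlinarith
  set β : ℝ := 1 / (960 * (d : ℝ) ^ 4) with hβ
  have hβ0 : 0 ≤ β := by positivity
  have hD4 : (d : ℝ) ≤ (d : ℝ) ^ 4 := le_self_pow₀ hD1 (by norm_num)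
  have hβ1 : β ≤ 1 / 1000 := by
    rw [hβ]
    refine one_div_le_one_div_of_le (by norm_num) ?_
    linarith
  obtain ⟨N, hN, ⟨I⟩⟩ := model hd1 hb (r := r) (by omega) hrd (L := 7 * x ^ 2) (ϑ := ϑ) (R := R)
    (β := β) (by positivity) (by linarith) hϑ1 (by positivity) (by rw [hs, hxr]) hβ0 hβ1 hbad
  have hC1 : 128 * (7 * x ^ 2 + 1) * (d : ℝ) / ϑ = 128 * R := by
    rw [hϑ, hR, hD]
    have : t ≠ 0 := by positivity
    have : x ≠ 0 := by positivity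
    field_simp
  have hC2 : 160 * (d : ℝ) ^ 3 * (4 * d + 2 * R) * β ≤ 1 := by
    rw [hβ, mul_one_div, div_le_one (by positivity)]
    calc 160 * (d : ℝ) ^ 3 * (4 * d + 2 * R) ≤ 160 * (d : ℝ) ^ 3 * (4 * d + 2 * d) := by gcongr
      _ = 960 * (d : ℝ) ^ 4 := by ring
  have hC3 : 0 ≤ 160 * (d : ℝ) ^ 3 * (4 * d + 2 * R) * β := by positivity
  have hA1 : t / (3 * x ^ 2) ≤ √((d : ℝ) / ϑ) := by
    refine Real.le_sqrt_of_sq_le ?_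
    rw [div_pow, div_le_div_iff₀ (by positivity) (by positivity), hϑ, hD]
    have h1 : (7 * x ^ 2 + 1) * x ^ 2 ≤ (3 * x ^ 2) ^ 2 := by nlinarith
    calc t ^ 2 * ((7 * x ^ 2 + 1) * x ^ 2 * t ^ 2) = t ^ 4 * ((7 * x ^ 2 + 1) * x ^ 2) := by ring
      _ ≤ _ := by gcongr
  have hA2 : 2 ≤ t / (300 * x ^ 2) := by
    rw [le_div_iff₀ (by positivity)]; linarith
  have hA3 : t / (300 * x ^ 2) ≤ √((d : ℝ) / ϑ) / 50 - 2 := by
    have : t / (3 * x ^ 2) = 100 * (t / (300 * x ^ 2)) := by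
      field_simp
      norm_num
    linarith
  have h2 : 4 * (160 * (d : ℝ) ^ 3) * β ≤ 1 := by
    rw [hβ, mul_one_div, div_le_one (by positivity)]
    have : (d : ℝ) ^ 3 ≤ (d : ℝ) ^ 4 := pow_le_pow_right₀ hD1 (by norm_num)
    nlinarith [pow_nonneg (zero_le_one.trans hD1) 3]
  obtain ⟨c, hc, hG, hgap⟩ := finite_gap I (ε := β) (by positivity) (by rw [hC1]; linarith)
    (by linarith) (by positivity) hβ0 (by linarith) hn2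
    (by rw [Fintype.card_prod, Fintype.card_fin, Fintype.card_fin]; exact hcard N hN)
    (by rw [hC1]; linarith) (by linarith)
  refine ⟨c, hc, hG, le_trans ?_ hgap⟩
  rw [hC1]
  calc 1 / (64 * 300 * 16 * 273) * t / x ^ 2
      = R / 64 * (t / (300 * x ^ 2)) / (16 * (273 * R)) := by
        have : R ≠ 0 := by positivity
        have : x ≠ 0 := by positivity
        field_simp
    _ ≤ _ := by
        have hA0 : 0 ≤ √((d : ℝ) / ϑ) / 50 - 2 := by linarith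
        refine div_le_div₀ (by positivity) (by gcongr) (by positivity) ?_
        linarith

end Vale.Agent.P318
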