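import Vale.Agent.P318.Defs

/-! Gaussian facts (toolbox: Vale.Agent.P347.Gauss, `gam d = stdGaussian (E d)`).
`map_inner`: `IsGaussian.map_eq_gaussianReal` for `innerSL ℝ u`, `variance_dual_stdGaussian`.
`mv_preserving`: characteristic functions (`Measure.ext_of_charFun`, `⟪mv u x z, t⟫ = ⟪x, t - ⟪u, t⟫ u⟫ + z ⟪u, t⟫`,
`integral_prod_mul`, `charFun_stdGaussian`, `charFun_gaussianReal`).  `mix_preserving`: `gam_add` or `gam_rot`.
`tail`: Chernoff (`measure_ge_le_exp_mul_mgf`, `mgf_id_gaussianReal`) on both sides.  `bad_le`: union bound.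
`norm_sub_ge`: `s ≥ s² / c - s⁴ / c³` for `s ≥ 0`, `c > 0`; `E ‖g‖² = d`, `‖g‖⁴ ≤ d ∑ g_i⁴`, `t⁴ ≤ 24 cosh t`, `E cosh = exp (1/2)`,
so `E ‖g‖⁴ ≤ 40 d²`; take `c = 10 √d`; `x - x'` has the law of `√2 g`. -/

namespace Vale.Agent.P318

open MeasureTheory ProbabilityTheory Finset
open Vale.Agent.P347 (E gam)
open scoped RealInnerProductSpace

variable {d : ℕ} {u : E d}

theorem mp_integral {α β F : Type} [MeasurableSpace α] [MeasurableSpace β] [NormedAddCommGroup F]
    [NormedSpace ℝ F] {μ : Measure α} {ν : Measure β} {φ : α → β} (h : MeasurePreserving φ μ ν)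
    {f : β → F} (hf : AEStronglyMeasurable f ν) : ∫ x, f (φ x) ∂μ = ∫ y, f y ∂ν := by
  rw [← h.map_eq, integral_map h.measurable.aemeasurable (by rwa [h.map_eq])]

theorem map_inner (hu : ‖u‖ = 1) :
    MeasurePreserving (fun x : E d => ⟪u, x⟫) (gam d) (gaussianReal 0 1) := by
  refine ⟨by fun_prop, ?_⟩
  have h := IsGaussian.map_eq_gaussianReal (μ := gam d) (innerSL ℝ u)
  rw [integral_strongDual_stdGaussian, variance_dual_stdGaussian, innerSL_apply_norm, hu] at h
  simpa using h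

theorem measurable_mv (u : E d) : Measurable fun p : E d × ℝ => mv u p.1 p.2 := by
  unfold mv
  fun_prop

theorem mv_preserving (hu : ‖u‖ = 1) : MeasurePreserving (fun p : E d × ℝ => mv u p.1 p.2)
    ((gam d).prod (gaussianReal 0 1)) (gam d) := by
  refine ⟨measurable_mv u, ?_⟩
  have : IsProbabilityMeasure (((gam d).prod (gaussianReal 0 1)).map
      fun p : E d × ℝ => mv u p.1 p.2) :=
    Measure.isProbabilityMeasure_map (measurable_mv u).aemeasurable
  apply Measure.ext_of_charFun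
  ext t
  rw [charFun_apply, integral_map (measurable_mv u).aemeasurable
    (Measurable.aestronglyMeasurable (by fun_prop))]
  have e : ∀ p : E d × ℝ, Complex.exp ((⟪mv u p.1 p.2, t⟫ : ℝ) * Complex.I) =
      Complex.exp ((⟪p.1, t - ⟪u, t⟫ • u⟫ : ℝ) * Complex.I) *
        Complex.exp ((⟪u, t⟫ : ℝ) * (p.2 : ℂ) * Complex.I) := by
    intro p
    rw [← Complex.exp_add]
    congr 1
    simp only [mv, inner_add_left, inner_sub_right, real_inner_smul_left, real_inner_smul_right,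
      real_inner_comm u p.1]
    push_cast
    ring
  simp_rw [e]
  rw [integral_prod_mul (fun x : E d => Complex.exp ((⟪x, t - ⟪u, t⟫ • u⟫ : ℝ) * Complex.I))
    (fun z : ℝ => Complex.exp ((⟪u, t⟫ : ℝ) * (z : ℂ) * Complex.I)), ← charFun_apply,
    ← charFun_apply_real, charFun_stdGaussian, charFun_stdGaussian, charFun_gaussianReal,
    ← Complex.exp_add]
  congr 1
  have e2 : ‖t - ⟪u, t⟫ • u‖ ^ 2 = ‖t‖ ^ 2 - ⟪u, t⟫ ^ 2 := by
    rw [norm_sub_sq_real, real_inner_smul_right, norm_smul, hu, real_inner_comm u t, mul_one,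
      Real.norm_eq_abs, sq_abs]
    ring
  have e3 : ((‖t - ⟪u, t⟫ • u‖ : ℝ) : ℂ) ^ 2 = ((‖t‖ : ℝ) : ℂ) ^ 2 - ((⟪u, t⟫ : ℝ) : ℂ) ^ 2 := by
    exact_mod_cast e2
  rw [e3]
  push_cast
  ring

theorem mix_preserving {a s : ℝ} (h : a ^ 2 + s ^ 2 = 1) :
    MeasurePreserving (fun p : E d × E d => a • p.1 + s • p.2) ((gam d).prod (gam d)) (gam d) :=
  ⟨by fun_prop, by rw [P347.gam_add, h]; simp⟩

theorem integrable_inner_sq (v : E d) : Integrable (fun x : E d => ⟪v, x⟫ ^ 2) (gam d) :=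
  (IsGaussian.memLp_dual (gam d) (innerSL ℝ v) 2 (by simp)).integrable_sq

theorem integrable_inner (v : E d) : Integrable (fun x : E d => ⟪v, x⟫) (gam d) :=
  (IsGaussian.integrable_id (μ := gam d)).const_inner v

theorem integral_abs_inner_le (hu : ‖u‖ = 1) : ∫ x, |⟪u, x⟫| ∂(gam d) ≤ 1 := by
  have h1 : ∫ x, (1 / 2 + 1 / 2 * ⟪u, x⟫ ^ 2) ∂(gam d) = 1 := by
    rw [integral_add (integrable_const _) ((integrable_inner_sq u).const_mul _),
      integral_const_mul, P347.integral_inner_sq_gam, hu]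
    simp
    norm_num
  rw [← h1]
  refine integral_mono (integrable_inner u).abs
    ((integrable_const _).add ((integrable_inner_sq u).const_mul _)) fun x => ?_
  have := sq_abs ⟪u, x⟫
  simp only
  nlinarith [sq_nonneg (|⟪u, x⟫| - 1)]

theorem tail (hu : ‖u‖ = 1) {L : ℝ} (hL : 0 ≤ L) :
    (gam d).real {x | L < |⟪u, x⟫|} ≤ 2 * Real.exp (-L ^ 2 / 2) := by
  have h0 := (map_inner hu).measureReal_preimage (s := {z : ℝ | L < |z|})
    (measurableSet_lt measurable_const measurable_abs).nullMeasurableSet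
  have h1 := measure_ge_le_exp_mul_mgf (μ := gaussianReal 0 1) (X := id) L hL
    (integrable_exp_mul_gaussianReal L)
  have h2 := measure_le_le_exp_mul_mgf (μ := gaussianReal 0 1) (X := id) (-L) (neg_nonpos.2 hL)
    (integrable_exp_mul_gaussianReal (-L))
  rw [mgf_id_gaussianReal, ← Real.exp_add] at h1 h2
  have e1 : -L * L + (0 * L + ((1 : NNReal) : ℝ) * L ^ 2 / 2) = -L ^ 2 / 2 := by
    push_cast; ring
  have e2 : - -L * -L + (0 * -L + ((1 : NNReal) : ℝ) * (-L) ^ 2 / 2) = -L ^ 2 / 2 := by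
    push_cast; ring
  rw [e1] at h1
  rw [e2] at h2
  have h3 : (gaussianReal 0 1).real {z : ℝ | L < |z|} ≤
      (gaussianReal 0 1).real {z : ℝ | L ≤ id z} + (gaussianReal 0 1).real {z : ℝ | id z ≤ -L} := by
    refine le_trans (measureReal_mono fun z hz => ?_) (measureReal_union_le _ _)
    rcases lt_abs.1 (show L < |z| from hz) with h | h
    · exact Or.inl h.le
    · exact Or.inr (show z ≤ -L by linarith)
  refine (le_of_eq h0).trans (h3.trans ?_)
  linarith

theorem measurableSet_typ {M : Type} [Fintype M] (b : M → ONB d) (L : ℝ) :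
    MeasurableSet {x | Typ b L x} := by
  simp only [Typ, Set.ofPred_forall]
  exact MeasurableSet.iInter fun m => MeasurableSet.iInter fun y =>
    measurableSet_le (by fun_prop) measurable_const

theorem bad_le {M : Type} [Fintype M] (b : M → ONB d) {L : ℝ} (hL : 0 ≤ L) :
    (gam d).real {x | Typ b L x}ᶜ ≤ 2 * Fintype.card M * d * Real.exp (-L ^ 2 / 2) := by
  have e : {x | Typ b L x}ᶜ = ⋃ q : M × Fin d, {x | L < |⟪b q.1 q.2, x⟫|} := by
    ext x
    simp [Typ]
  rw [e]
  refine (measureReal_iUnion_fintype_le _).trans ((Finset.sum_le_card_nsmul _ _ _ fun q _ =>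
    tail ((b q.1).norm_eq_one q.2) hL).trans (le_of_eq ?_))
  simp
  ring

theorem integral_cos_inner (hu : ‖u‖ = 1) :
    ∫ x, Real.cos ⟪u, x⟫ ∂(gam d) = Real.exp (-1 / 2) := by
  have h := charFun_stdGaussian (E := E d) u
  rw [charFun_apply, hu] at h
  have hi : Integrable (fun x : E d => Complex.exp ((⟪x, u⟫ : ℝ) * Complex.I)) (gam d) :=
    (integrable_const (1 : ℝ)).mono' (Measurable.aestronglyMeasurable (by fun_prop))
      (ae_of_all _ fun x => by rw [Complex.norm_exp_ofReal_mul_I])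
  have h2 := integral_re hi
  simp only [RCLike.re_to_complex, Complex.exp_ofReal_mul_I_re] at h2
  simp only [real_inner_comm _ u]
  rw [h2, h]
  have : (-((1 : ℝ) : ℂ) ^ 2 / 2) = ((-1 / 2 : ℝ) : ℂ) := by push_cast; ring
  rw [this, Complex.exp_ofReal_re]

theorem one_sub_cos_le_abs (t : ℝ) : 1 - Real.cos t ≤ |t| := by
  by_cases h : |t| ≤ 2
  · have h1 := Real.one_sub_sq_div_two_le_cos (x := t)
    have h2 := sq_abs t
    nlinarith [abs_nonneg t]
  · linarith [Real.neg_one_le_cos t, not_le.1 h]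

theorem integral_norm_ge : √d / 3 ≤ ∫ x, ‖x‖ ∂(gam d) := by
  rcases Nat.eq_zero_or_pos d with rfl | hd
  · simpa using integral_nonneg fun x => norm_nonneg x
  have hd' : (0 : ℝ) < √d := Real.sqrt_pos.2 (by exact_mod_cast hd)
  set e := EuclideanSpace.basisFun (Fin d) ℝ
  have hc : ∀ i, Integrable (fun x : E d => 1 - Real.cos ⟪e i, x⟫) (gam d) := fun i =>
    (integrable_const (2 : ℝ)).mono' (Measurable.aestronglyMeasurable (by fun_prop))
      (ae_of_all _ fun x => by
        rw [Real.norm_eq_abs, abs_le]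
        constructor <;> linarith [Real.neg_one_le_cos ⟪e i, x⟫, Real.cos_le_one ⟪e i, x⟫])
  have h1 : ∫ x, ∑ i, (1 - Real.cos ⟪e i, x⟫) ∂(gam d) ≤ ∫ x, √d * ‖x‖ ∂(gam d) := by
    refine integral_mono (integrable_finsetSum _ fun i _ => hc i)
      ((IsGaussian.integrable_id (μ := gam d)).norm.const_mul _) fun x => ?_
    refine (Finset.sum_le_sum fun i _ => one_sub_cos_le_abs _).trans ?_
    refine abs_le_of_sq_le_sq' ?_ (by positivity) |>.2
    refine sq_sum_le_card_mul_sum_sq.trans (le_of_eq ?_)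
    simp only [sq_abs, e.sum_sq_inner_right, mul_pow]
    rw [Real.sq_sqrt (Nat.cast_nonneg d)]
    simp
  have h2 : ∀ i, ∫ x, (1 - Real.cos ⟪e i, x⟫) ∂(gam d) = 1 - Real.exp (-1 / 2) := fun i => by
    rw [integral_sub (integrable_const _) ((integrable_const (1 : ℝ)).mono'
      (Measurable.aestronglyMeasurable (by fun_prop))
      (ae_of_all _ fun x => Real.abs_cos_le_one _)), integral_cos_inner (e.norm_eq_one i)]
    simp
  rw [integral_finsetSum _ fun i _ => hc i, integral_const_mul] at h1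
  simp only [h2, Finset.sum_const, Finset.card_univ, Fintype.card_fin, nsmul_eq_mul] at h1
  have h3 : Real.exp (-1 / 2) ≤ 2 / 3 := by
    have h4 := Real.add_one_le_exp (1 / 2)
    have h5 : Real.exp (-1 / 2) * Real.exp (1 / 2) = 1 := by rw [← Real.exp_add]; norm_num
    nlinarith [Real.exp_pos (-1 / 2)]
  have h6 : (d : ℝ) = √d * √d := (Real.mul_self_sqrt (Nat.cast_nonneg d)).symm
  refine le_of_mul_le_mul_left ?_ hd'
  nlinarith [Nat.cast_nonneg (α := ℝ) d]

theorem norm_sub_eq_mix (p : E d × E d) :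
    ‖p.1 - p.2‖ = √2 * ‖(√2)⁻¹ • p.1 + (-(√2)⁻¹) • p.2‖ := by
  have h : (0 : ℝ) < √2 := by positivity
  rw [neg_smul, ← sub_eq_add_neg, ← smul_sub, norm_smul, Real.norm_of_nonneg (by positivity),
    ← mul_assoc, mul_inv_cancel₀ h.ne', one_mul]

theorem mix_half : ((√2)⁻¹ : ℝ) ^ 2 + (-(√2)⁻¹) ^ 2 = 1 := by
  rw [neg_sq, inv_pow, Real.sq_sqrt (by norm_num)]; norm_num

theorem norm_sub_ge : √d / 20 ≤ ∫ p : E d × E d, ‖p.1 - p.2‖ ∂((gam d).prod (gam d)) := by
  simp only [norm_sub_eq_mix]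
  rw [integral_const_mul, mp_integral (mix_preserving mix_half) (f := fun x => ‖x‖) (by fun_prop)]
  have h1 := integral_norm_ge (d := d)
  have h2 : (1 : ℝ) ≤ √2 := Real.one_le_sqrt.2 (by norm_num)
  have h3 : 0 ≤ √(d : ℝ) := Real.sqrt_nonneg _
  nlinarith

theorem norm_sub_sq : ∫ p : E d × E d, ‖p.1 - p.2‖ ^ 2 ∂((gam d).prod (gam d)) = 2 * d := by
  simp only [norm_sub_eq_mix, mul_pow]
  rw [integral_const_mul, mp_integral (mix_preserving mix_half) (f := fun x => ‖x‖ ^ 2)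
    (by fun_prop), P347.integral_norm_sq_gam, Real.sq_sqrt (by norm_num)]

end Vale.Agent.P318
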