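import Vale.Agent.P318.Kernel

/-! The shape function.  Put `I t = ∫ a in Ioi 1, (1 - exp (-t / a ^ 2))`; for `t ≥ 0` the integrand lies in
`[0, min 1 (t / a ^ 2)]`, so it is integrable (`integrableOn_Ioi_rpow_of_lt`, `∫ a in Ioi 1, a ^ (-2) = 1`).
`Fs_ge`: for `1 < a ≤ √t` the integrand is at least `1 - exp (-1) ≥ 1 / 2`.
`Fs_large`: with `c₀ = ∫ a in Ioi 0, (1 - exp (-1 / a ^ 2))` scaling (`integral_comp_mul_left_Ioi` or similar) gives
`∫ a in Ioi 0, (1 - exp (-s ^ 2 / a ^ 2)) = c₀ s` for `s > 0`, hence `c₀ s - 1 ≤ I (s ^ 2) ≤ c₀ s`.  So the left side is at most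
`c₀ (s + s') + 3` and the right side at least `c₀ (s + s') - 2 + 6 (1 - exp (-2))`, and `exp (-2) ≤ 1 / 6`.
`Fs_small`: with `v = t + t ^ 2 / 12`, `Fs u ≤ Fs (t' + v)` and `Fs (t' + v) - Fs t' ≤ Fs (t + v) - Fs t` (pointwise:
`exp (-t' s) (1 - exp (-v s)) ≤ exp (-t s) (1 - exp (-v s))`).  Pointwise
`1 - exp (-(2 t + e) s) ≤ 2 (1 - exp (-t s)) - (1 - exp (-t s)) ^ 2 + e s` (`e = t ^ 2 / 12`), so
`Fs (2 t + e) ≤ 2 Fs t + 4 e - 3 (1 - exp (-t)) ^ 2`, and `1 - exp (-t) ≥ t / (1 + t) ≥ t / 3`.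
`CND.Fs`: `1 - exp (-(s * k))` is CND (`CND.exp_neg`, `PD.const_sub`); pull the finite sums inside the integral. -/

namespace Vale.Agent.P318

open MeasureTheory Set

theorem inv_sq_intg_shape : IntegrableOn (fun a : ℝ => 1 / a ^ 2) (Ioi 1) := by
  have h := integrableOn_Ioi_rpow_of_lt (a := -2) (by norm_num) (c := 1) one_pos
  refine h.congr_fun (fun a ha => ?_) measurableSet_Ioi
  have ha0 : (0 : ℝ) < a := lt_trans one_pos ha
  simp only
  rw [Real.rpow_neg ha0.le, one_div]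
  norm_cast

theorem inv_sq_int_shape : ∫ a in Ioi (1 : ℝ), 1 / a ^ 2 = 1 := by
  have h := integral_Ioi_rpow_of_lt (a := -2) (by norm_num) (c := 1) one_pos
  have e : ∫ a in Ioi (1 : ℝ), 1 / a ^ 2 = ∫ a in Ioi (1 : ℝ), a ^ (-2 : ℝ) := by
    refine setIntegral_congr_fun measurableSet_Ioi fun a ha => ?_
    have ha0 : (0 : ℝ) < a := lt_trans one_pos ha
    rw [Real.rpow_neg ha0.le, one_div]
    norm_cast
  rw [e, h]
  norm_num

theorem phi_nonneg_shape {t : ℝ} (ht : 0 ≤ t) (a : ℝ) : 0 ≤ 1 - Real.exp (-t / a ^ 2) := by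
  have : Real.exp (-t / a ^ 2) ≤ 1 := by
    rw [Real.exp_le_one_iff]
    exact div_nonpos_of_nonpos_of_nonneg (by linarith) (sq_nonneg _)
  linarith

theorem phi_le_shape (t a : ℝ) : 1 - Real.exp (-t / a ^ 2) ≤ t * (1 / a ^ 2) := by
  have := Real.add_one_le_exp (-t / a ^ 2)
  have e : -t / a ^ 2 = -(t * (1 / a ^ 2)) := by ring
  linarith

theorem phi_meas_shape (t : ℝ) : Measurable fun a : ℝ => 1 - Real.exp (-t / a ^ 2) := by
  fun_prop

theorem phi_intg_shape {t : ℝ} (ht : 0 ≤ t) :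
    IntegrableOn (fun a : ℝ => 1 - Real.exp (-t / a ^ 2)) (Ioi 1) := by
  refine Integrable.mono' (inv_sq_intg_shape.const_mul t)
    (phi_meas_shape t).aestronglyMeasurable (Filter.Eventually.of_forall fun a => ?_)
  rw [Real.norm_of_nonneg (phi_nonneg_shape ht a)]
  exact phi_le_shape t a

theorem phi_intg_Ioc_shape {t : ℝ} (ht : 0 ≤ t) (x y : ℝ) :
    IntegrableOn (fun a : ℝ => 1 - Real.exp (-t / a ^ 2)) (Ioc x y) := by
  refine Measure.integrableOn_of_bounded (M := 1) (by simp)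
    (phi_meas_shape t).aestronglyMeasurable (Filter.Eventually.of_forall fun a => ?_)
  rw [Real.norm_of_nonneg (phi_nonneg_shape ht a)]
  have := Real.exp_pos (-t / a ^ 2)
  linarith

theorem Fs_zero : Fs 0 = 0 := by simp [Fs]

theorem Fs_mono {t u : ℝ} (ht : 0 ≤ t) (h : t ≤ u) : Fs t ≤ Fs u := by
  unfold Fs
  have h1 : ∫ a in Ioi (1 : ℝ), (1 - Real.exp (-t / a ^ 2)) ≤
      ∫ a in Ioi (1 : ℝ), (1 - Real.exp (-u / a ^ 2)) := by
    refine integral_mono (phi_intg_shape ht) (phi_intg_shape (ht.trans h)) fun a => ?_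
    have : Real.exp (-u / a ^ 2) ≤ Real.exp (-t / a ^ 2) :=
      Real.exp_le_exp.2 (div_le_div_of_nonneg_right (by linarith) (sq_nonneg _))
    simp only
    linarith
  have h2 : Real.exp (-u) ≤ Real.exp (-t) := Real.exp_le_exp.2 (by linarith)
  linarith

theorem Fs_nonneg {t : ℝ} (ht : 0 ≤ t) : 0 ≤ Fs t := Fs_zero ▸ Fs_mono le_rfl ht

theorem Fs_le {t : ℝ} (ht : 0 ≤ t) : Fs t ≤ 4 * t := by
  unfold Fs
  have h1 : ∫ a in Ioi (1 : ℝ), (1 - Real.exp (-t / a ^ 2)) ≤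
      ∫ a in Ioi (1 : ℝ), t * (1 / a ^ 2) :=
    integral_mono (phi_intg_shape ht) (inv_sq_intg_shape.const_mul t) fun a => phi_le_shape t a
  rw [integral_const_mul, inv_sq_int_shape] at h1
  have h2 := Real.add_one_le_exp (-t)
  linarith

theorem Fs_ge {t : ℝ} (ht : 0 ≤ t) : (√t - 1) / 2 ≤ Fs t := by
  rcases le_or_gt (√t) 1 with h | h
  · have := Fs_nonneg ht
    linarith
  unfold Fs
  have h1 : ∫ a in Ioc (1 : ℝ) (√t), (1 - Real.exp (-t / a ^ 2)) ≤
      ∫ a in Ioi (1 : ℝ), (1 - Real.exp (-t / a ^ 2)) :=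
    setIntegral_mono_set (phi_intg_shape ht)
      (Filter.Eventually.of_forall fun a => phi_nonneg_shape ht a)
      (LE.le.eventuallyLE Ioc_subset_Ioi_self)
  have h2 : ∫ _ in Ioc (1 : ℝ) (√t), (1 / 2 : ℝ) ≤
      ∫ a in Ioc (1 : ℝ) (√t), (1 - Real.exp (-t / a ^ 2)) := by
    refine setIntegral_mono_on (by simp) (phi_intg_Ioc_shape ht _ _) measurableSet_Ioc
      fun a ha => ?_
    have ha0 : (0 : ℝ) < a := lt_trans one_pos ha.1
    have h3 : a ^ 2 ≤ t := by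
      have := pow_le_pow_left₀ ha0.le ha.2 2
      rwa [Real.sq_sqrt ht] at this
    have h4 : -t / a ^ 2 ≤ -1 := by
      rw [div_le_iff₀ (by positivity)]
      linarith
    have h5 : Real.exp (-t / a ^ 2) ≤ Real.exp (-1) := Real.exp_le_exp.2 h4
    have h6 := Real.exp_neg_one_lt_d9
    linarith
  rw [setIntegral_const, Real.volume_real_Ioc_of_le h.le, smul_eq_mul] at h2
  have h3 : Real.exp (-t) ≤ 1 := Real.exp_le_one_iff.2 (by linarith)
  linarith

theorem scale_shape {s : ℝ} (hs : 0 < s) :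
    ∫ a in Ioi (0 : ℝ), (1 - Real.exp (-s ^ 2 / a ^ 2)) =
      s * ∫ a in Ioi (0 : ℝ), (1 - Real.exp (-1 / a ^ 2)) := by
  have h := integral_comp_mul_left_Ioi (fun a : ℝ => 1 - Real.exp (-1 / a ^ 2)) 0
    (inv_pos.2 hs)
  simp only [mul_zero, inv_inv, smul_eq_mul] at h
  rw [← h]
  refine setIntegral_congr_fun measurableSet_Ioi fun a ha => ?_
  have ha0 : (0 : ℝ) < a := ha
  congr 2
  field_simp

theorem split_shape {t : ℝ} (ht : 0 ≤ t) :
    ∫ a in Ioi (0 : ℝ), (1 - Real.exp (-t / a ^ 2)) =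
      (∫ a in Ioc (0 : ℝ) 1, (1 - Real.exp (-t / a ^ 2))) +
        ∫ a in Ioi (1 : ℝ), (1 - Real.exp (-t / a ^ 2)) := by
  rw [← setIntegral_union (Ioc_disjoint_Ioi le_rfl) measurableSet_Ioi
    (phi_intg_Ioc_shape ht _ _) (phi_intg_shape ht), Ioc_union_Ioi_eq_Ioi zero_le_one]

theorem near_shape {t : ℝ} (ht : 0 ≤ t) :
    0 ≤ ∫ a in Ioc (0 : ℝ) 1, (1 - Real.exp (-t / a ^ 2)) ∧
      ∫ a in Ioc (0 : ℝ) 1, (1 - Real.exp (-t / a ^ 2)) ≤ 1 := by
  refine ⟨integral_nonneg fun a => phi_nonneg_shape ht a, ?_⟩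
  have h2 : ∫ a in Ioc (0 : ℝ) 1, (1 - Real.exp (-t / a ^ 2)) ≤ ∫ _ in Ioc (0 : ℝ) 1, (1 : ℝ) := by
    refine integral_mono (phi_intg_Ioc_shape ht _ _) (by simp) fun a => ?_
    have := Real.exp_pos (-t / a ^ 2)
    simp only
    linarith
  simpa using h2

theorem Fs_large {t t' u : ℝ} (ht : 2 ≤ t) (ht' : 2 ≤ t') (hu : 0 ≤ u)
    (h : u ≤ (√t + √t') ^ 2) : Fs u ≤ Fs t + Fs t' := by
  refine (Fs_mono hu h).trans ?_
  have hs : 0 < √t := Real.sqrt_pos.2 (by linarith)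
  have hs' : 0 < √t' := Real.sqrt_pos.2 (by linarith)
  have e1 := scale_shape hs
  have e2 := scale_shape hs'
  have e3 := scale_shape (add_pos hs hs')
  rw [Real.sq_sqrt (by linarith), split_shape (by linarith)] at e1 e2
  rw [split_shape (sq_nonneg _)] at e3
  have n1 := (near_shape (t := t) (by linarith)).2
  have n2 := (near_shape (t := t') (by linarith)).2
  have n3 := (near_shape (sq_nonneg (√t + √t'))).1
  have x1 : Real.exp (-t) ≤ Real.exp (-2) := Real.exp_le_exp.2 (by linarith)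
  have x2 : Real.exp (-t') ≤ Real.exp (-2) := Real.exp_le_exp.2 (by linarith)
  have x3 := Real.exp_pos (-(√t + √t') ^ 2)
  have x4 : Real.exp (-2) ≤ 1 / 6 := by
    have h6 := Real.exp_neg_one_lt_d9
    have h7 := Real.exp_pos (-1)
    have : Real.exp (-2) = Real.exp (-1) * Real.exp (-1) := by
      rw [← Real.exp_add]
      norm_num
    rw [this]
    nlinarith
  unfold Fs
  linarith

theorem point_shape {t t' e s : ℝ} (ht : 0 ≤ t) (htt : t ≤ t') (he : 0 ≤ e) (hs : 0 ≤ s) :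
    1 - Real.exp (-((t' + t + e) * s)) ≤ (1 - Real.exp (-(t * s))) + (1 - Real.exp (-(t' * s))) -
      (1 - Real.exp (-(t * s))) ^ 2 + e * s := by
  have e1 : Real.exp (-((t' + t + e) * s)) =
      Real.exp (-(t' * s)) * Real.exp (-(t * s)) * Real.exp (-(e * s)) := by
    rw [← Real.exp_add, ← Real.exp_add]
    congr 1
    ring
  have hA0 := Real.exp_pos (-(t' * s))
  have hAB : Real.exp (-(t' * s)) ≤ Real.exp (-(t * s)) :=
    Real.exp_le_exp.2 (by nlinarith)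
  have hB1 : Real.exp (-(t * s)) ≤ 1 := Real.exp_le_one_iff.2 (by nlinarith)
  have hC := Real.add_one_le_exp (-(e * s))
  have hes : 0 ≤ e * s := mul_nonneg he hs
  rw [e1]
  set A := Real.exp (-(t' * s))
  set B := Real.exp (-(t * s))
  set C := Real.exp (-(e * s))
  have h1 : A * B * (1 - e * s) ≤ A * B * C :=
    mul_le_mul_of_nonneg_left (by linarith) (by nlinarith)
  have h2 : A * B ≤ 1 := by nlinarith
  have h3 : A * B * (e * s) ≤ e * s := by nlinarith
  have h4 : 0 ≤ (B - A) * (1 - B) := mul_nonneg (by linarith) (by linarith)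
  nlinarith

theorem Fs_small {t t' u : ℝ} (ht : 0 ≤ t) (htt : t ≤ t') (h2 : t ≤ 2) (hu : 0 ≤ u)
    (h : u ≤ t' + t + t ^ 2 / 12) : Fs u ≤ Fs t + Fs t' := by
  refine (Fs_mono hu h).trans ?_
  have ht' : 0 ≤ t' := ht.trans htt
  have he : 0 ≤ t ^ 2 / 12 := by positivity
  have h1 : ∫ a in Ioi (1 : ℝ), (1 - Real.exp (-(t' + t + t ^ 2 / 12) / a ^ 2)) ≤
      ∫ a in Ioi (1 : ℝ), ((1 - Real.exp (-t / a ^ 2)) + (1 - Real.exp (-t' / a ^ 2)) +
        t ^ 2 / 12 * (1 / a ^ 2)) := by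
    refine integral_mono (phi_intg_shape (by positivity))
      (((phi_intg_shape ht).add (phi_intg_shape ht')).add (inv_sq_intg_shape.const_mul _))
      fun a => ?_
    have := point_shape (s := 1 / a ^ 2) ht htt he (by positivity)
    have a1 : -(t' + t + t ^ 2 / 12) / a ^ 2 = -((t' + t + t ^ 2 / 12) * (1 / a ^ 2)) := by ring
    have a2 : -t / a ^ 2 = -(t * (1 / a ^ 2)) := by ring
    have a3 : -t' / a ^ 2 = -(t' * (1 / a ^ 2)) := by ring
    simp only
    rw [a1, a2, a3]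
    nlinarith [sq_nonneg (1 - Real.exp (-(t * (1 / a ^ 2))))]
  have hI : IntegrableOn (fun a : ℝ => (1 - Real.exp (-t / a ^ 2)) + (1 - Real.exp (-t' / a ^ 2)))
      (Ioi 1) := (phi_intg_shape ht).add (phi_intg_shape ht')
  rw [integral_add hI (inv_sq_intg_shape.const_mul _), integral_add (phi_intg_shape ht) (phi_intg_shape ht'),
    integral_const_mul, inv_sq_int_shape] at h1
  have h3 := point_shape (s := 1) ht htt he zero_le_one
  simp only [mul_one] at h3 h1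
  have h4 : t / 3 ≤ 1 - Real.exp (-t) := by
    have h5 := Real.add_one_le_exp t
    have h6 : Real.exp (-t) * Real.exp t = 1 := by rw [← Real.exp_add]; simp
    have h7 := Real.exp_pos (-t)
    have h8 : Real.exp (-t) * (t + 1) ≤ 1 := by nlinarith
    by_contra hc
    push Not at hc
    nlinarith
  have h5 : (t / 3) ^ 2 ≤ (1 - Real.exp (-t)) ^ 2 := pow_le_pow_left₀ (by positivity) h4 2
  unfold Fs
  nlinarith

theorem CND.Fs {P : Type} {k : P → P → ℝ} (h : CND k) (hn : ∀ p q, 0 ≤ k p q) :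
    CND fun p q => Fs (k p q) := by
  refine ⟨fun p q => by beta_reduce; rw [h.1 p q], fun ι _ x c hc => ?_⟩
  have h1 : ∀ s : ℝ, 0 ≤ s →
      ∑ i, ∑ j, c i * c j * (1 - Real.exp (-(s * k (x i) (x j)))) ≤ 0 :=
    fun s hs => ((h.exp_neg hs).const_sub 1).2 ι x c hc
  have h2 : ∑ i, ∑ j, c i * c j * ∫ a in Ioi (1 : ℝ), (1 - Real.exp (-k (x i) (x j) / a ^ 2)) =
      ∫ a in Ioi (1 : ℝ), ∑ i, ∑ j, c i * c j * (1 - Real.exp (-k (x i) (x j) / a ^ 2)) := by
    rw [integral_finsetSum _ fun i _ => integrable_finsetSum _ fun j _ =>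
      (phi_intg_shape (hn _ _)).const_mul _]
    refine Finset.sum_congr rfl fun i _ => ?_
    rw [integral_finsetSum _ fun j _ => (phi_intg_shape (hn _ _)).const_mul _]
    exact Finset.sum_congr rfl fun j _ => (integral_const_mul _ _).symm
  have h3 : ∫ a in Ioi (1 : ℝ), ∑ i, ∑ j, c i * c j *
      (1 - Real.exp (-k (x i) (x j) / a ^ 2)) ≤ 0 := by
    refine integral_nonpos fun a => ?_
    refine le_of_eq_of_le ?_ (h1 (1 / a ^ 2) (by positivity))
    refine Finset.sum_congr rfl fun i _ => Finset.sum_congr rfl fun j _ => ?_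
    congr 3
    ring
  have h4 := h1 1 zero_le_one
  simp only [one_mul] at h4
  have h5 : ∑ i, ∑ j, c i * c j * P318.Fs (k (x i) (x j)) =
      (∑ i, ∑ j, c i * c j * ∫ a in Ioi (1 : ℝ), (1 - Real.exp (-k (x i) (x j) / a ^ 2))) +
        3 * ∑ i, ∑ j, c i * c j * (1 - Real.exp (-k (x i) (x j))) := by
    rw [Finset.mul_sum, ← Finset.sum_add_distrib]
    refine Finset.sum_congr rfl fun i _ => ?_
    rw [Finset.mul_sum, ← Finset.sum_add_distrib]
    refine Finset.sum_congr rfl fun j _ => ?_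
    unfold P318.Fs
    ring
  beta_reduce
  rw [h5, h2]
  linarith

end Vale.Agent.P318
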