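import Vale.Agent.P318.Bridge
import Vale.Agent.P318.Shape

/-! The metric.  Write `ψ = ‖x - x'‖ ^ 2`, `N = Nn`, `N' = N - ψ ≥ 0` (`norm_sq_le_Nn`).
`slab`: `‖x - z‖² - ‖x' - z‖² = ⟪x - x', x + x' - 2 z⟫ = ∑ y ⟪e y, x - x'⟫ ⟪e y, x + x' - 2 z⟫`.
`Psi_step` (p, q in the same mode): if `o` is in another mode use `slab`.  Otherwise let `N₁', N₂'` be the values of `N'` for
`(p, o)` and `(q, o)`.  If `N₁' ≥ N₂'` then `Θ (exp (-N₂'/Θ) - exp (-N₁'/Θ)) ≤ N₁' - N₂'`, so the difference is at most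
`N (p, o) - N (q, o) ≤ N (p, q)`.  If `N₁' < N₂'` the exponential term has the right sign and `slab` applies.
`Nn_le_Psi`: if the modes differ then `Psi ≥ Θ`.  Otherwise with `z = N'/Θ`, `y = Θ (1 - exp (-z)) ≤ Psi ≤ Θ/2`:
`z exp (-z) ≤ 1 - exp (-z)` gives `N' (Θ - y) ≤ Θ y`, so `N' - y ≤ y² / (Θ - y) ≤ 2 Psi² / Θ`.
`dm_tri`: by symmetry of `Psi` assume `Psi p q ≤ Psi q o`.  If `Psi p q ≥ 2 ϑ` use `CND.sqrt_tri` (for the family of the three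
points, or for the subtype of typical points) and `Fs_large`; otherwise `Nn_le_Psi`, `Psi_step`, `Fs_small`. -/

namespace Vale.Agent.P318

open Finset
open Vale.Agent.P347 (E gam)
open scoped RealInnerProductSpace

variable {d : ℕ} {M : Type} [Fintype M] [DecidableEq M] {b : M → ONB d} {L Θ ϑ : ℝ}
  {p q o : E d × M}

theorem slab (e : ONB d) {x x' z : E d} (hx : ∀ y, |⟪e y, x⟫| ≤ L) (hx' : ∀ y, |⟪e y, x'⟫| ≤ L)
    (hz : ∀ y, |⟪e y, z⟫| ≤ L) : ‖x - z‖ ^ 2 ≤ ‖x' - z‖ ^ 2 + Nn e L x x' := by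
  rw [← e.sum_sq_inner_right (x - z), ← e.sum_sq_inner_right (x' - z), Nn, Finset.mul_sum,
    ← Finset.sum_add_distrib]
  refine Finset.sum_le_sum fun y _ => ?_
  simp only [inner_sub_right]
  have h1 := abs_le.mp (hx y)
  have h2 := abs_le.mp (hx' y)
  have h3 := abs_le.mp (hz y)
  generalize ⟪e y, x⟫ = a at *
  generalize ⟪e y, x'⟫ = a' at *
  generalize ⟪e y, z⟫ = c at *
  have h4 : (a - a') * (a + a' - 2 * c) ≤ |a - a'| * (4 * L) := by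
    refine (le_abs_self _).trans ?_
    rw [abs_mul]
    exact mul_le_mul_of_nonneg_left (abs_le.mpr ⟨by linarith, by linarith⟩) (abs_nonneg _)
  nlinarith

lemma sq_le_Psi_met (hΘ : 0 < Θ) (hp : Typ b L p.1) (hq : Typ b L q.1) :
    ‖p.1 - q.1‖ ^ 2 ≤ Psi b L Θ p q := by
  unfold Psi
  refine le_add_of_nonneg_right (mul_nonneg hΘ.le (sub_nonneg.mpr ?_))
  split_ifs
  · refine Real.exp_le_one_iff.mpr (div_nonpos_of_nonpos_of_nonneg ?_ hΘ.le)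
    have := norm_sq_le_Nn (b p.2) (hp p.2) (hq p.2)
    linarith
  · exact zero_le_one

lemma Nn_tri_met (e : ONB d) {x : E d} (hx : ∀ y, |⟪e y, x⟫| ≤ L) (x' z : E d) :
    Nn e L x z ≤ Nn e L x' z + Nn e L x x' := by
  simp only [Nn, Finset.mul_sum, ← Finset.sum_add_distrib]
  refine Finset.sum_le_sum fun y _ => ?_
  have h0 : 0 ≤ 4 * L := by have := (abs_nonneg _).trans (hx y); linarith
  rw [← mul_add]
  refine mul_le_mul_of_nonneg_left ?_ h0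
  rw [show x - z = (x' - z) + (x - x') by abel, inner_add_right]
  exact abs_add_le _ _

lemma exp_diff_met (hΘ : 0 < Θ) {s t : ℝ} (hs : 0 ≤ s) (h : s ≤ t) :
    Θ * Real.exp (-s / Θ) ≤ Θ * Real.exp (-t / Θ) + (t - s) := by
  have h1 : Real.exp (-t / Θ) = Real.exp (-s / Θ) * Real.exp (-((t - s) / Θ)) := by
    rw [← Real.exp_add]; congr 1; ring
  have h2 := Real.add_one_le_exp (-((t - s) / Θ))
  have h3 : Real.exp (-s / Θ) ≤ 1 :=
    Real.exp_le_one_iff.mpr (div_nonpos_of_nonpos_of_nonneg (by linarith) hΘ.le)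
  have h4 := Real.exp_pos (-s / Θ)
  have h5 : 0 ≤ (t - s) / Θ := div_nonneg (by linarith) hΘ.le
  have h6 : t - s = Θ * ((t - s) / Θ) := by field_simp
  rw [h1, h6, ← mul_add]
  refine mul_le_mul_of_nonneg_left ?_ hΘ.le
  rw [← h6]
  generalize (t - s) / Θ = r at *
  nlinarith [mul_le_mul_of_nonneg_left h2 h4.le]

lemma Psi_self_met (p : E d × M) : Psi b L Θ p p = 0 := by
  simp [Psi, Nn]

theorem Psi_nonneg (hΘ : 0 < Θ) (hp : Typ b L p.1) (hq : Typ b L q.1) : 0 ≤ Psi b L Θ p q :=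
  (sq_nonneg _).trans (sq_le_Psi_met hΘ hp hq)

theorem Psi_step (hΘ : 0 < Θ) (hp : Typ b L p.1) (hq : Typ b L q.1) (ho : Typ b L o.1)
    (h : p.2 = q.2) : Psi b L Θ p o ≤ Psi b L Θ q o + Nn (b p.2) L p.1 q.1 := by
  have hs := slab (b p.2) (hp p.2) (hq p.2) (ho p.2)
  unfold Psi
  rw [← h]
  split_ifs with h1
  · have ht := Nn_tri_met (b p.2) (hp p.2) q.1 o.1
    have h2 := norm_sq_le_Nn (b p.2) (hq p.2) (ho p.2)
    rcases le_total (Nn (b p.2) L q.1 o.1 - ‖q.1 - o.1‖ ^ 2)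
      (Nn (b p.2) L p.1 o.1 - ‖p.1 - o.1‖ ^ 2) with h3 | h3
    · have := exp_diff_met hΘ (sub_nonneg.mpr h2) h3
      linarith
    · have h4 : Real.exp (-(Nn (b p.2) L q.1 o.1 - ‖q.1 - o.1‖ ^ 2) / Θ)
          ≤ Real.exp (-(Nn (b p.2) L p.1 o.1 - ‖p.1 - o.1‖ ^ 2) / Θ) :=
        Real.exp_le_exp.mpr (div_le_div_of_nonneg_right (neg_le_neg h3) hΘ.le)
      have := mul_le_mul_of_nonneg_left h4 hΘ.le
      linarith
  · linarith

theorem Nn_le_Psi (hΘ : 0 < Θ) (hp : Typ b L p.1) (hq : Typ b L q.1)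
    (h : Psi b L Θ p q ≤ Θ / 2) :
    p.2 = q.2 ∧ Nn (b p.2) L p.1 q.1 ≤ Psi b L Θ p q + 2 * Psi b L Θ p q ^ 2 / Θ := by
  have h0 := sq_nonneg ‖p.1 - q.1‖
  unfold Psi at h ⊢
  by_cases h1 : p.2 = q.2
  · refine ⟨h1, ?_⟩
    rw [if_pos h1] at h ⊢
    have h2 := sub_nonneg.mpr (norm_sq_le_Nn (b p.2) (hp p.2) (hq p.2))
    generalize ‖p.1 - q.1‖ ^ 2 = ψ at *
    obtain ⟨z, hz⟩ : ∃ z, Nn (b p.2) L p.1 q.1 = ψ + Θ * z :=
      ⟨(Nn (b p.2) L p.1 q.1 - ψ) / Θ, by field_simp; ring⟩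
    rw [hz] at h h2 ⊢
    have h3 : -(ψ + Θ * z - ψ) / Θ = -z := by field_simp; ring
    rw [h3] at h ⊢
    have z0 : 0 ≤ z := by
      by_contra h4
      have := mul_neg_of_pos_of_neg hΘ (not_le.mp h4)
      linarith
    have h4 : (z + 1) * Real.exp (-z) ≤ 1 := by
      have := mul_le_mul_of_nonneg_right (Real.add_one_le_exp z) (Real.exp_pos (-z)).le
      rwa [← Real.exp_add, add_neg_cancel, Real.exp_zero] at this
    have h5 : Real.exp (-z) ≤ 1 := Real.exp_le_one_iff.mpr (by linarith)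
    generalize Real.exp (-z) = w at *
    have h6 : 1 - w ≤ 1 / 2 := by
      by_contra h7
      have := mul_lt_mul_of_pos_left (not_le.mp h7) hΘ
      linarith
    have h7 : z - (1 - w) ≤ 2 * (1 - w) ^ 2 := by nlinarith
    have h8 : 0 ≤ Θ * (1 - w) := mul_nonneg hΘ.le (by linarith)
    have h9 : Θ * (2 * (1 - w) ^ 2) ≤ 2 * (ψ + Θ * (1 - w)) ^ 2 / Θ := by
      rw [le_div_iff₀ hΘ]; nlinarith
    have := mul_le_mul_of_nonneg_left h7 hΘ.le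
    linarith
  · rw [if_neg h1] at h
    exfalso; linarith

theorem dm_self (p : E d × M) : dm b L ϑ p p = 0 := by
  rw [dm, Psi_self_met, zero_div, Fs_zero]

theorem dm_nonneg (hϑ : 0 < ϑ) (hp : Typ b L p.1) (hq : Typ b L q.1) : 0 ≤ dm b L ϑ p q :=
  Fs_nonneg (div_nonneg (Psi_nonneg (by positivity) hp hq) hϑ.le)

lemma dm_tri_met (hϑ : 0 < ϑ) (hp : Typ b L p.1) (hq : Typ b L q.1) (ho : Typ b L o.1)
    (h : Psi b L (24 * ϑ) p q ≤ Psi b L (24 * ϑ) q o) :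
    dm b L ϑ p o ≤ dm b L ϑ p q + dm b L ϑ q o := by
  have hΘ : 0 < 24 * ϑ := by positivity
  have h1 := div_le_div_of_nonneg_right h hϑ.le
  have h2 := div_nonneg (Psi_nonneg hΘ hp ho) hϑ.le
  have h3 := Psi_nonneg hΘ hp hq
  unfold dm
  rcases le_total 2 (Psi b L (24 * ϑ) p q / ϑ) with h4 | h4
  · refine Fs_large h4 (h4.trans h1) h2 ?_
    have hc := (cnd_Psi b (x := fun p : {p : E d × M // Typ b L p.1} => p.1) hΘ
      fun p => p.2).const_mul (inv_pos.mpr hϑ).le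
    have h5 := hc.sqrt_tri (fun p => by rw [Psi_self_met, mul_zero])
      (fun p q => mul_nonneg (inv_pos.mpr hϑ).le (Psi_nonneg hΘ p.2 q.2)) ⟨p, hp⟩ ⟨o, ho⟩ ⟨q, hq⟩
    simpa only [div_eq_inv_mul] using h5
  · refine Fs_small (div_nonneg h3 hϑ.le) h1 h4 h2 ?_
    rw [div_le_iff₀ hϑ] at h4
    obtain ⟨h5, h6⟩ := Nn_le_Psi hΘ hp hq (by linarith)
    have h7 := Psi_step hΘ hp hq ho h5
    have h8 : Psi b L (24 * ϑ) q o / ϑ + Psi b L (24 * ϑ) p q / ϑ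
        + (Psi b L (24 * ϑ) p q / ϑ) ^ 2 / 12 = (Psi b L (24 * ϑ) q o + (Psi b L (24 * ϑ) p q
          + 2 * Psi b L (24 * ϑ) p q ^ 2 / (24 * ϑ))) / ϑ := by
      field_simp; ring
    rw [h8]
    exact div_le_div_of_nonneg_right (by linarith) hϑ.le

theorem dm_tri (hϑ : 0 < ϑ) (hp : Typ b L p.1) (hq : Typ b L q.1) (ho : Typ b L o.1) :
    dm b L ϑ p o ≤ dm b L ϑ p q + dm b L ϑ q o := by
  have hΘ : 0 < 24 * ϑ := by positivity
  have hc := (cnd_Psi b (x := fun p : {p : E d × M // Typ b L p.1} => p.1) hΘ fun p => p.2).1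
  rcases le_total (Psi b L (24 * ϑ) p q) (Psi b L (24 * ϑ) q o) with h | h
  · exact dm_tri_met hϑ hp hq ho h
  · have h1 : Psi b L (24 * ϑ) p q = Psi b L (24 * ϑ) q p := hc ⟨p, hp⟩ ⟨q, hq⟩
    have h2 : Psi b L (24 * ϑ) q o = Psi b L (24 * ϑ) o q := hc ⟨q, hq⟩ ⟨o, ho⟩
    have h3 : Psi b L (24 * ϑ) p o = Psi b L (24 * ϑ) o p := hc ⟨p, hp⟩ ⟨o, ho⟩
    have h4 := dm_tri_met hϑ ho hq hp (by rw [← h1, ← h2]; exact h)
    unfold dm at h4 ⊢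
    rw [h1, h2, h3, add_comm]
    exact h4

theorem cnd_dm {P : Type} {x : P → E d × M} (hϑ : 0 < ϑ) (hx : ∀ p, Typ b L (x p).1) :
    CND fun p q => dm b L ϑ (x p) (x q) := by
  have hΘ : 0 < 24 * ϑ := by positivity
  have h := ((cnd_Psi b hΘ hx).const_mul (inv_pos.mpr hϑ).le).Fs fun p q =>
    mul_nonneg (inv_pos.mpr hϑ).le (Psi_nonneg hΘ (hx p) (hx q))
  simpa only [dm, div_eq_inv_mul] using h

theorem dm_le_Nn (hϑ : 0 < ϑ) (hp : Typ b L p.1) (hq : Typ b L q.1) (h : p.2 = q.2) :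
    dm b L ϑ p q ≤ 4 * Nn (b p.2) L p.1 q.1 / ϑ := by
  have hΘ : 0 < 24 * ϑ := by positivity
  refine (Fs_le (div_nonneg (Psi_nonneg hΘ hp hq) hϑ.le)).trans ?_
  rw [← mul_div_assoc]
  refine div_le_div_of_nonneg_right ?_ hϑ.le
  have h1 := exp_diff_met hΘ le_rfl (sub_nonneg.mpr (norm_sq_le_Nn (b p.2) (hp p.2) (hq p.2)))
  rw [neg_zero, zero_div, Real.exp_zero] at h1
  rw [Psi, if_pos h]
  linarith

theorem dm_le (hϑ : 0 < ϑ) (hp : Typ b L p.1) (hq : Typ b L q.1) :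
    dm b L ϑ p q ≤ 4 * ‖p.1 - q.1‖ ^ 2 / ϑ + 96 := by
  have hΘ : 0 < 24 * ϑ := by positivity
  refine (Fs_le (div_nonneg (Psi_nonneg hΘ hp hq) hϑ.le)).trans ?_
  have h1 : Psi b L (24 * ϑ) p q ≤ ‖p.1 - q.1‖ ^ 2 + 24 * ϑ := by
    unfold Psi
    refine add_le_add le_rfl (mul_le_of_le_one_right hΘ.le (sub_le_self _ ?_))
    split_ifs
    · exact (Real.exp_pos _).le
    · exact le_rfl
  have h2 : 4 * ‖p.1 - q.1‖ ^ 2 / ϑ + 96 = 4 * ((‖p.1 - q.1‖ ^ 2 + 24 * ϑ) / ϑ) := by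
    field_simp; ring
  rw [h2]
  exact mul_le_mul_of_nonneg_left (div_le_div_of_nonneg_right h1 hϑ.le) (by norm_num)

theorem dm_ge (hϑ : 0 < ϑ) (hp : Typ b L p.1) (hq : Typ b L q.1) :
    (‖p.1 - q.1‖ / √ϑ - 1) / 2 ≤ dm b L ϑ p q := by
  have hΘ : 0 < 24 * ϑ := by positivity
  refine le_trans ?_ (Fs_ge (div_nonneg (Psi_nonneg hΘ hp hq) hϑ.le))
  have h1 : ‖p.1 - q.1‖ / √ϑ ≤ √(Psi b L (24 * ϑ) p q / ϑ) := by
    rw [Real.sqrt_div' _ hϑ.le]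
    exact div_le_div_of_nonneg_right (Real.le_sqrt_of_sq_le (sq_le_Psi_met hΘ hp hq))
      (Real.sqrt_nonneg _)
  linarith

end Vale.Agent.P318
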