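import Vale.Agent.P318.Defs

/-! Rounding to a finite grid.  Let `B = d ^ 4`, `h = 1 / d ^ 2`, `K = Fin d → Fin (2 B + 1)`,
`val k i = (k i - B) h`, `rd x i = ` the integer `⌊x i / h⌋ + B` clamped to `[0, 2 B]` (measurable: a function of
`⌊x i / h⌋`, `Int.measurable_floor`, `measurable_of_countable`), `rep k = val k` if `val k` is `(L+1)`-typical, else `0`.
For typical `x`: `‖x‖² ≤ d L² ≤ d ^ 3` (Parseval), so `|x i| ≤ d ^ 2`, no clamping occurs, `‖x - val (rd x)‖ ≤ h √d ≤ 1 / d`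
and `val (rd x)` is `(L+1)`-typical.  Transport along `K ≃ Fin N`. -/

namespace Vale.Agent.P318

open Vale.Agent.P347 (E gam)

/-- Clamped shift of an integer. -/
def Round_cl (B : ℕ) (z : ℤ) : Fin (2 * B + 1) := ⟨min (z + B).toNat (2 * B), by omega⟩

theorem Round_cl_val {B : ℕ} {z : ℤ} (h1 : -(B : ℤ) ≤ z) (h2 : z ≤ B) :
    ((Round_cl B z : ℕ) : ℝ) - B = z := by
  have : ((Round_cl B z : ℕ) : ℤ) - B = z := by simp only [Round_cl]; omega
  exact_mod_cast this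

/-- Rounding map. -/
noncomputable def Round_rd (d : ℕ) (x : E d) : Fin d → Fin (2 * d ^ 4 + 1) :=
  fun i => Round_cl (d ^ 4) ⌊x i * (d : ℝ) ^ 2⌋

/-- Grid points. -/
noncomputable def Round_val (d : ℕ) (k : Fin d → Fin (2 * d ^ 4 + 1)) : E d :=
  WithLp.toLp 2 fun i => (((k i : ℕ) : ℝ) - (d ^ 4 : ℕ)) / (d : ℝ) ^ 2

theorem Round_meas (d : ℕ) : Measurable (Round_rd d) := by
  refine measurable_pi_lambda _ fun i => (measurable_of_countable (Round_cl (d ^ 4))).comp ?_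
  exact Int.measurable_floor.comp (by fun_prop)

theorem Round_near {d : ℕ} (hd : 1 ≤ d) {x : E d} (hx : ‖x‖ ≤ (d : ℝ) ^ 2) :
    ‖x - Round_val d (Round_rd d x)‖ ≤ 1 / d := by
  have hd' : (1 : ℝ) ≤ d := by exact_mod_cast hd
  have h1 : ∀ i, ((x - Round_val d (Round_rd d x)) i) ^ 2 ≤ (1 / (d : ℝ) ^ 2) ^ 2 := fun i => by
    have hi : |x i| ≤ (d : ℝ) ^ 2 := (PiLp.norm_apply_le x i).trans hx
    obtain ⟨hi1, hi2⟩ := abs_le.1 hi
    have h4 : (((d ^ 4 : ℕ) : ℤ) : ℝ) = (d : ℝ) ^ 2 * (d : ℝ) ^ 2 := by push_cast; ring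
    have hp : (0 : ℝ) < (d : ℝ) ^ 2 := by positivity
    have ha : -((d ^ 4 : ℕ) : ℤ) ≤ ⌊x i * (d : ℝ) ^ 2⌋ := by
      rw [Int.le_floor, Int.cast_neg, h4]; nlinarith
    have hb : ⌊x i * (d : ℝ) ^ 2⌋ ≤ ((d ^ 4 : ℕ) : ℤ) := by
      have := Int.floor_le (x i * (d : ℝ) ^ 2)
      have h5 : ((⌊x i * (d : ℝ) ^ 2⌋ : ℤ) : ℝ) ≤ (((d ^ 4 : ℕ) : ℤ) : ℝ) := by rw [h4]; nlinarith
      exact_mod_cast h5
    have e : (x - Round_val d (Round_rd d x)) i =
        (x i * (d : ℝ) ^ 2 - ⌊x i * (d : ℝ) ^ 2⌋) / (d : ℝ) ^ 2 := by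
      simp only [PiLp.sub_apply, Round_val, Round_rd, Round_cl_val ha hb]
      field_simp
    rw [e]
    have h6 := Int.floor_le (x i * (d : ℝ) ^ 2)
    have h7 := Int.lt_floor_add_one (x i * (d : ℝ) ^ 2)
    exact pow_le_pow_left₀ (div_nonneg (by linarith) hp.le)
      (div_le_div_of_nonneg_right (by linarith) hp.le) 2
  refine (pow_le_pow_iff_left₀ (norm_nonneg _) (by positivity) two_ne_zero).1 ?_
  rw [EuclideanSpace.real_norm_sq_eq]
  refine (Finset.sum_le_sum fun i _ => h1 i).trans ?_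
  simp only [Finset.sum_const, Finset.card_univ, Fintype.card_fin, nsmul_eq_mul]
  rw [show (d : ℝ) * (1 / (d : ℝ) ^ 2) ^ 2 = (1 / d) ^ 2 * (1 / d) by field_simp]
  exact mul_le_of_le_one_right (by positivity) ((div_le_one (by linarith)).2 hd')

theorem Round_norm {d : ℕ} (hd : 1 ≤ d) {M : Type} [Nonempty M] {b : M → ONB d} {L : ℝ}
    (_hL : 0 ≤ L) (hLd : L ≤ d) {x : E d} (hx : Typ b L x) : ‖x‖ ≤ (d : ℝ) ^ 2 := by
  obtain ⟨m⟩ := ‹Nonempty M›
  have hd' : (1 : ℝ) ≤ d := by exact_mod_cast hd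
  refine (pow_le_pow_iff_left₀ (norm_nonneg _) (by positivity) two_ne_zero).1 ?_
  rw [← (b m).sum_sq_norm_inner_right x]
  have h1 : ∀ y, ‖inner ℝ (b m y) x‖ ^ 2 ≤ (d : ℝ) ^ 2 := fun y =>
    pow_le_pow_left₀ (norm_nonneg _) ((hx m y).trans hLd) 2
  refine (Finset.sum_le_sum fun y _ => h1 y).trans ?_
  simp only [Finset.sum_const, Finset.card_univ, Fintype.card_fin, nsmul_eq_mul]
  rw [pow_two ((d : ℝ) ^ 2)]
  exact mul_le_mul_of_nonneg_right (by nlinarith) (by positivity)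

theorem exists_round {d : ℕ} (hd : 1 ≤ d) {M : Type} [Nonempty M] (b : M → ONB d) {L : ℝ}
    (hL : 0 ≤ L) (hLd : L ≤ d) :
    ∃ (N : ℕ) (π : E d → Fin N) (rep : Fin N → E d), N ≤ (2 * d ^ 4 + 1) ^ d ∧ Measurable π ∧
      (∀ k, Typ b (L + 1) (rep k)) ∧ ∀ x, Typ b L x → ‖x - rep (π x)‖ ≤ 1 / d := by
  classical
  let e := Fintype.equivFin (Fin d → Fin (2 * d ^ 4 + 1))
  refine ⟨_, fun x => e (Round_rd d x),
    fun k => if Typ b (L + 1) (Round_val d (e.symm k)) then Round_val d (e.symm k) else 0,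
    by simp, (measurable_of_countable e).comp (Round_meas d), fun k => ?_, fun x hx => ?_⟩
  · dsimp only
    split_ifs with h
    · exact h
    · intro m y; simp only [inner_zero_right, abs_zero]; linarith
  · have h1 := Round_near hd (Round_norm hd hL hLd hx)
    have hd' : (1 : ℝ) ≤ d := by exact_mod_cast hd
    have h2 : Typ b (L + 1) (Round_val d (Round_rd d x)) := fun m y => by
      have h3 := abs_real_inner_le_norm (b m y) (x - Round_val d (Round_rd d x))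
      rw [(b m).orthonormal.1 y, one_mul, inner_sub_right] at h3
      have h4 : 1 / (d : ℝ) ≤ 1 := (div_le_one (by linarith)).2 hd'
      have h5 := hx m y
      rw [abs_le] at h3 h5 ⊢
      constructor <;> linarith [h3.1, h3.2, h5.1, h5.2]
    simp only [Equiv.symm_apply_apply, if_pos h2]
    exact h1

end Vale.Agent.P318
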