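import Vale.Agent.P318.Expand
import Vale.Agent.P318.Edge
import Vale.Agent.P318.Metric
import Vale.Agent.P318.Round

/-! The weighted instance.  Take `π, rep` from `exists_round`, `V = Fin N × M`, `lift H p q = H (π p.1, p.2) (π q.1, q.2)`,
`μ v = (gam d).real (π ⁻¹' {v.1}) / card M`, `ed H = mvE b (lift H) + R * swE σ (lift H)` with `σ = √((1/2)^r)`,
`dd v v' = dm b (L + 1) ϑ (rep v.1, v.2) (rep v'.1, v'.2)`, `G = {x | Typ b L x}`.
`∑ v, μ v * f v = mean (fun p => f (π p.1, p.2))` (`integral_map`, `integral_fintype`), and similarly for pairs.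
expand: `expand` and `R / 64 ≤ R`, `R / 64 * (64 r² / √d) ≤ 1`.
dd_le: `dm_le`, `‖x - x'‖² ≤ 4 (L+1)² d ≤ 16 d³`.
cost: `mvI_cost` with `a = 16 (L + 1) / ϑ` (`dm_le_Nn`; `∑ y |⟪e y, v⟫| ≤ √d ‖v‖`), `swI_cost` with `a = 8`, `a' = 128`
(`dm_le`, `‖x̂ - x̂'‖² ≤ 2 ‖x - x'‖² + 8`, `ϑ ≥ 1`).  avg: `avg_ge` with `a = 1 / (2 √ϑ)`, `a' = 3 / 2` (`dm_ge`).
junk: `mvI_junk`, `swI_add_const`, Cauchy-Schwarz over the modes, `t ≤ √t` for `t ≤ 1`. -/

namespace Vale.Agent.P318

open MeasureTheory ProbabilityTheory Finset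
open Vale.Agent.P347 (E gam)
open scoped RealInnerProductSpace

section aux

variable {d N : ℕ} {π : E d → Fin N}

theorem model_int (hπ : Measurable π) (g : Fin N → ℝ) :
    ∫ x, g (π x) ∂(gam d) = ∑ k, (gam d).real (π ⁻¹' {k}) * g k := by
  rw [← integral_map hπ.aemeasurable (measurable_of_countable g).aestronglyMeasurable,
    integral_fintype (Integrable.of_finite)]
  refine Finset.sum_congr rfl fun k _ => ?_
  rw [map_measureReal_apply hπ (measurableSet_singleton k), smul_eq_mul]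

theorem model_BM2 (hπ : Measurable π) (G : Fin N → Fin N → ℝ) :
    BM2 fun x x' => G (π x) (π x') := by
  refine ⟨?_, ∑ k, ∑ k', |G k k'|, fun x y => ?_⟩
  · exact (measurable_of_countable (Function.uncurry G)).comp
      ((hπ.comp measurable_fst).prodMk (hπ.comp measurable_snd))
  · calc |G (π x) (π y)| ≤ ∑ k', |G (π x) k'| :=
          Finset.single_le_sum (f := fun k' => |G (π x) k'|) (fun _ _ => abs_nonneg _)
            (Finset.mem_univ _)
      _ ≤ _ := Finset.single_le_sum (f := fun k => ∑ k', |G k k'|)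
            (fun _ _ => Finset.sum_nonneg fun _ _ => abs_nonneg _) (Finset.mem_univ _)

theorem model_int2 (hπ : Measurable π) (G : Fin N → Fin N → ℝ) :
    ∫ p : E d × E d, G (π p.1) (π p.2) ∂((gam d).prod (gam d)) =
      ∑ k, ∑ k', (gam d).real (π ⁻¹' {k}) * (gam d).real (π ⁻¹' {k'}) * G k k' := by
  obtain ⟨hm, C, hC⟩ := model_BM2 hπ G
  have hi : Integrable (fun p : E d × E d => G (π p.1) (π p.2)) ((gam d).prod (gam d)) :=
    Integrable.of_bound (Measurable.aestronglyMeasurable hm) C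
      (Filter.Eventually.of_forall fun p => hC p.1 p.2)
  rw [integral_prod _ hi]
  have h1 : ∀ x : E d, ∫ y, G (π x) (π y) ∂(gam d) =
      ∑ k', (gam d).real (π ⁻¹' {k'}) * G (π x) k' := fun x => model_int hπ (G (π x))
  simp only [h1]
  rw [model_int hπ (fun k => ∑ k', (gam d).real (π ⁻¹' {k'}) * G k k')]
  refine Finset.sum_congr rfl fun k _ => ?_
  rw [Finset.mul_sum]
  exact Finset.sum_congr rfl fun k' _ => by ring

theorem model_U01 (hπ : Measurable π) {g : Fin N → ℝ} (hg : ∀ k, 0 ≤ g k ∧ g k ≤ 1) :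
    U01 fun x => g (π x) :=
  ⟨(measurable_of_countable g).comp hπ, fun _ => hg _⟩

theorem model_norm_sq (e : ONB d) {L : ℝ} {x : E d} (hx : ∀ y, |⟪e y, x⟫| ≤ L) :
    ‖x‖ ^ 2 ≤ d * L ^ 2 := by
  rw [← e.sum_sq_inner_right x]
  calc ∑ y, ⟪e y, x⟫ ^ 2 ≤ ∑ _y : Fin d, L ^ 2 := Finset.sum_le_sum fun y _ => by
        rw [← sq_abs]; exact pow_le_pow_left₀ (abs_nonneg _) (hx y) 2
    _ = _ := by simp

theorem model_abs_inner (e : ONB d) (y : Fin d) (v : E d) : |⟪e y, v⟫| ≤ ‖v‖ := by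
  have := abs_real_inner_le_norm (e y) v
  rwa [e.orthonormal.1 y, one_mul] at this

theorem model_sqrt_avg {M : Type} [Fintype M] [Nonempty M] (t : M → ℝ) (ht : ∀ m, 0 ≤ t m) :
    (∑ m, √(t m)) / Fintype.card M ≤ √((∑ m, t m) / Fintype.card M) := by
  have hJ : (0 : ℝ) < Fintype.card M := Nat.cast_pos.2 Fintype.card_pos
  apply Real.le_sqrt_of_sq_le
  have h := sq_sum_le_card_mul_sum_sq (s := (Finset.univ : Finset M)) (f := fun m => √(t m))
  simp only [Real.sq_sqrt (ht _), Finset.card_univ] at h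
  rw [div_pow, div_le_div_iff₀ (by positivity) hJ]
  nlinarith [h]

variable {M : Type} [Fintype M]

/-- Pull a function of two grid states back to the continuous states. -/
def modelLift (π : E d → Fin N) (H : Fin N × M → Fin N × M → ℝ) (p q : E d × M) : ℝ :=
  H (π p.1, p.2) (π q.1, q.2)

theorem model_mean (hπ : Measurable π) (f : Fin N × M → ℝ) :
    ∑ v : Fin N × M, (gam d).real (π ⁻¹' {v.1}) / Fintype.card M * f v =
      mean fun p : E d × M => f (π p.1, p.2) := by
  unfold mean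
  rw [Fintype.sum_prod_type_right, Finset.sum_div]
  refine Finset.sum_congr rfl fun m _ => ?_
  rw [model_int hπ (fun k => f (k, m)), Finset.sum_div]
  exact Finset.sum_congr rfl fun k _ => by ring

theorem model_mean2 (hπ : Measurable π) (H : Fin N × M → Fin N × M → ℝ) :
    ∑ v : Fin N × M, ∑ v' : Fin N × M, (gam d).real (π ⁻¹' {v.1}) / Fintype.card M *
      ((gam d).real (π ⁻¹' {v'.1}) / Fintype.card M) * H v v' =
      (∑ m, ∑ m', ∫ p : E d × E d, H (π p.1, m) (π p.2, m') ∂((gam d).prod (gam d))) /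
        (Fintype.card M : ℝ) ^ 2 := by
  rw [Fintype.sum_prod_type_right, Finset.sum_div]
  refine Finset.sum_congr rfl fun m _ => ?_
  simp only [Fintype.sum_prod_type_right (α₁ := Fin N) (α₂ := M)]
  rw [Finset.sum_comm, Finset.sum_div]
  refine Finset.sum_congr rfl fun m' _ => ?_
  rw [model_int2 hπ (fun k k' => H (k, m) (k', m')), Finset.sum_div]
  refine Finset.sum_congr rfl fun k _ => ?_
  rw [Finset.sum_div]
  exact Finset.sum_congr rfl fun k' _ => by ring

theorem model_mvE_nonneg (b : M → ONB d) {H : E d × M → E d × M → ℝ} (h : ∀ p q, 0 ≤ H p q) :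
    0 ≤ mvE b H :=
  div_nonneg (Finset.sum_nonneg fun _ _ => Finset.sum_nonneg fun _ _ =>
    mvI_nonneg _ fun _ _ => h _ _) (Nat.cast_nonneg _)

theorem model_swE_nonneg (σ : ℝ) {H : E d × M → E d × M → ℝ} (h : ∀ p q, 0 ≤ H p q) :
    0 ≤ swE σ H :=
  div_nonneg (Finset.sum_nonneg fun _ _ => Finset.sum_nonneg fun _ _ =>
    swI_nonneg _ fun _ _ => h _ _) (by positivity)

theorem model_lin (hπ : Measurable π) (b : M → ONB d) (R σ : ℝ) :
    IsLinearMap ℝ fun H : Fin N × M → Fin N × M → ℝ =>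
      mvE b (modelLift π H) + R * swE σ (modelLift π H) := by
  constructor
  · intro H H'
    have h1 : mvE b (modelLift π (H + H')) = mvE b (modelLift π H) + mvE b (modelLift π H') := by
      unfold mvE
      rw [← add_div, ← Finset.sum_add_distrib]
      congr 1
      refine Finset.sum_congr rfl fun m _ => ?_
      rw [← Finset.sum_add_distrib]
      refine Finset.sum_congr rfl fun y _ => ?_
      exact mvI_add _ (model_BM2 hπ fun k k' => H (k, m) (k', m))
        (model_BM2 hπ fun k k' => H' (k, m) (k', m))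
    have h2 : swE σ (modelLift π (H + H')) = swE σ (modelLift π H) + swE σ (modelLift π H') := by
      unfold swE
      rw [← add_div, ← Finset.sum_add_distrib]
      congr 1
      refine Finset.sum_congr rfl fun m _ => ?_
      rw [← Finset.sum_add_distrib]
      refine Finset.sum_congr rfl fun m' _ => ?_
      exact swI_add _ (model_BM2 hπ fun k k' => H (k, m) (k', m'))
        (model_BM2 hπ fun k k' => H' (k, m) (k', m'))
    rw [h1, h2]; ring
  · intro c H
    have h1 : mvE b (modelLift π (c • H)) = c * mvE b (modelLift π H) := by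
      unfold mvE
      rw [← mul_div_assoc, Finset.mul_sum]
      congr 1
      refine Finset.sum_congr rfl fun m _ => ?_
      rw [Finset.mul_sum]
      refine Finset.sum_congr rfl fun y _ => ?_
      exact mvI_smul _ c fun x x' => H (π x, m) (π x', m)
    have h2 : swE σ (modelLift π (c • H)) = c * swE σ (modelLift π H) := by
      unfold swE
      rw [← mul_div_assoc, Finset.mul_sum]
      congr 1
      refine Finset.sum_congr rfl fun m _ => ?_
      rw [Finset.mul_sum]
      refine Finset.sum_congr rfl fun m' _ => ?_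
      exact swI_smul _ c fun x x' => H (π x, m) (π x', m')
    rw [h1, h2, smul_eq_mul]; ring

theorem model_mvE_le [Nonempty M] (b : M → ONB d) {H : E d × M → E d × M → ℝ} {t : M → ℝ}
    (h : ∀ m y, mvI (b m y) (fun x x' => H (x, m) (x', m)) ≤ t m) :
    mvE b H ≤ d * ((∑ m, t m) / Fintype.card M) := by
  unfold mvE
  rw [← mul_div_assoc, Finset.mul_sum]
  refine div_le_div_of_nonneg_right (Finset.sum_le_sum fun m _ => ?_) (Nat.cast_nonneg _)
  calc _ ≤ ∑ _y : Fin d, t m := Finset.sum_le_sum fun y _ => h m y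
    _ = _ := by simp

theorem model_swE_le [Nonempty M] (σ : ℝ) {H : E d × M → E d × M → ℝ} {t : ℝ}
    (h : ∀ m m', swI σ (fun x x' => H (x, m) (x', m')) ≤ t) : swE σ H ≤ t := by
  have hJ : (0 : ℝ) < Fintype.card M := Nat.cast_pos.2 Fintype.card_pos
  unfold swE
  rw [div_le_iff₀ (by positivity)]
  calc _ ≤ ∑ _m : M, ∑ _m' : M, t :=
        Finset.sum_le_sum fun m _ => Finset.sum_le_sum fun m' _ => h m m'
    _ = _ := by simp; ring

theorem model_junk [Nonempty M] (hπ : Measurable π) (b : M → ONB d) {R σ : ℝ} (hR : 0 ≤ R)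
    (hσ : σ ^ 2 ≤ 1) (j : Fin N × M → ℝ) (hj : ∀ v, 0 ≤ j v ∧ j v ≤ 1) :
    mvE b (modelLift π fun v v' => j v + j v') + R * swE σ (modelLift π fun v v' => j v + j v') ≤
      (4 * d + 2 * R) * √(mean fun p : E d × M => j (π p.1, p.2)) := by
  have hJ : (0 : ℝ) < Fintype.card M := Nat.cast_pos.2 Fintype.card_pos
  have hU : ∀ m, U01 fun x => j (π x, m) := fun m =>
    model_U01 hπ (g := fun k => j (k, m)) fun k => hj _
  set t : M → ℝ := fun m => ∫ x, j (π x, m) ∂(gam d) with ht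
  have ht0 : ∀ m, 0 ≤ t m := fun m => integral_nonneg fun x => (hj _).1
  have ht1 : ∀ m, t m ≤ 1 := fun m => by
    have : t m ≤ ∫ _x, (1 : ℝ) ∂(gam d) :=
      integral_mono_of_nonneg (Filter.Eventually.of_forall fun x => (hj _).1) (integrable_const _)
        (Filter.Eventually.of_forall fun x => (hj _).2)
    simpa using this
  have hmean : (mean fun p : E d × M => j (π p.1, p.2)) = (∑ m, t m) / Fintype.card M := rfl
  rw [hmean]
  set T := (∑ m, t m) / Fintype.card M with hT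
  have hT0 : 0 ≤ T := div_nonneg (Finset.sum_nonneg fun m _ => ht0 m) hJ.le
  have hT1 : T ≤ 1 := by
    rw [hT, div_le_one hJ]
    calc _ ≤ ∑ _m : M, (1 : ℝ) := Finset.sum_le_sum fun m _ => ht1 m
      _ = _ := by simp
  have h1 : mvE b (modelLift π fun v v' => j v + j v') ≤
      d * ((∑ m, 4 * √(t m)) / Fintype.card M) :=
    model_mvE_le b fun m y => mvI_junk ((b m).orthonormal.1 y) (hU m)
  have h2 : (∑ m, 4 * √(t m)) / Fintype.card M ≤ 4 * √T := by
    rw [← Finset.mul_sum, mul_div_assoc]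
    exact mul_le_mul_of_nonneg_left (model_sqrt_avg t ht0) (by norm_num)
  have h3 : swE σ (modelLift π fun v v' => j v + j v') = 2 * T := by
    unfold swE
    have : ∀ m m', swI σ (fun x x' => modelLift π (fun v v' => j v + j v') (x, m) (x', m')) =
        t m + t m' := fun m m' => swI_add_const (hU m) (hU m') hσ
    simp only [this, Finset.sum_add_distrib, Finset.sum_const, Finset.card_univ, nsmul_eq_mul]
    rw [← Finset.mul_sum, hT]
    field_simp
    ring
  have h4 : T ≤ √T := by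
    apply Real.le_sqrt_of_sq_le
    nlinarith
  have h5 : (d : ℝ) * ((∑ m, 4 * √(t m)) / Fintype.card M) ≤ d * (4 * √T) :=
    mul_le_mul_of_nonneg_left h2 (Nat.cast_nonneg _)
  have h6 : R * (2 * T) ≤ R * (2 * √T) := mul_le_mul_of_nonneg_left (by linarith) hR
  rw [h3]
  nlinarith

end aux

theorem model {d : ℕ} (hd : 1 ≤ d) {M : Type} [Fintype M] [Nonempty M] [DecidableEq M]
    {b : M → ONB d} (hb : Four b) {r : ℕ} (hr : 1 ≤ r) (hrd : (1 / 2 : ℝ) ^ r * d ≤ 1)
    {L ϑ R β : ℝ} (hL : 0 ≤ L) (hLd : L ≤ d) (hϑ : 1 ≤ ϑ) (hR : 0 ≤ R) (hRr : R ≤ √d / r ^ 2)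
    (hβ : 0 ≤ β) (hβ1 : β ≤ 1 / 1000) (hbad : (gam d).real {x | Typ b L x}ᶜ ≤ β ^ 2) :
    ∃ N : ℕ, N ≤ (2 * d ^ 4 + 1) ^ d ∧ Nonempty (Inst (Fin N × M) (R / 64)
      (128 * (L + 1) * d / ϑ + 144 * R + 160 * d ^ 3 * (4 * d + 2 * R) * β)
      (√(d / ϑ) / 50 - 2) (4 * d + 2 * R) (160 * d ^ 3)) := by
  obtain ⟨N, π, rep, hN, hπ, hrep, hcl⟩ := exists_round hd b hL hLd
  have hJ : (0 : ℝ) < Fintype.card M := Nat.cast_pos.2 Fintype.card_pos
  have hd1 : (1 : ℝ) ≤ d := by exact_mod_cast hd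
  have hd0 : (0 : ℝ) < d := by linarith
  have hϑ0 : 0 < ϑ := by linarith
  have hr1 : (1 : ℝ) ≤ r := by exact_mod_cast hr
  set σ : ℝ := √((1 / 2) ^ r) with hσ
  have hσ2 : σ ^ 2 = (1 / 2) ^ r := Real.sq_sqrt (by positivity)
  have hσ1 : σ ^ 2 ≤ 1 := by rw [hσ2]; exact pow_le_one₀ (by norm_num) (by norm_num)
  have hid : (1 : ℝ) / d ≤ 1 := by rw [div_le_one hd0]; exact hd1
  set dd : Fin N × M → Fin N × M → ℝ := fun v v' =>
    dm b (L + 1) ϑ (rep v.1, v.2) (rep v'.1, v'.2) with hdd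
  have hdd0 : ∀ v v', 0 ≤ dd v v' := fun v v' => dm_nonneg hϑ0 (hrep _) (hrep _)
  have hddle : ∀ v v', dd v v' ≤ 160 * d ^ 3 := by
    intro v v'
    have h1 : dd v v' ≤ 4 * ‖rep v.1 - rep v'.1‖ ^ 2 / ϑ + 96 := dm_le hϑ0 (hrep _) (hrep _)
    have h2 := model_norm_sq (b v.2) (hrep v.1 v.2)
    have h3 := model_norm_sq (b v.2) (hrep v'.1 v.2)
    have h4 : (L + 1) ^ 2 ≤ (2 * d) ^ 2 := pow_le_pow_left₀ (by linarith) (by linarith) 2
    have h5 : (d : ℝ) * (L + 1) ^ 2 ≤ 4 * d ^ 3 := by nlinarith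
    have h6 : ‖rep v.1 - rep v'.1‖ ^ 2 ≤ 16 * d ^ 3 := by
      have h7 := norm_sub_le (rep v.1) (rep v'.1)
      have h8 := pow_le_pow_left₀ (norm_nonneg _) h7 2
      nlinarith [sq_nonneg (‖rep v.1‖ - ‖rep v'.1‖)]
    have h9 : 4 * ‖rep v.1 - rep v'.1‖ ^ 2 / ϑ ≤ 4 * ‖rep v.1 - rep v'.1‖ ^ 2 :=
      div_le_self (by positivity) hϑ
    have h10 : (1 : ℝ) ≤ d ^ 3 := one_le_pow₀ hd1
    linarith
  have hG := measurableSet_typ b L
  have hnear : ∀ x x', Typ b L x → Typ b L x' →
      ‖rep (π x) - rep (π x')‖ ≤ ‖x - x'‖ + 2 ∧ ‖x - x'‖ ≤ ‖rep (π x) - rep (π x')‖ + 2 := by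
    intro x x' hx hx'
    have h1 := hcl x hx
    have h2 := hcl x' hx'
    constructor
    · have e : rep (π x) - rep (π x') = (x - x') - (x - rep (π x)) + (x' - rep (π x')) := by abel
      have h3 := norm_add_le ((x - x') - (x - rep (π x))) (x' - rep (π x'))
      have h4 := norm_sub_le (x - x') (x - rep (π x))
      rw [e]; linarith
    · have e : x - x' = (rep (π x) - rep (π x')) + (x - rep (π x)) - (x' - rep (π x')) := by abel
      have h3 := norm_sub_le ((rep (π x) - rep (π x')) + (x - rep (π x))) (x' - rep (π x'))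
      have h4 := norm_add_le (rep (π x) - rep (π x')) (x - rep (π x))
      rw [e]; linarith
  refine ⟨N, hN, ⟨{
    μ := fun v => (gam d).real (π ⁻¹' {v.1}) / Fintype.card M
    ed := fun H => mvE b (modelLift π H) + R * swE σ (modelLift π H)
    dd := dd
    μ_nonneg := fun v => div_nonneg measureReal_nonneg hJ.le
    μ_sum := ?_
    lin := model_lin hπ b R σ
    pos := fun H hH => add_nonneg (model_mvE_nonneg b fun _ _ => hH _ _)
      (mul_nonneg hR (model_swE_nonneg σ fun _ _ => hH _ _))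
    cnd := cnd_dm (x := fun v : Fin N × M => (rep v.1, v.2)) hϑ0 fun v => hrep _
    dd_self := fun v => dm_self _
    dd_nonneg := hdd0
    tri := fun u v w => dm_tri hϑ0 (hrep _) (hrep _) (hrep _)
    dd_le := hddle
    expand := ?_
    cost := ?_
    avg := ?_
    junk := ?_ }⟩⟩
  · have h := model_mean (M := M) hπ fun _ => (1 : ℝ)
    simp only [mul_one] at h
    rw [h]
    unfold mean
    simp
  · intro f hf
    rw [model_mean hπ f]
    set F : E d × M → ℝ := fun p => f (π p.1, p.2) with hF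
    have hU : ∀ m, U01 fun x => F (x, m) := fun m =>
      model_U01 hπ (g := fun k => f (k, m)) fun k => hf _
    have h := expand hd hb hU hr
    have hc : ∀ p q, 0 ≤ cutF F p q := fun p q =>
      add_nonneg (mul_nonneg (hf _).1 (sub_nonneg.2 (hf _).2))
        (mul_nonneg (hf _).1 (sub_nonneg.2 (hf _).2))
    have h1 := model_mvE_nonneg b hc
    have h2 := model_swE_nonneg σ hc
    have hs : 0 < √(d : ℝ) := Real.sqrt_pos.2 hd0
    have h3 : R / 64 * (64 * r ^ 2 / √d) ≤ 1 := by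
      rw [le_div_iff₀ (by positivity)] at hRr
      have : R / 64 * (64 * r ^ 2 / √d) = R * r ^ 2 / √d := by ring
      rw [this, div_le_one hs]; exact hRr
    have h4 := mul_le_mul_of_nonneg_left h (by positivity : 0 ≤ R / 64)
    have h5 := mul_le_mul_of_nonneg_right h3 h1
    have h6 := mul_nonneg hR h2
    change R / 64 * (mean F * (1 - mean F)) ≤ mvE b (cutF F) + R * swE σ (cutF F)
    nlinarith
  · have h1 : mvE b (modelLift π dd) ≤
        d * ((∑ _m : M, (8 * (16 * (L + 1) / ϑ) + 4 * (160 * d ^ 3) * β)) / Fintype.card M) := by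
      refine model_mvE_le b fun m y => ?_
      refine mvI_cost (b m) y hG hβ hbad (fun _ _ => hdd0 _ _) (fun _ _ => hddle _ _)
        (by positivity) fun x hx x' hx' => ?_
      have h2 : dd (π x, m) (π x', m) ≤ 4 * Nn (b m) (L + 1) (rep (π x)) (rep (π x')) / ϑ :=
        dm_le_Nn (p := (rep (π x), m)) (q := (rep (π x'), m)) hϑ0 (hrep _) (hrep _) rfl
      have h3 : ∑ y', |⟪b m y', rep (π x) - rep (π x')⟫| ≤ ∑ y', |⟪b m y', x - x'⟫| + 2 := by
        have h4 : ∀ y', |⟪b m y', rep (π x) - rep (π x')⟫| ≤ |⟪b m y', x - x'⟫| + 2 / d := by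
          intro y'
          have e : rep (π x) - rep (π x') = (x - x') - (x - rep (π x)) + (x' - rep (π x')) := by
            abel
          have h5 := model_abs_inner (b m) y' (x - rep (π x))
          have h6 := model_abs_inner (b m) y' (x' - rep (π x'))
          have h7 := hcl x hx
          have h8 := hcl x' hx'
          rw [e, inner_add_right, inner_sub_right (b m y') (x - x')]
          have h9 := abs_add_le (⟪b m y', x - x'⟫ - ⟪b m y', x - rep (π x)⟫)
            ⟪b m y', x' - rep (π x')⟫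
          have h10 := abs_sub ⟪b m y', x - x'⟫ ⟪b m y', x - rep (π x)⟫
          have h11 : (2 : ℝ) / d = 1 / d + 1 / d := by ring
          linarith
        calc _ ≤ ∑ y', (|⟪b m y', x - x'⟫| + 2 / d) := Finset.sum_le_sum fun y' _ => h4 y'
          _ = _ := by
            rw [Finset.sum_add_distrib]
            simp only [Finset.sum_const, Finset.card_univ, Fintype.card_fin, nsmul_eq_mul]
            field_simp
      refine h2.trans ?_
      unfold Nn
      have h5 : 4 * (4 * (L + 1) * ∑ y', |⟪b m y', rep (π x) - rep (π x')⟫|) / ϑ =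
          16 * (L + 1) / ϑ * ∑ y', |⟪b m y', rep (π x) - rep (π x')⟫| := by ring
      rw [h5]
      exact mul_le_mul_of_nonneg_left h3 (by positivity)
    have h2 : swE σ (modelLift π dd) ≤ 2 * 8 * σ ^ 2 * d + 128 + 2 * (160 * d ^ 3) * β := by
      refine model_swE_le σ fun m m' => ?_
      refine swI_cost hσ1 hG hβ hbad (fun _ _ => hdd0 _ _) (fun _ _ => hddle _ _)
        (by norm_num) (by norm_num) fun x hx x' hx' => ?_
      have h3 : dd (π x, m) (π x', m') ≤ 4 * ‖rep (π x) - rep (π x')‖ ^ 2 / ϑ + 96 :=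
        dm_le (p := (rep (π x), m)) (q := (rep (π x'), m')) hϑ0 (hrep _) (hrep _)
      have h4 : 4 * ‖rep (π x) - rep (π x')‖ ^ 2 / ϑ ≤ 4 * ‖rep (π x) - rep (π x')‖ ^ 2 :=
        div_le_self (by positivity) hϑ
      have h5 := pow_le_pow_left₀ (norm_nonneg _) (hnear x x' hx hx').1 2
      change dd (π x, m) (π x', m') ≤ _
      nlinarith [sq_nonneg (‖x - x'‖ - 2)]
    have h3 : (∑ _m : M, (8 * (16 * (L + 1) / ϑ) + 4 * (160 * d ^ 3) * β)) / Fintype.card M =
        8 * (16 * (L + 1) / ϑ) + 4 * (160 * d ^ 3) * β := by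
      simp only [Finset.sum_const, Finset.card_univ, nsmul_eq_mul]
      field_simp
    rw [h3] at h1
    have h4 : σ ^ 2 * d ≤ 1 := by rw [hσ2]; exact hrd
    have h5 : swE σ (modelLift π dd) ≤ 144 + 2 * (160 * d ^ 3) * β := by linarith
    have h6 := mul_le_mul_of_nonneg_left h5 hR
    change mvE b (modelLift π dd) + R * swE σ (modelLift π dd) ≤ _
    have h7 : 128 * (L + 1) * d / ϑ + 144 * R + 160 * d ^ 3 * (4 * d + 2 * R) * β =
        d * (8 * (16 * (L + 1) / ϑ) + 4 * (160 * d ^ 3) * β) +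
          R * (144 + 2 * (160 * d ^ 3) * β) := by ring
    rw [h7]
    linarith
  · rw [model_mean2 hπ dd, le_div_iff₀ (by positivity)]
    have hs1 : 1 ≤ √ϑ := Real.one_le_sqrt.2 hϑ
    have h1 : ∀ m m' : M, √(d / ϑ) / 50 - 2 ≤
        ∫ p : E d × E d, dd (π p.1, m) (π p.2, m') ∂((gam d).prod (gam d)) := by
      intro m m'
      have h2 := avg_ge (a := 1 / (2 * √ϑ)) (a' := 3 / 2)
        (model_BM2 hπ fun k k' => dd (k, m) (k', m')) hG hβ hbad (fun _ _ => hdd0 _ _)
        (by positivity) (by norm_num) (fun x hx x' hx' => by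
          have h3 : (‖rep (π x) - rep (π x')‖ / √ϑ - 1) / 2 ≤ dd (π x, m) (π x', m') :=
            dm_ge (p := (rep (π x), m)) (q := (rep (π x'), m')) hϑ0 (hrep _) (hrep _)
          have h4 := (hnear x x' hx hx').2
          have h5 : ‖x - x'‖ / √ϑ ≤ ‖rep (π x) - rep (π x')‖ / √ϑ + 2 / √ϑ := by
            rw [← add_div]; exact div_le_div_of_nonneg_right h4 (by linarith)
          have h6 : 2 / √ϑ ≤ 2 := div_le_self (by norm_num) hs1
          have h7 : 1 / (2 * √ϑ) * ‖x - x'‖ = ‖x - x'‖ / √ϑ / 2 := by ring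
          rw [h7]
          linarith)
      refine le_trans ?_ h2
      rw [Real.sqrt_div hd0.le]
      have h3 : 1 / (2 * √ϑ) * √d * (1 / 20 - 3 * β) = √d / √ϑ * ((1 / 20 - 3 * β) / 2) := by ring
      rw [h3]
      have h4 : 0 ≤ √(d : ℝ) / √ϑ := by positivity
      nlinarith
    calc _ = ∑ _m : M, ∑ _m' : M, (√(d / ϑ) / 50 - 2) := by simp; ring
      _ ≤ _ := Finset.sum_le_sum fun m _ => Finset.sum_le_sum fun m' _ => h1 m m'
  · intro j hj
    rw [model_mean hπ j]
    exact model_junk hπ b hR hσ1 j hj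

end Vale.Agent.P318
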