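import Vale.Agent.P318.Defs

/-! Distributing weighted points over `n` slots of equal weight.  The point `v` gets `⌊n μ v⌋` whole slots, and the
remainders are spread uniformly over the remaining slots. -/

namespace Vale.Agent.P318

open Finset

theorem exists_fibers_slots {W : Type} [Fintype W] (a : W → ℕ) {n : ℕ} (h : ∑ w, a w = n) :
    ∃ P : Fin n → W, ∀ f : W → ℝ, ∑ i, f (P i) = ∑ w, a w * f w := by
  classical
  have e : Fin n ≃ (Σ w : W, Fin (a w)) := Fintype.equivOfCardEq (by simp [h])
  refine ⟨fun i => (e i).1, fun f => ?_⟩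
  rw [Equiv.sum_comp e (fun z => f z.1), Fintype.sum_sigma]
  simp

theorem exists_slots {V : Type} [Fintype V] [DecidableEq V] {μ : V → ℝ} (h0 : ∀ v, 0 ≤ μ v)
    (h1 : ∑ v, μ v = 1) {n : ℕ} (hn : 1 ≤ n) :
    ∃ (κ : V → Fin n → ℝ) (p : Fin n → V), (∀ v i, 0 ≤ κ v i) ∧ (∀ v, ∑ i, κ v i = 1) ∧
      (∀ i, ∑ v, μ v * κ v i = 1 / n) ∧
      ∑ v, μ v * ∑ i ∈ univ.filter (fun i => p i ≠ v), κ v i ≤ Fintype.card V / n := by
  have hn' : (0 : ℝ) < n := by exact_mod_cast hn
  obtain ⟨v₀⟩ : Nonempty V := by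
    by_contra hV
    rw [not_nonempty_iff] at hV
    simp at h1
  let a : V → ℕ := fun v => ⌊n * μ v⌋₊
  have ha1 : ∀ v, (a v : ℝ) ≤ n * μ v := fun v => Nat.floor_le (mul_nonneg hn'.le (h0 v))
  have ha2 : ∀ v, n * μ v ≤ a v + 1 := fun v => (Nat.lt_floor_add_one _).le
  have hsum : ∑ v, a v ≤ n := by
    have : ((∑ v, a v : ℕ) : ℝ) ≤ n := by
      push_cast
      calc ∑ v, (a v : ℝ) ≤ ∑ v, n * μ v := sum_le_sum fun v _ => ha1 v
        _ = n := by rw [← mul_sum, h1, mul_one]
    exact_mod_cast this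
  obtain ⟨r, hr⟩ := Nat.exists_eq_add_of_le hsum
  let ρ : V → ℝ := fun v => μ v - a v / n
  have hρ0 : ∀ v, 0 ≤ ρ v := fun v => by
    simp only [ρ, sub_nonneg]
    rw [div_le_iff₀ hn']
    linarith [ha1 v]
  have hρ1 : ∀ v, ρ v ≤ 1 / n := fun v => by
    simp only [ρ]
    rw [sub_le_iff_le_add, ← add_div, le_div_iff₀ hn']
    linarith [ha2 v]
  have hρs : ∑ v, ρ v = r / n := by
    simp only [ρ]
    rw [sum_sub_distrib, h1, ← sum_div, eq_div_iff hn'.ne', sub_mul, div_mul_cancel₀ _ hn'.ne']
    have : (n : ℝ) = ∑ v, (a v : ℝ) + r := by exact_mod_cast hr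
    linarith
  have hρr : ∀ v, (r : ℝ) * (ρ v / r) = ρ v := fun v => by
    rcases Nat.eq_zero_or_pos r with h | h
    · rw [h, Nat.cast_zero, zero_div] at hρs
      rw [(sum_eq_zero_iff_of_nonneg fun v _ => hρ0 v).1 hρs v (mem_univ v)]
      simp
    · have : (r : ℝ) ≠ 0 := by exact_mod_cast h.ne'
      field_simp
  obtain ⟨P, hP⟩ := exists_fibers_slots (W := Option V) (fun o => o.elim r a) (n := n)
    (by rw [Fintype.sum_option]; simp only [Option.elim]; omega)
  let q : V → Option V → ℝ := fun v o => o.elim (ρ v / r) fun w => if w = v then 1 / n else 0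
  have hq0 : ∀ v o, 0 ≤ q v o := fun v o => by
    cases o with
    | none => exact div_nonneg (hρ0 v) (Nat.cast_nonneg r)
    | some w => simp only [q, Option.elim]; split_ifs <;> positivity
  have hqs : ∀ v, ∑ i, q v (P i) = μ v := fun v => by
    rw [hP, Fintype.sum_option]
    simp only [q, Option.elim, hρr, mul_ite, mul_zero, sum_ite_eq', mem_univ, if_true, ρ]
    ring
  have hqv : ∀ i, ∑ v, q v (P i) = 1 / n := fun i => by
    cases hi : P i with
    | none =>
      have hr0 : (r : ℝ) ≠ 0 := by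
        intro h
        have h2 := hP fun o => o.elim 1 fun _ => 0
        rw [Fintype.sum_option] at h2
        simp only [Option.elim, h, mul_zero, sum_const_zero, zero_mul, add_zero] at h2
        have h3 := (sum_eq_zero_iff_of_nonneg fun j _ => by
          cases P j <;> simp).1 h2 i (mem_univ i)
        rw [hi] at h3
        simp at h3
      simp only [q, Option.elim]
      rw [← sum_div, hρs]
      field_simp
    | some w => simp [q]
  let κ : V → Fin n → ℝ := fun v i => if μ v = 0 then 1 / n else q v (P i) / μ v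
  have hκ : ∀ v i, μ v * κ v i = q v (P i) := fun v i => by
    simp only [κ]
    split_ifs with h
    · have := hqs v
      rw [h] at this
      rw [h, zero_mul, (sum_eq_zero_iff_of_nonneg fun j _ => hq0 v _).1 this i (mem_univ i)]
    · field_simp
  refine ⟨κ, fun i => (P i).getD v₀, fun v i => ?_, fun v => ?_, fun i => ?_, ?_⟩
  · simp only [κ]
    split_ifs
    · positivity
    · exact div_nonneg (hq0 _ _) (h0 v)
  · simp only [κ]
    split_ifs with h
    · simp only [sum_const, card_univ, Fintype.card_fin, nsmul_eq_mul]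
      field_simp
    · rw [← sum_div, hqs, div_self h]
  · simp only [hκ, hqv]
  · calc _ ≤ ∑ _v : V, (1 / n : ℝ) := sum_le_sum fun v _ => ?_
      _ = _ := by simp [div_eq_mul_inv]
    rw [mul_sum, sum_filter]
    simp only [hκ]
    calc _ ≤ ∑ i, (P i).elim (ρ v / r) (fun _ => 0) := sum_le_sum fun i _ => ?_
      _ = ρ v := by
        rw [hP fun o => o.elim (ρ v / r) (fun _ => 0), Fintype.sum_option]
        simp [hρr]
      _ ≤ _ := hρ1 v
    cases P i with
    | none =>
      split_ifs
      · exact le_rfl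
      · exact hq0 v none
    | some w =>
      simp only [Option.getD_some, q, Option.elim]
      by_cases h : w = v <;> simp [h]

end Vale.Agent.P318
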