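import Mathlib

/-! Uniform sparsest cut and the Goemans-Linial relaxation. -/

namespace Vale.Agent.P318

open Finset

/-- Symmetric nonnegative capacities with zero diagonal. -/
def IsCapacity {n : ℕ} (c : Fin n → Fin n → ℝ) : Prop :=
  (∀ i j, c i j = c j i) ∧ (∀ i j, 0 ≤ c i j) ∧ ∀ i, c i i = 0

/-- The value of uniform sparsest cut. -/
noncomputable def Phi {n : ℕ} (c : Fin n → Fin n → ℝ) : ℝ :=
  sInf {t | ∃ S : Finset (Fin n), S.Nonempty ∧ S ≠ univ ∧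
    t = (∑ i ∈ S, ∑ j ∈ Sᶜ, c i j) / ((S.card : ℝ) * ((n : ℝ) - S.card))}

/-- Negative-type semimetrics. -/
def IsNegType {n : ℕ} (d : Fin n → Fin n → ℝ) : Prop :=
  (∃ x : Fin n → EuclideanSpace ℝ (Fin n), ∀ i j, d i j = ‖x i - x j‖ ^ 2) ∧
    ∀ i j k, d i k ≤ d i j + d j k

/-- Sum over the pairs `i < j`. -/
def pairSum {n : ℕ} (a : Fin n → Fin n → ℝ) : ℝ :=
  ∑ i, ∑ j ∈ univ.filter (fun j => i < j), a i j

/-- The value of the Goemans-Linial relaxation. -/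
noncomputable def GLv {n : ℕ} (c : Fin n → Fin n → ℝ) : ℝ :=
  sInf {t | ∃ d : Fin n → Fin n → ℝ, IsNegType d ∧ pairSum d = 1 ∧
    t = pairSum fun i j => c i j * d i j}

end Vale.Agent.P318
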